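import Vale.Agent.P146.H320.TypS
import Vale.Agent.P146.H412.K8S
import Vale.Agent.P146.H197.KUp
import Vale.Agent.P146.H615.ErAP
import Vale.Agent.P146.H463.Q4can
import Vale.Agent.P146.H355.K3Can

/-!
# P146: the typical point of the near end

`ne_pt` : for `T` there are shares `t ∈ [1-T/2, 1-T/4]`, `u ∈ [u0, u1]` and a number `m` of hidden
sites between `m1` and `2 m1` such that the rank one number and the increment at the next site are
small at `(t, u, Sn n m)`, and the overlap moment is at least the one at `(1-T/2, u0, Sn n (2 m1))`.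
`U` is the a-priori size of the overlap, at most one.
-/

open MeasureTheory ProbabilityTheory

namespace Vale.Agent.P146.H272

open Vale.Agent.P157.Lv Vale.Agent.P146.H425 Vale.Agent.P146.H646 Vale.Agent.P146.H196
  Vale.Agent.P146.H475 Vale.Agent.P146.H347 Vale.Agent.P146.H418 Vale.Agent.P146.H412
  Vale.Agent.P146.H320 Vale.Agent.P146.H205

variable {L : Law}

lemma Sn_sub {n m m' : ℕ} (h : m ≤ m') : Sn n m' ⊆ Sn n m := by
  intro i hi
  simp only [Sn, Finset.mem_filter, Finset.mem_univ, true_and] at hi ⊢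
  omega

lemma ex_Q0_le (hl : 0 < L.lam) (hη : 0 ≤ L.η) (hn : 0 < L.n) (S : Finset (Fin L.n)) {t u U : ℝ}
    (hU0 : 0 ≤ U) (hU : L.ex' t u (CC L S t u) ≤ U ^ 2) : L.ex' t u (L.Q0 S t u) ≤ U := by
  have hw := wtL (L := L) hl hη t u
  have h1 := H615.ex_le_sqrt hw (bm_Q0 hl hη S t u)
  refine (show L.ex' t u (L.Q0 S t u) ≤ _ from h1).trans (H615.sqrt_le_num hU0 ?_)
  have h2 := mom_Q0 hl hη hn S t u 1
  simp only [pow_one] at h2
  exact (show L.ex' t u (fun z => L.Q0 S t u z ^ (2 * 1)) ≤ _ from h2).trans hU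

lemma ff_le_U (hl : 0 < L.lam) (hη : 0 ≤ L.η) (hn : 0 < L.n) (S : Finset (Fin L.n)) {t u U : ℝ}
    (hU0 : 0 ≤ U) (hU : L.ex' t u (CC L S t u) ≤ U ^ 2) : L.ff S t u ≤ L.n * U := by
  have hn0 : (0 : ℝ) < L.n := by exact_mod_cast hn
  have h1 := ex_Q0_le hl hη hn S hU0 hU
  have e : L.ff S t u = L.n * L.ex' t u (L.Q0 S t u) := by
    have e2 : L.Q0 S t u = fun z => (1 / (L.n : ℝ)) *
        ∑ i ∈ S, L.cx' S t u (fun w => H325.sp w.2 i) z ^ 2 := by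
      funext z
      unfold Law.Q0
      ring
    rw [e2]
    unfold Law.ex' Law.ff
    rw [H487.ex_const_mul, ← mul_assoc, mul_one_div_cancel hn0.ne', one_mul]
    rfl
  rw [e]
  exact mul_le_mul_of_nonneg_left h1 hn0.le

lemma ex_Q_le (hl : 0 < L.lam) (hη : 0 ≤ L.η) (hη1 : L.η ≤ 1 / 2) (hn : 0 < L.n)
    (S : Finset (Fin L.n)) {t u U : ℝ}
    (hU0 : 0 ≤ U) (hU : L.ex' t u (CC L S t u) ≤ U ^ 2) :
    L.ex' t u (L.Q S t u) ≤ 9 / 4 * U := by
  have hw := wtL (L := L) hl hη t u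
  have h1 := H615.ex_le_sqrt hw (bm_Q hl hη S t u)
  refine (show L.ex' t u (L.Q S t u) ≤ _ from h1).trans (H615.sqrt_le_num (by positivity) ?_)
  have h2 := mom_Q hl hη hn S t u 1
  simp only [pow_one] at h2
  refine (show L.ex' t u (fun z => L.Q S t u z ^ (2 * 1)) ≤ _ from h2).trans ?_
  have h3 : (1 + L.η) ^ (4 * 1) ≤ (9 / 4) ^ 2 := by
    calc (1 + L.η) ^ (4 * 1) ≤ (1 + 1 / 2) ^ (4 * 1) := by gcongr
      _ = (9 / 4) ^ 2 := by norm_num
  have h4 : 0 ≤ L.ex' t u (CC L S t u) :=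
    H615.ex_nonneg hw fun z => CC_nonneg hl hη S t u z
  calc (1 + L.η) ^ (4 * 1) * L.ex' t u (CC L S t u) ≤ (9 / 4) ^ 2 * U ^ 2 := by gcongr
    _ = (9 / 4 * U) ^ 2 := by ring

/-- **The typical point of the near end.** -/
theorem ne_pt (h : Adm L) (hη1 : L.η ≤ 1 / 2) {T u0 u1 U : ℝ} (hT0 : 0 < T) (hT1 : T ≤ 1)
    (hu0 : 0 ≤ u0) (hu : u0 ≤ u1) (hu1 : u1 ≤ 1) (hU0 : 0 ≤ U) {m1 : ℕ} (h1 : 1 ≤ m1)
    (hU : L.ex' (1 - T / 4) u1 (CC L Finset.univ (1 - T / 4) u1) ≤ U ^ 2) :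
    ∃ t ∈ Set.Icc (1 - T / 2) (1 - T / 4), ∃ u ∈ Set.Icc u0 u1, ∃ m ∈ Finset.Icc m1 (2 * m1),
      L.rr (Sn L.n (2 * m1)) (1 - T / 2) u0 ≤ L.rr (Sn L.n m) t u ∧
      L.x ^ 2 * L.vp * (u1 - u0) * (L.n ^ 2 * L.rk (Sn L.n m) t u) ≤ 6 * (L.n * U) ∧
      (∀ i0 : Fin L.n, i0.1 + m = L.n →
        incL L (cb t) (cf L.vp u) (Sn L.n m) (Kset (Sn L.n m) {true} {true})
          (Kset (insert i0 (Sn L.n m)) {true} {true}) ≤ 6 * (L.n * (9 / 4 * U)) / m1) := by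
  have ht0 : 0 ≤ 1 - T / 2 := by linarith
  have ht01 : 1 - T / 2 ≤ 1 - T / 4 := by linarith
  have ht1 : 1 - T / 4 ≤ 1 := by linarith
  obtain ⟨t, ht, u, hu', m, hm, hA⟩ := typ1 h h1 (show m1 ≤ 2 * m1 by omega) ht0 ht01 ht1 hu0 hu hu1
  have hm' := Finset.mem_Icc.1 hm
  have hty := hA Bool Bool (cb t) (cf L.vp u) {true} {true}
    (sh_can h (ht0.trans ht.1) (ht.2.trans ht1) (hu0.trans hu'.1) (hu'.2.trans hu1))
  have hm1 : (0 : ℝ) < m1 := by exact_mod_cast h1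
  refine ⟨t, ht, u, hu', m, hm, ?_, ?_, fun i0 hi0 => ?_⟩
  · exact H197.rr_mono L h.lam0 h.η0 h.vp0 (Sn_sub hm'.2) ht0 ht.1 (ht.2.trans ht1) hu0 hu'.1
      (hu'.2.trans hu1)
  · have h2 := hty.rk (Sn L.n m) (Or.inl rfl)
    rw [rkL_can h] at h2
    refine h2.trans ?_
    have h3 := ff_le_U h.lam0 h.η0 h.n0 Finset.univ hU0 hU
    linarith
  · have h2 := hty.inc i0 hi0
    refine h2.trans ?_
    have h3 := ex_Q_le h.lam0 h.η0 hη1 h.n0 Finset.univ hU0 hU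
    have h4 : ((2 * m1 : ℕ) : ℝ) - m1 + 1 = m1 + 1 := by push_cast; ring
    rw [h4]
    have hn0 : (0 : ℝ) ≤ L.n := Nat.cast_nonneg _
    have h5 : 6 * (L.n * L.ex' (1 - T / 4) u1 (L.Q Finset.univ (1 - T / 4) u1)) ≤
        6 * (L.n * (9 / 4 * U)) := by gcongr
    calc 6 * (L.n * L.ex' (1 - T / 4) u1 (L.Q Finset.univ (1 - T / 4) u1)) / (m1 + 1)
        ≤ 6 * (L.n * (9 / 4 * U)) / (m1 + 1) := by gcongr
      _ ≤ 6 * (L.n * (9 / 4 * U)) / m1 := by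
          apply div_le_div_of_nonneg_left (by positivity) hm1
          linarith

/-- all the numbers at the typical point of the near end; `U` is the a-priori size of the overlap,
`wn` the variance of the plain field which stays hidden -/
structure NeP (L : Law) (b2 U T wn : ℝ) (m : ℕ) (t u : ℝ) : Prop where
  m1 : 1 ≤ m
  mn : m < L.n
  t0 : 1 - T / 2 ≤ t
  t1 : t ≤ 1 - T / 4
  u0 : 0 ≤ u
  u1 : u < 1
  hw : wn / 2 ≤ (1 - u) * L.vp
  rk : L.x ^ 2 * (wn / 2) * (L.n ^ 2 * L.rk (Sn L.n m) t u) ≤ 6 * (L.n * U)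
  inc : ∀ i0 : Fin L.n, i0.1 + m = L.n →
    incL L (cb t) (cf L.vp u) (Sn L.n m) (Kset (Sn L.n m) {true} {true})
      (Kset (insert i0 (Sn L.n m)) {true} {true}) ≤ 27 * (L.n * U) / m
  cc1 : ∀ S : Finset (Fin L.n), L.ex' t u (CC L S t u) ≤ U ^ 2
  cc2 : ∀ S : Finset (Fin L.n), L.ex' t u (fun z => CC L S t u z ^ 2) ≤ U ^ 4
  q4 : ∀ S : Finset (Fin L.n), L.ex' t u (H463.Q4g (muA (Xs L.n) L.lam L.η L.c)
    (Sm L.b (cb t) (cf L.vp u) L.s L.η) L.x (Kt L.n S) (H463.spR L.n) S) ≤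
      (L.n : ℝ) ^ 4 * (3 * U ^ 2) ^ 2
  k3 : ∀ i0 : Fin L.n, i0.1 + m = L.n →
    L.ex' t u (fun z => if -H355.cK b2 / 2 < H355.kapL L (Sn L.n m) t u i0 z then 1 else 0) ≤
      32 / H355.cK b2 * (1 / √(m : ℝ) + (1 / √(L.n * (wn / 2)) + L.η * |L.s| / √(wn / 2)))

/-- the overlap moments are at most one -/
lemma CC_le1 (hl : 0 < L.lam) (hη : 0 ≤ L.η) (hn : 0 < L.n) (S : Finset (Fin L.n)) (t u : ℝ)
    (z : Co L.n Bool Bool → ℝ) : CC L S t u z ≤ 1 := by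
  have hw := wtL (L := L) hl hη t u
  have hG := gmA (n := L.n) L.b (cb t) (cf L.vp u) L.s hl hη L.c
  have hn0 : (0 : ℝ) < L.n := by exact_mod_cast hn
  have hS : (S.card : ℝ) ≤ L.n := by
    have h5 := Finset.card_le_univ S
    rw [Fintype.card_fin] at h5
    exact_mod_cast h5
  have h1 : ∀ i j : Fin L.n, L.cx' S t u (fun w => H325.sp w.2 i * H325.sp w.2 j) z ^ 2 ≤ 1 := by
    intro i j
    have h2 : |L.cx' S t u (fun w => H325.sp w.2 i * H325.sp w.2 j) z| ≤ 1 := by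
      refine hw.abs_cx_le _ ((H615.av_gm hG 1).bm ((H347.bm_sp i).mul (H347.bm_sp j)))
        (fun z' => ?_) z
      refine hG.abs_av_le 1 ((H347.bm_sp i).mul (H347.bm_sp j)).1 (fun w => ?_) z'
      show |H325.sp w.2 i * H325.sp w.2 j| ≤ 1
      rw [abs_mul, H325.abs_sp, H325.abs_sp, one_mul]
    calc _ = |L.cx' S t u (fun w => H325.sp w.2 i * H325.sp w.2 j) z| ^ 2 := (sq_abs _).symm
      _ ≤ 1 ^ 2 := pow_le_pow_left₀ (abs_nonneg _) h2 2
      _ = 1 := one_pow 2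
  unfold CC
  rw [div_le_one (by positivity)]
  calc ∑ i ∈ S, ∑ j ∈ S, L.cx' S t u (fun w => H325.sp w.2 i * H325.sp w.2 j) z ^ 2 ≤
        ∑ _i ∈ S, ∑ _j ∈ S, (1 : ℝ) :=
          Finset.sum_le_sum fun i _ => Finset.sum_le_sum fun j _ => h1 i j
    _ = (S.card : ℝ) * S.card := by
        rw [Finset.sum_const, Finset.sum_const, nsmul_eq_mul, nsmul_eq_mul, mul_one]
    _ ≤ L.n ^ 2 := by
        rw [sq]
        gcongr

lemma Q4_le1 (hl : 0 < L.lam) (hη : 0 ≤ L.η) (hn : 0 < L.n) (S : Finset (Fin L.n)) (t u : ℝ)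
    (z : Co L.n Bool Bool → ℝ) :
    H463.Q4g (muA (Xs L.n) L.lam L.η L.c) (Sm L.b (cb t) (cf L.vp u) L.s L.η) L.x (Kt L.n S)
      (H463.spR L.n) S z ≤ (L.n : ℝ) ^ 4 := by
  have hw := wtL (L := L) hl hη t u
  have hG := gmA (n := L.n) L.b (cb t) (cf L.vp u) L.s hl hη L.c
  have hS : (S.card : ℝ) ≤ L.n := by
    have h5 := Finset.card_le_univ S
    rw [Fintype.card_fin] at h5
    exact_mod_cast h5
  have hb : ∀ j : Fin L.n, H615.Bd (H463.spR L.n j) := fun j => H347.bm_sp j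
  have ha : ∀ (j : Fin L.n) (w : ℝ × Xs L.n), |H463.spR L.n j w| = 1 := fun j w =>
    H325.abs_sp w.2 j
  unfold H463.Q4g H463.F2
  have h1 : ∀ p q : Fin L.n × Fin L.n, cx (g1 _) (Kt L.n S)
      (Zxm (muA (Xs L.n) L.lam L.η L.c) 1 (Sm L.b (cb t) (cf L.vp u) L.s L.η) L.x)
      (avm (muA (Xs L.n) L.lam L.η L.c) 1 (Sm L.b (cb t) (cf L.vp u) L.s L.η)
        (fun w => H463.spR L.n p.1 w * H463.spR L.n p.2 w *
          (H463.spR L.n q.1 w * H463.spR L.n q.2 w))) z ^ 2 ≤ 1 := by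
    intro p q
    have hB := ((hb p.1).mul (hb p.2)).mul ((hb q.1).mul (hb q.2))
    have h2 : |cx (g1 _) (Kt L.n S)
      (Zxm (muA (Xs L.n) L.lam L.η L.c) 1 (Sm L.b (cb t) (cf L.vp u) L.s L.η) L.x)
      (avm (muA (Xs L.n) L.lam L.η L.c) 1 (Sm L.b (cb t) (cf L.vp u) L.s L.η)
        (fun w => H463.spR L.n p.1 w * H463.spR L.n p.2 w *
          (H463.spR L.n q.1 w * H463.spR L.n q.2 w))) z| ≤ 1 := by
      refine hw.abs_cx_le _ ((H615.av_gm hG 1).bm hB) (fun z' => ?_) z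
      refine hG.abs_av_le 1 hB.1 (fun w => ?_) z'
      simp only [abs_mul, ha, mul_one, le_refl]
    calc _ = |_| ^ 2 := (sq_abs _).symm
      _ ≤ 1 ^ 2 := pow_le_pow_left₀ (abs_nonneg _) h2 2
      _ = 1 := one_pow 2
  calc _ ≤ ∑ _p ∈ S ×ˢ S, ∑ _q ∈ S ×ˢ S, (1 : ℝ) :=
        Finset.sum_le_sum fun p _ => Finset.sum_le_sum fun q _ => h1 p q
    _ = ((S.card : ℝ) * S.card) * (S.card * S.card) := by
        rw [Finset.sum_const, Finset.sum_const, nsmul_eq_mul, nsmul_eq_mul, mul_one,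
          Finset.card_product]
        push_cast
        ring
    _ ≤ (L.n * L.n) * (L.n * L.n) := by gcongr
    _ = (L.n : ℝ) ^ 4 := by ring

/-- **The numbers at the typical point.** -/
theorem ne_num (h : Adm L) (hη1 : L.η ≤ 1 / 2) (hx : 0 < L.x) (hxb : L.x ^ 2 * L.b ^ 2 ≤ 4)
    {b2 : ℝ} (hb2 : 0 < b2) (hxc : L.x ≤ H355.cK b2 / 4)
    (hbb : L.b ^ 2 + L.vp + (1 + L.η) ^ 2 * L.s ^ 2 ≤ b2) {g : ℝ}
    (hg : ∀ t ∈ Set.Icc (0 : ℝ) 1, ∀ u ∈ Set.Icc (0 : ℝ) 1, gn L t u ≤ g) (hg1 : 1 ≤ g)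
    {T wn : ℝ} (hT0 : 0 < T) (hT1 : T ≤ 1) (hwn : 0 < wn) (hwv : wn ≤ L.vp)
    {m1 : ℕ} (h1 : 1 ≤ m1) (h2 : 2 * m1 < L.n) :
    ∃ t u : ℝ, ∃ m ∈ Finset.Icc m1 (2 * m1),
      NeP L b2 (min 1 (8 * √(g / (L.x ^ 2 * L.b ^ 2 * T * L.n)))) T wn m t u ∧
      L.rr (Sn L.n (2 * m1)) (1 - T / 2) (1 - wn / L.vp) ≤ L.rr (Sn L.n m) t u := by
  have hn0 : (0 : ℝ) < L.n := by exact_mod_cast h.n0
  have hv := h.vp0
  have hb := h.b0
  have hl := h.lam0
  have hη := h.η0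
  set r := g / (L.x ^ 2 * L.b ^ 2 * T * L.n) with hr
  have hg0 : 0 < g := by linarith
  have hr0 : 0 < r := by rw [hr]; positivity
  set U8 := 8 * √r with hU8
  have hU80 : 0 < U8 := by rw [hU8]; positivity
  have hU2 : U8 ^ 2 = 64 * r := by
    rw [hU8, mul_pow, Real.sq_sqrt hr0.le]
    norm_num
  set U := min 1 U8 with hU
  have hU0 : 0 < U := by rw [hU]; exact lt_min one_pos hU80
  have hmin : ∀ X : ℝ, X ≤ 1 → X ≤ U8 ^ 2 → X ≤ U ^ 2 := by
    intro X h1 h2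
    rcases min_choice 1 U8 with h3 | h3 <;> rw [hU, h3]
    · simpa using h1
    · exact h2
  have hmin4 : ∀ X : ℝ, X ≤ 1 → X ≤ U8 ^ 4 → X ≤ U ^ 4 := by
    intro X h1 h2
    rcases min_choice 1 U8 with h3 | h3 <;> rw [hU, h3]
    · simpa using h1
    · exact h2
  -- moments at every point of the window
  have mom : ∀ t u : ℝ, 0 ≤ t → t ≤ 1 - T / 4 → 0 ≤ u → u ≤ 1 → ∀ S : Finset (Fin L.n),
      L.ex' t u (CC L S t u) ≤ U ^ 2 ∧ L.ex' t u (fun z => CC L S t u z ^ 2) ≤ U ^ 4 ∧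
      L.ex' t u (H463.Q4g (muA (Xs L.n) L.lam L.η L.c)
        (Sm L.b (cb t) (cf L.vp u) L.s L.η) L.x (Kt L.n S) (H463.spR L.n) S) ≤
          (L.n : ℝ) ^ 4 * (3 * U ^ 2) ^ 2 := by
    intro t u ht0 ht1 hu0 hu1 S
    have htt : T / 4 ≤ 1 - t := by linarith
    have ht2 : t < 1 := by linarith
    have h1t : 0 < 1 - t := by linarith
    have hgt := hg t ⟨ht0, ht2.le⟩ u ⟨hu0, hu1⟩
    have hq : 4 * g / (L.x ^ 2 * L.b ^ 2 * (1 - t) * L.n) ≤ 16 * r := by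
      rw [hr, ← mul_div_assoc, div_le_div_iff₀ (by positivity) (by positivity)]
      have h3 : 4 * g * (L.x ^ 2 * L.b ^ 2 * T * L.n) =
          16 * g * (L.x ^ 2 * L.b ^ 2 * (T / 4) * L.n) := by ring
      rw [h3]
      gcongr
    have hq0 : 0 ≤ 4 * g / (L.x ^ 2 * L.b ^ 2 * (1 - t) * L.n) := by positivity
    have hw := wtL (L := L) hl hη t u
    have hC0 : ∀ z, 0 ≤ CC L S t u z := fun z => CC_nonneg hl hη S t u z
    have hC1 : ∀ z, CC L S t u z ≤ 1 := fun z => CC_le1 hl hη h.n0 S t u z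
    have bC := bm_CC (L := L) hl hη S t u
    refine ⟨hmin _ ?_ ?_, hmin4 _ ?_ ?_, ?_⟩
    · exact (H615.ex_mono hw bC (BM.const 1) hC1).trans (H615.ex_const hw 1).le
    · have h3 := mom_CC hl hη hx h.n0 hb.ne' ht0 ht2 hxb S u hgt hg1 1
      simp only [pow_one] at h3
      refine h3.trans ?_
      have h4 : Cp 1 = 3 := by norm_num [Cp]
      rw [h4, hU2]
      linarith
    · exact (H615.ex_mono hw (H615.bsq bC) (BM.const 1) fun z =>
        pow_le_one₀ (hC0 z) (hC1 z)).trans (H615.ex_const hw 1).le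
    · have h3 := mom_CC hl hη hx h.n0 hb.ne' ht0 ht2 hxb S u hgt hg1 2
      refine h3.trans ?_
      have h4 : Cp 2 = 14 := by norm_num [Cp, Nat.factorial]
      have h5 : U8 ^ 4 = (64 * r) ^ 2 := by rw [← hU2]; ring
      rw [h4, h5]
      calc 14 * (4 * g / (L.x ^ 2 * L.b ^ 2 * (1 - t) * L.n)) ^ 2 ≤ 14 * (16 * r) ^ 2 := by gcongr
        _ ≤ (64 * r) ^ 2 := by nlinarith [sq_nonneg r]
    · have bsp : ∀ j : Fin L.n, H615.Bd (H463.spR L.n j) := fun j => H347.bm_sp j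
      have bQ := H463.bm_Q4g (gmA (n := L.n) L.b (cb t) (cf L.vp u) L.s hl hη L.c) L.x
        (Kt L.n S) bsp S
      rcases min_choice 1 U8 with h9 | h9 <;> rw [hU, h9]
      · refine (H615.ex_mono hw bQ (BM.const _) fun z => Q4_le1 hl hη h.n0 S t u z).trans ?_
        rw [H615.ex_const hw]
        have : (0 : ℝ) ≤ (L.n : ℝ) ^ 4 := by positivity
        linarith
      · have h3 := H463.q4_can (L := L) hl hη hx h.x1 h.n0 hb.ne' hv ht0 ht2 hu0 hu1 hxb S hgt hg1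
        refine h3.trans ?_
        have h4 : 43 * g / (L.x ^ 2 * L.b ^ 2 * (1 - t) * L.n) ≤ 3 * U8 ^ 2 := by
          have h5 : 43 * g / (L.x ^ 2 * L.b ^ 2 * (1 - t) * L.n) =
              43 / 4 * (4 * g / (L.x ^ 2 * L.b ^ 2 * (1 - t) * L.n)) := by ring
          rw [h5, hU2]
          linarith
        gcongr
  -- the window of the field
  have hwv' : wn / L.vp ≤ 1 := by rw [div_le_one hv]; exact hwv
  have hwp : 0 < wn / L.vp := by positivity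
  set u0 := 1 - wn / L.vp with hu0
  set u1 := 1 - wn / L.vp / 2 with hu1
  have hu00 : 0 ≤ u0 := by rw [hu0]; linarith
  have hu01 : u0 ≤ u1 := by rw [hu0, hu1]; linarith
  have hu11 : u1 < 1 := by rw [hu1]; linarith
  have hT4 : 0 ≤ 1 - T / 4 := by linarith
  obtain ⟨t, ht, u, hu', m, hm, k1, k2, k3⟩ := ne_pt (L := L) h hη1 hT0 hT1 hu00 hu01 hu11.le
    hU0.le h1 (mom (1 - T / 4) u1 hT4 le_rfl (hu00.trans hu01) hu11.le Finset.univ).1
  have hm' := Finset.mem_Icc.1 hm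
  have ht0 : 0 ≤ t := by have := ht.1; linarith
  have hu0' : 0 ≤ u := hu00.trans hu'.1
  have hu1' : u < 1 := hu'.2.trans_lt hu11
  have hmm := mom t u ht0 ht.2 hu0' hu1'.le
  have hmR : (0 : ℝ) < m := by
    have : 0 < m := by omega
    exact_mod_cast this
  have hm1R : (0 : ℝ) < m1 := by exact_mod_cast h1
  have hm2 : (m : ℝ) ≤ 2 * m1 := by exact_mod_cast hm'.2
  have hhw : wn / 2 ≤ (1 - u) * L.vp := by
    have h3 : wn / L.vp / 2 ≤ 1 - u := by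
      have := hu'.2
      rw [hu1] at this
      linarith
    calc wn / 2 = wn / L.vp / 2 * L.vp := by field_simp
      _ ≤ (1 - u) * L.vp := mul_le_mul_of_nonneg_right h3 hv.le
  refine ⟨t, u, m, hm, ⟨by omega, by omega, ht.1, ht.2, hu0', hu1', hhw, ?_, fun i0 hi0 => ?_,
    fun S => (hmm S).1, fun S => (hmm S).2.1, fun S => (hmm S).2.2, fun i0 hi0 => ?_⟩, k1⟩
  · have h3 : L.vp * (u1 - u0) = wn / 2 := by
      rw [hu0, hu1]
      field_simp
      ring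
    have h4 : L.x ^ 2 * L.vp * (u1 - u0) = L.x ^ 2 * (wn / 2) := by
      rw [mul_assoc, h3]
    rw [h4] at k2
    exact k2
  · refine (k3 i0 hi0).trans ?_
    rw [div_le_div_iff₀ hm1R hmR]
    have h3 : 0 ≤ L.n * U := by positivity
    nlinarith
  · refine (H355.k3_can L hl hη hx.le hb2 hxc hbb hv ht0 (by linarith [ht.2]) hu0' hu1'
      hi0).trans ?_
    have hc : 0 ≤ 32 / H355.cK b2 := by
      have := H355.cK_pos hb2
      positivity
    have hw2 : 0 < wn / 2 := by positivity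
    have e1 : 1 / √(L.n * ((1 - u) * L.vp)) ≤ 1 / √(L.n * (wn / 2)) := by
      apply one_div_le_one_div_of_le (Real.sqrt_pos.2 (by positivity))
      exact Real.sqrt_le_sqrt (by gcongr)
    have e2 : L.η * |L.s| / √((1 - u) * L.vp) ≤ L.η * |L.s| / √(wn / 2) := by
      apply div_le_div_of_nonneg_left (by positivity) (Real.sqrt_pos.2 hw2)
      exact Real.sqrt_le_sqrt hhw
    gcongr

end Vale.Agent.P146.H272
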