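import Vale.Agent.P146.H272.NeKW
import Vale.Agent.P146.H586.NeBad

/-!
# P146: the near end, first stage, from the estimate at one law

`NeBad b b2 ε`: at a typical point, if the numbers are small (bounded by `ε`) against a lower
bound `h0` of the second moment of the overlap, the overlap moment is at most a constant times `h0`.
`ne_s1`: hence the near end on the window, with `s² = n^(-37q) y^4`.
`n7_s1`: the same for the full set of sites (with `H30.ne_end`).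
-/

open MeasureTheory ProbabilityTheory Filter Topology Set

namespace Vale.Agent.P146.H272

open Vale.Agent.P157.Lv hiding Dep
open Vale.Agent.P146.H425 Vale.Agent.P146.H646 Vale.Agent.P146.H196
  Vale.Agent.P146.H475 Vale.Agent.P146.H347 Vale.Agent.P146.H418 Vale.Agent.P146.H412
  Vale.Agent.P146.H320 Vale.Agent.P146.H205 Vale.Agent.P146.H470 Vale.Agent.P146.H529
  Vale.Agent.P146.H355

/-- the estimate at one law -/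
def NeBad (b b2 ε : ℝ) : Prop :=
  ∀ (L : Law), L.b = b → Adm L → L.η ≤ 1 / 2 → L.s ≠ 0 → 0 < L.x → L.x < 1 → ∀ r0 : ℝ,
    L.c = L.s ^ 2 * L.n * (1 - (1 - L.x) * r0) → 0 < 1 - (1 - L.x) * r0 →
    b * (1 - (1 - L.x) * r0) ≤ 2 → 8 * (L.x ^ 2 * L.b ^ 2) ≤ 1 → L.x * √b2 ≤ 1 / 4 →
    L.b ^ 2 + L.vp ≤ b2 → ∀ (T wn U t u : ℝ) (m : ℕ), NeP L b2 U T wn m t u → 0 < U → U ≤ 1 →
    0 < T → T ≤ 1 → 0 < wn → 2 * m ≤ L.n → L.vp / L.b ^ 2 ≤ U → ∀ h0 κ : ℝ, 0 < h0 → 1 ≤ κ →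
    U ^ 2 ≤ κ * h0 → 1 / L.n ≤ h0 →
    κ * (5 / √m + 2 * |L.lam / ((1 - L.x) * (L.s ^ 2 * L.n))| +
      3 * ((|r0| + 1) * √(H615.PstL L t u)) / √U) ≤ ε * h0 →
    κ ^ 2 * (12 * U / (L.x ^ 2 * wn * L.n)) ≤ ε ^ 2 * h0 →
    κ ^ 2 * (32 / cK b2 * (1 / √m + (1 / √(L.n * (wn / 2)) + L.η * |L.s| / √(wn / 2)))) ≤ ε →
    L.η * κ ≤ ε → L.x ≤ ε * √h0 → L.x * κ ≤ ε → T ≤ ε * h0 → m / L.n ≤ ε * h0 →
    1 - (b * (1 - (1 - L.x) * r0)) ^ 2 ≤ ε * h0 → L.vp / L.b ^ 2 ≤ ε * (h0 * √h0) →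
    54 * U / m ≤ ε * (h0 * √h0) → L.rr (Sn L.n m) t u ≤ (22 / b ^ 4 + 4) * h0

/-- the constants -/
lemma eps_facts {b ε kc : ℝ} (hb : 0 < b) (hε : 0 < ε) (hkc : 0 < kc) :
    ∃ ε' : ℝ, 0 < ε' ∧ 10 * ε' ≤ ε ∧ kc * (3 * ε') ≤ ε ∧ ε' / b ^ 2 ≤ ε := by
  have hib : 0 < 1 / b ^ 2 := by positivity
  set X : ℝ := 1 / b ^ 2 with hX
  have hD0p : 0 < 10 * (1 + kc) * (1 + X) := by positivity
  have hkX : 0 < kc * X := by positivity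
  have eD : 10 * (1 + kc) * (1 + X) = 10 + 10 * kc + 10 * X + 10 * (kc * X) := by ring
  have heD : ε / (10 * (1 + kc) * (1 + X)) * (10 * (1 + kc) * (1 + X)) = ε := by field_simp
  set ε' : ℝ := ε / (10 * (1 + kc) * (1 + X)) with hε'
  have hε'0 : 0 < ε' := by positivity
  rw [eD] at heD
  have m1 : 0 < ε' * kc := by positivity
  have m2 : 0 < ε' * X := by positivity
  have m3 : 0 < ε' * (kc * X) := by positivity
  have heE : 10 * ε' + 10 * (ε' * kc) + 10 * (ε' * X) + 10 * (ε' * (kc * X)) = ε := by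
    rw [← heD]
    ring
  refine ⟨ε', hε'0, by linarith, by linarith, ?_⟩
  have : ε' / b ^ 2 = ε' * X := by rw [hX]; ring
  rw [this]
  linarith

/-- the small parameters -/
lemma small_facts {b c y V s η al : ℝ} (hb : 0 < b) (hy : 0 < y) (hη : 0 < η)
    (h1 : y ≤ c) (h2 : V ≤ c) (h3 : s ^ 2 ≤ c) (h4 : η ≤ c) (h5 : |al| ≤ c)
    (hc1 : c ≤ 1 / (4 * (√(b ^ 2 + 2) + 1))) (hc2 : c ≤ 1 / 8) :
    y * √(b ^ 2 + 2) ≤ 1 / 4 ∧ 8 * (y ^ 2 * b ^ 2) ≤ 1 ∧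
      b ^ 2 + (V - s ^ 2) + (1 + η) ^ 2 * s ^ 2 ≤ b ^ 2 + 2 ∧ b ^ 2 + (V - s ^ 2) ≤ b ^ 2 + 2 ∧
      0 < 1 + al ∧ 1 + al ≤ 2 ∧ 1 - (1 + al) ^ 2 ≤ 2 * |al| := by
  have hs0 : 0 ≤ √(b ^ 2 + 2) := Real.sqrt_nonneg _
  have hysb : y * √(b ^ 2 + 2) ≤ 1 / 4 := by
    have k1 : y * (4 * (√(b ^ 2 + 2) + 1)) ≤ 1 := by
      have := h1.trans hc1
      rwa [le_div_iff₀ (by positivity)] at this
    have k2 : y * (4 * (√(b ^ 2 + 2) + 1)) = 4 * (y * √(b ^ 2 + 2)) + 4 * y := by ring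
    linarith
  have hyb : y * b ≤ 1 / 4 := by
    have k1 : b ≤ √(b ^ 2 + 2) := Real.le_sqrt_of_sq_le (by linarith)
    exact (mul_le_mul_of_nonneg_left k1 hy.le).trans hysb
  have hal := _root_.abs_le.1 h5
  have hs2 : 0 ≤ s ^ 2 := sq_nonneg s
  refine ⟨hysb, ?_, ?_, by linarith, by linarith [hal.1], by linarith [hal.2], ?_⟩
  · have k1 : y ^ 2 * b ^ 2 = (y * b) ^ 2 := by ring
    have k2 : (y * b) ^ 2 ≤ (1 / 4) ^ 2 := pow_le_pow_left₀ (by positivity) hyb 2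
    rw [k1]
    linarith
  · have k1 : (1 + η) ^ 2 ≤ (1 + 1 / 8) ^ 2 := pow_le_pow_left₀ (by linarith) (by linarith) 2
    have k3 : (1 + η) ^ 2 * s ^ 2 ≤ (1 + 1 / 8) ^ 2 * s ^ 2 := mul_le_mul_of_nonneg_right k1 hs2
    linarith
  · have k2 := neg_abs_le al
    have k3 := sq_nonneg al
    have k4 : (1 + al) ^ 2 = 1 + 2 * al + al ^ 2 := by ring
    linarith

/-- the relative error of the linear identities -/
lemma theta_facts {b y al lam s Pst U E3 : ℝ} {n : ℕ} (hn : 0 < n) (hb : 0 < b) (hy : 0 < y)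
    (hy1 : y ≤ 1 / 8) (hal0 : 0 < 1 + al) (hal1 : 1 + al ≤ 2) (hl : 0 < lam) (hs : 0 < s ^ 2)
    (hE : 0 < E3) (hg : lam ≤ E3 * (s ^ 2 * n)) (hP : Pst ≤ (n : ℝ) ^ (-(100 : ℝ)))
    (hU : (n : ℝ) ^ (-(2 : ℝ)) ≤ U)
    (hK : 3 * (2 * (1 + 2 / b) + 1) * (n : ℝ) ^ (-(49 : ℝ)) ≤ E3) :
    2 * |lam / ((1 - y) * (s ^ 2 * n))| + 3 * ((|rz b y al| + 1) * √Pst) / √U ≤ 5 * E3 := by
  have hn0 : (0 : ℝ) < n := by exact_mod_cast hn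
  have hst2 : √Pst ≤ (n : ℝ) ^ (-(50 : ℝ)) := by
    refine H615.sqrt_le_num (by positivity) (hP.trans (le_of_eq ?_))
    rw [← Real.rpow_natCast, ← Real.rpow_mul hn0.le]
    norm_num
  have hsU : (n : ℝ) ^ (-(1 : ℝ)) ≤ √U := by
    refine Real.le_sqrt_of_sq_le (le_trans (le_of_eq ?_) hU)
    rw [← Real.rpow_natCast, ← Real.rpow_mul hn0.le]
    norm_num
  have hnm : 0 < (n : ℝ) ^ (-(1 : ℝ)) := by positivity
  have hU0 : 0 < √U := lt_of_lt_of_le hnm hsU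
  have h2b : 0 < 2 / b := by positivity
  have hrz : |rz b y al| ≤ 2 * (1 + 2 / b) := by
    unfold rz
    rw [abs_div, abs_of_pos (show 0 < 1 - y by linarith), div_le_iff₀ (by linarith)]
    have h1 : |1 - (1 + al) / b| ≤ 1 + 2 / b := by
      have h2 : 0 < (1 + al) / b := div_pos hal0 hb
      have h3 : (1 + al) / b ≤ 2 / b := div_le_div_of_nonneg_right hal1 hb.le
      rw [_root_.abs_le]
      constructor <;> linarith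
    have h3 : 2 * (1 + 2 / b) * (1 / 2) ≤ 2 * (1 + 2 / b) * (1 - y) :=
      mul_le_mul_of_nonneg_left (by linarith) (by positivity)
    linarith
  have hG1 : |lam / ((1 - y) * (s ^ 2 * n))| ≤ 2 * E3 := by
    have h1 : 0 < (1 - y) * (s ^ 2 * n) := mul_pos (by linarith) (by positivity)
    rw [abs_of_nonneg (div_nonneg hl.le h1.le), div_le_iff₀ h1]
    have h3 : 0 ≤ E3 * (s ^ 2 * n) := by positivity
    have h4 : 2 * E3 * ((1 - y) * (s ^ 2 * n)) = 2 * (1 - y) * (E3 * (s ^ 2 * n)) := by ring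
    have h5 : 1 * (E3 * (s ^ 2 * n)) ≤ 2 * (1 - y) * (E3 * (s ^ 2 * n)) :=
      mul_le_mul_of_nonneg_right (by linarith) h3
    rw [h4]
    linarith
  have hG2 : 3 * ((|rz b y al| + 1) * √Pst) / √U ≤ E3 := by
    rw [div_le_iff₀ hU0]
    have h1 : 3 * ((|rz b y al| + 1) * √Pst) ≤
        3 * ((2 * (1 + 2 / b) + 1) * (n : ℝ) ^ (-(50 : ℝ))) := by
      gcongr
    have h2 : 3 * ((2 * (1 + 2 / b) + 1) * (n : ℝ) ^ (-(50 : ℝ))) =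
        3 * (2 * (1 + 2 / b) + 1) * (n : ℝ) ^ (-(49 : ℝ)) * (n : ℝ) ^ (-(1 : ℝ)) := by
      have : (n : ℝ) ^ (-(50 : ℝ)) = (n : ℝ) ^ (-(49 : ℝ)) * (n : ℝ) ^ (-(1 : ℝ)) := by
        rw [← Real.rpow_add hn0]
        norm_num
      rw [this]
      ring
    calc _ ≤ _ := h1
      _ = _ := h2
      _ ≤ E3 * √U := mul_le_mul hK hsU hnm.le hE.le
  linarith

/-- the exceptional probability -/
lemma pb_facts {κ C η s wn kc ε' ε E : ℝ} {n : ℝ} {m : ℕ} (hη : 0 < η)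
    (hs2 : s ^ 2 = wn)
    (hwn : 0 < wn) (hηE : η ≤ E) (hC : 2 ≤ C) (hkc : 0 < kc) (h1 : κ ^ 2 / √(m : ℝ) ≤ ε')
    (h2 : κ ^ 2 * (1 / √(n * (wn / 2))) ≤ ε')
    (h3 : ∀ et, 0 ≤ et → et ≤ C * E → et * κ ^ 2 ≤ ε') (hek : kc * (3 * ε') ≤ ε) :
    κ ^ 2 * (kc * (1 / √(m : ℝ) + (1 / √(n * (wn / 2)) + η * |s| / √(wn / 2)))) ≤ ε := by
  have k1 : |s| ≤ 2 * √(wn / 2) := by
    have h4 : s ^ 2 ≤ (2 * √(wn / 2)) ^ 2 := by
      rw [mul_pow, Real.sq_sqrt (by positivity), hs2]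
      linarith
    have h5 := Real.sqrt_le_sqrt h4
    rwa [Real.sqrt_sq_eq_abs, Real.sqrt_sq (by positivity)] at h5
  have hw2 : 0 < √(wn / 2) := Real.sqrt_pos.2 (by positivity)
  have hE0 : 0 < E := lt_of_lt_of_le hη hηE
  have k2 : η * |s| / √(wn / 2) ≤ C * E := by
    rw [div_le_iff₀ hw2]
    have h6 : η * |s| ≤ η * (2 * √(wn / 2)) := mul_le_mul_of_nonneg_left k1 hη.le
    have h8 : 2 * η ≤ C * E := mul_le_mul hC hηE hη.le (by linarith)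
    calc η * |s| ≤ 2 * η * √(wn / 2) := by linarith
      _ ≤ _ := mul_le_mul_of_nonneg_right h8 hw2.le
  have k3 := h3 (η * |s| / √(wn / 2)) (by positivity) k2
  have h4 : κ ^ 2 * (kc * (1 / √(m : ℝ) + (1 / √(n * (wn / 2)) + η * |s| / √(wn / 2)))) =
      kc * (κ ^ 2 / √(m : ℝ) + κ ^ 2 * (1 / √(n * (wn / 2))) +
        η * |s| / √(wn / 2) * κ ^ 2) := by ring
  rw [h4]
  refine le_trans (mul_le_mul_of_nonneg_left ?_ hkc.le) hek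
  linarith

/-- the numbers of the near end imply the smallness at one law -/
lemma s1_bad {b ε ε' C y V al s lam η T t u wn h0 κ U8 E3 E2 Ea R1 I1 : ℝ} {n m : ℕ} (hb : 0 < b)
    (hbad : NeBad b (b ^ 2 + 2) ε) (hε' : 0 < ε') (hee : ε' ≤ ε)
    (hek : 32 / cK (b ^ 2 + 2) * (3 * ε') ≤ ε) (heb : ε' / b ^ 2 ≤ ε) (hC8 : 8 ≤ C)
    (he10 : 10 * ε' ≤ ε) (hn : 0 < n) (hy : 0 < y) (hη : 0 < η)
    (hAdm : Adm (lawOf n b y V al s lam η)) (hη2 : η ≤ 1 / 2) (hy18 : y ≤ 1 / 8) (hs : 0 < s)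
    (hl : 0 < lam) (hs2 : s ^ 2 = wn) (hwn : 0 < wn)
    (q1 : y * √(b ^ 2 + 2) ≤ 1 / 4) (q2 : 8 * (y ^ 2 * b ^ 2) ≤ 1)
    (q4 : b ^ 2 + (V - s ^ 2) ≤ b ^ 2 + 2) (q5 : 0 < 1 + al) (q6 : 1 + al ≤ 2)
    (q7 : 1 - (1 + al) ^ 2 ≤ 2 * |al|) (s5 : |al| ≤ Ea) (hη1 : η ≤ E2) (hE3 : 0 < E3)
    (hgg : lam ≤ E3 * (s ^ 2 * n))
    (hPst : H615.PstL (lawOf n b y V al s lam η) t u ≤ (n : ℝ) ^ (-(100 : ℝ)))
    (hT0 : 0 < T) (hTle : T ≤ 1)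
    (hP : NeP (lawOf n b y V al s lam η) (b ^ 2 + 2) (min 1 U8) T wn m t u) (hU8 : 0 < U8)
    (hh0 : 0 < h0) (hκ1 : 1 ≤ κ) (f1 : U8 ^ 2 ≤ κ * h0) (f2 : 1 / (n : ℝ) ≤ h0)
    (f3 : κ ^ 2 * (1 / √(n * (wn / 2))) ≤ ε') (f4 : V / b ^ 2 ≤ min 1 U8)
    (f5 : 12 * U8 / (y ^ 2 * wn * n) ≤ R1) (f6 : 54 * U8 / m ≤ I1)
    (f7 : (n : ℝ) ^ (-(2 : ℝ)) ≤ min 1 U8)
    (f8 : 3 * (2 * (1 + 2 / b) + 1) * (n : ℝ) ^ (-(49 : ℝ)) ≤ E3) (f10 : 8 * (m : ℝ) ≤ n)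
    (g1 : κ / √(m : ℝ) ≤ ε' * h0) (g2 : ∀ eG, 0 ≤ eG → eG ≤ C * E3 → κ * eG ≤ ε' * h0)
    (g3 : T ≤ ε' * h0) (g4 : (m : ℝ) / n ≤ ε' * h0) (g5 : C * Ea ≤ ε' * h0)
    (g6 : y ≤ ε' * √h0) (g7 : y * κ ≤ ε') (g8 : κ ^ 2 / √(m : ℝ) ≤ ε')
    (g9 : ∀ et, 0 ≤ et → et ≤ C * E2 → et * κ ^ 2 ≤ ε')
    (g10 : I1 ≤ ε' * (h0 * √h0)) (g11 : V ≤ ε' * (h0 * √h0))
    (g12 : ∀ rk, 0 ≤ rk → rk ≤ R1 → κ ^ 2 * rk ≤ ε ^ 2 * h0) :
    (lawOf n b y V al s lam η).rr (Sn n m) t u ≤ (22 / b ^ 4 + 4) * h0 := by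
  have hn0 : (0 : ℝ) < n := by exact_mod_cast hn
  have hy1 : y < 1 := by linarith
  have hκ0 : 0 < κ := by linarith
  have hmin0 : 0 < min 1 U8 := lt_min one_pos hU8
  have hmin8 : min 1 U8 ≤ U8 := min_le_right _ _
  have hsq0 : 0 < √h0 := Real.sqrt_pos.2 hh0
  have hE2 : 0 < E2 := lt_of_lt_of_le hη hη1
  have hηC : η ≤ C * E2 := by
    have : 1 * E2 ≤ C * E2 := mul_le_mul_of_nonneg_right (by linarith) hE2.le
    linarith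
  have haC : 2 * |al| ≤ C * Ea := by
    have h0 := abs_nonneg al
    have : 2 * Ea ≤ C * Ea := mul_le_mul_of_nonneg_right (by linarith) (by linarith)
    linarith
  have hs20 : 0 < s ^ 2 := by rw [hs2]; exact hwn
  have hmp : (0 : ℝ) < m := by exact_mod_cast hP.m1
  have hbkp : b * (1 - (1 - y) * rz b y al) = 1 + al := b_rz hb hy1
  have hkp : 0 < 1 - (1 - y) * rz b y al := by
    rw [rz_eq hy1]
    positivity
  have hG := theta_facts (n := n) hn hb hy hy18 q5 q6 hl hs20 hE3 hgg hPst f7 f8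
  have hpb := pb_facts (n := (n : ℝ)) hη hs2 hwn hη1 (by linarith : 2 ≤ C)
    (by have := cK_pos (show 0 < b ^ 2 + 2 by positivity)
        positivity : 0 < 32 / cK (b ^ 2 + 2)) g8 f3 g9 hek
  have hκκ : η * κ ≤ ε := by
    have h1 := g9 η hη.le hηC
    have h3 : κ ≤ κ ^ 2 := by
      have : κ * 1 ≤ κ * κ := mul_le_mul_of_nonneg_left hκ1 hκ0.le
      calc κ = κ * 1 := (mul_one κ).symm
        _ ≤ κ * κ := this
        _ = κ ^ 2 := (sq κ).symm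
    have h2 : η * κ ≤ η * κ ^ 2 := mul_le_mul_of_nonneg_left h3 hη.le
    linarith
  have hθ : κ * (5 / √(m : ℝ) + 2 * |lam / ((1 - y) * (s ^ 2 * n))| +
      3 * ((|rz b y al| + 1) * √(H615.PstL (lawOf n b y V al s lam η) t u)) / √(min 1 U8)) ≤
      ε * h0 := by
    have h5 : 5 * E3 ≤ C * E3 := mul_le_mul_of_nonneg_right (by linarith) hE3.le
    have h1 := g2 _ (by positivity) (hG.trans h5)
    have h3 : 6 * ε' * h0 ≤ ε * h0 := mul_le_mul_of_nonneg_right (by linarith) hh0.le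
    calc _ = 5 * (κ / √(m : ℝ)) + κ * (2 * |lam / ((1 - y) * (s ^ 2 * n))| +
        3 * ((|rz b y al| + 1) * √(H615.PstL (lawOf n b y V al s lam η) t u)) /
          √(min 1 U8)) := by ring
      _ ≤ _ := by linarith
  have hrk : κ ^ 2 * (12 * min 1 U8 / (y ^ 2 * wn * n)) ≤ ε ^ 2 * h0 := by
    refine g12 _ (by positivity) (le_trans ?_ f5)
    gcongr
  have hvp : (V - s ^ 2) / b ^ 2 ≤ V / b ^ 2 :=
    div_le_div_of_nonneg_right (by linarith) (by positivity)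
  have hwf : (V - s ^ 2) / b ^ 2 ≤ ε * (h0 * √h0) := by
    have h2 : V / b ^ 2 ≤ ε' * (h0 * √h0) / b ^ 2 :=
      div_le_div_of_nonneg_right g11 (by positivity)
    have h3 : ε' * (h0 * √h0) / b ^ 2 = ε' / b ^ 2 * (h0 * √h0) := by ring
    have h4 : ε' / b ^ 2 * (h0 * √h0) ≤ ε * (h0 * √h0) :=
      mul_le_mul_of_nonneg_right heb (by positivity)
    linarith
  have hinc : 54 * min 1 U8 / (m : ℝ) ≤ ε * (h0 * √h0) := by
    have h1 : 54 * min 1 U8 / (m : ℝ) ≤ 54 * U8 / m := by gcongr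
    have h2 : ε' * (h0 * √h0) ≤ ε * (h0 * √h0) :=
      mul_le_mul_of_nonneg_right hee (by positivity)
    linarith
  have hhε : ε' * h0 ≤ ε * h0 := mul_le_mul_of_nonneg_right hee hh0.le
  have h2m : 2 * m ≤ n := by
    have h2 : ((2 * m : ℕ) : ℝ) ≤ n := by
      push_cast
      linarith
    exact_mod_cast h2
  have hc : cc n b s al = s ^ 2 * n * (1 - (1 - y) * rz b y al) := by
    rw [rz_eq hy1]
    unfold cc
    ring
  have hA2 : 1 - (b * (1 - (1 - y) * rz b y al)) ^ 2 ≤ ε * h0 := by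
    rw [hbkp]
    linarith
  exact hbad (lawOf n b y V al s lam η) rfl hAdm hη2 hs.ne' hy hy1 (rz b y al) hc hkp
    (hbkp.le.trans q6) q2 q1 q4 T wn (min 1 U8) t u m hP hmin0 (min_le_left _ _) hT0 hTle hwn h2m
    (hvp.trans f4) h0 κ hh0 hκ1 ((pow_le_pow_left₀ hmin0.le hmin8 2).trans f1) f2 hθ hrk hpb hκκ
    (g6.trans (mul_le_mul_of_nonneg_right hee hsq0.le)) (g7.trans hee) (g3.trans hhε)
    (g4.trans hhε) hA2 hwf hinc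

variable {a0 b₁ q A b : ℝ}

/-- **The near end, first stage.** -/
theorem ne_s1_of (hq : 0 < q) (hb : 0 < b) (ha0 : a0 ≤ 1 / 7) (hb₁ : 100 * q < b₁) (hA : 1 ≤ A)
    {ε : ℝ} (hε : 0 < ε) (hbad : NeBad b (b ^ 2 + 2) ε) :
    ∀ᶠ n : ℕ in atTop, ∀ y V al s lam η : ℝ, KW a0 b₁ q A b n y V al s lam η →
      s ^ 2 = (n : ℝ) ^ (-(37 * q)) * y ^ 4 →
      ∀ T : ℝ, (n : ℝ) ^ (-(37 * q)) * y ^ 4 ≤ T → T ≤ (n : ℝ) ^ (-(70 * q)) * y ^ 2 →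
      T * (lawOf n b y V al s lam η).rr (Sn n (2 * ⌈(n : ℝ) ^ (1 - 40 * q) * T⌉₊)) (1 - T / 2)
          (1 - (n : ℝ) ^ (-(37 * q)) * y ^ 4 / (V - s ^ 2)) ≤
        1 / 2 * ((n : ℝ) ^ (-(37 * q)) * y ^ 4) := by
  have ha6 : a0 ≤ 1 / 6 := by linarith
  have hA0 : 0 < A := by linarith
  have hb2 : 0 < b ^ 2 + 2 := by positivity
  have hcK := cK_pos hb2
  have hkc0 : 0 < 32 / cK (b ^ 2 + 2) := by positivity
  obtain ⟨ε', hε', he10, hek, heb⟩ := eps_facts hb hε hkc0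
  have hee : ε' ≤ ε := by linarith
  obtain ⟨C, hCd, hC8⟩ : ∃ C : ℝ, C = 44 / b ^ 4 + 8 ∧ 8 ≤ C :=
    ⟨_, rfl, by have : 0 < 44 / b ^ 4 := by positivity
                linarith⟩
  have hC : 1 ≤ C := by linarith
  have hC0 : 0 < C := by linarith
  obtain ⟨c0, hc0p, hc1, hc2, hc3⟩ : ∃ c0 : ℝ, 0 < c0 ∧ c0 ≤ cK (b ^ 2 + 2) / 4 ∧
      c0 ≤ 1 / (4 * (√(b ^ 2 + 2) + 1)) ∧ c0 ≤ 1 / 8 :=
    ⟨min (cK (b ^ 2 + 2) / 4) (min (1 / (4 * (√(b ^ 2 + 2) + 1))) (1 / 8)),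
      lt_min (by positivity) (lt_min (by positivity) (by norm_num)), min_le_left _ _,
      (min_le_right _ _).trans (min_le_left _ _), (min_le_right _ _).trans (min_le_right _ _)⟩
  filter_upwards [H30.kw_par1 hq hb ha6 hb₁ hA, kw_small (a0 := a0) hq hb hb₁ hA hc0p,
    kw_nw hq ha6 hb₁ hA, kw_pst hq hb ha6 hb₁ hA 100, kw_gn hq hb ha6 hb₁ hA,
    ne_cond (A := A) (C := C) (ε := ε') hq hb₁.le ha6 hA0 hC hε',
    ne_cond1 (b1 := b₁) (A := A) (C := C) (ε := ε) hq ha0 hA0 hC hε,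
    ne_nums (A := A) (C := C) (b := b) (K := 3 * (2 * (1 + 2 / b) + 1)) (ε := ε') hq hb₁.le ha6
      hA0 hC hb (by positivity) hε', eventually_gt_atTop 1] with n e1 e2 e3 e4 e5 e6 e7 e8 hn
  intro y V al s lam η h hs2 T hT1 hT2
  have hn0 : (0 : ℝ) < n := by exact_mod_cast (by omega : 0 < n)
  obtain ⟨p1, p2, p3, p4⟩ := e1 y V al s lam η h
  obtain ⟨s1, s2, s3, s4, s5, s6⟩ := e2 y V al s lam η h
  obtain ⟨m1, hNw⟩ := e3 y V al s lam η h T hT1 hT2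
  have hPst := e4 y V al s lam η h
  obtain ⟨hgn, hg1⟩ := e5 y V al s lam η h
  have hy := h.y0
  have hη := h.η0
  have hwn0 : 0 < (n : ℝ) ^ (-(37 * q)) * y ^ 4 := by positivity
  have hT0 : 0 < T := lt_of_lt_of_le hwn0 hT1
  obtain ⟨q1, q2, q3, q4, q5, q6, q7⟩ := small_facts hb hy hη s1 s2 s3 s4 (s5.trans s6) hc2 hc3
  have hy18 : y ≤ 1 / 8 := s1.trans hc3
  have hy1 : y < 1 := by linarith
  have hη2 : η ≤ 1 / 2 := by linarith [s4.trans hc3]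
  have hAdm : Adm (lawOf n b y V al s lam η) :=
    ⟨by show 0 < n; omega, hb, p3, h.l0, h.η0.le, hy.le, hy1.le⟩
  -- the typical point
  obtain ⟨-, -, -, -, -, -, -, -, hTle, hM8⟩ := e8 y V T _ (hNw (2 * ⌈(n : ℝ) ^ (1 - 40 * q) * T⌉₊)
    (Finset.mem_Icc.2 ⟨by omega, le_rfl⟩))
  have hMn : 2 * ⌈(n : ℝ) ^ (1 - 40 * q) * T⌉₊ < n := by
    have h3 : (1 : ℝ) ≤ ((2 * ⌈(n : ℝ) ^ (1 - 40 * q) * T⌉₊ : ℕ) : ℝ) := by
      exact_mod_cast (by omega : 1 ≤ 2 * ⌈(n : ℝ) ^ (1 - 40 * q) * T⌉₊)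
    have h2 : ((2 * ⌈(n : ℝ) ^ (1 - 40 * q) * T⌉₊ : ℕ) : ℝ) < n := by linarith
    exact_mod_cast h2
  obtain ⟨t, u, m, hm, hP, hrr⟩ := ne_num (L := lawOf n b y V al s lam η) hAdm
    hη2 hy p2 hb2 (s1.trans hc1) q3 hgn hg1 hT0 hTle hwn0 p4 m1 hMn
  obtain ⟨f1, f2, f3, f4, f5, f6, f7, f8, f9, f10⟩ := e8 y V T m (hNw m hm)
  obtain ⟨g1, g2, g3, g4, g5, g6, g7, g8, g9, g10, g11, -⟩ := e6 y V T m (hNw m hm) _ _ rfl rfl
  have g12 := e7 y V T m (hNw m hm) _ _ rfl rfl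
  have hκ1 : 1 ≤ C * (n : ℝ) ^ (39 * q) := by
    have hn1 : (1 : ℝ) ≤ n := by exact_mod_cast hn.le
    have : 1 ≤ (n : ℝ) ^ (39 * q) := Real.one_le_rpow hn1 (by positivity)
    calc (1 : ℝ) = 1 * 1 := (one_mul 1).symm
      _ ≤ C * (n : ℝ) ^ (39 * q) := mul_le_mul hC this zero_le_one hC0.le
  have hr0 : 0 < rN q b n y T := by unfold rN; positivity
  have ht := hPst t ⟨by linarith [hP.t0], by linarith [hP.t1]⟩ u ⟨hP.u0, hP.u1.le⟩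
  have hb4 := s1_bad hb hbad hε' hee hek heb hC8 he10 (by omega) hy hη hAdm hη2 hy18 h.s0 h.l0 hs2
    hwn0 q1 q2 q4 q5 q6 q7 s5 h.η1 (by positivity) h.gg ht hT0 hTle hP (by positivity)
    (by positivity) hκ1 f1 f2 f3 f4 f5 f6 f7 f8 f10 g1 g2 g3 g4 g5 g6 g7 g8 g9 g10 g11
    (fun rk h1 h2 => (g12 rk h1 h2).1)
  · have hfin : T * ((22 / b ^ 4 + 4) * ((n : ℝ) ^ (-(37 * q)) * y ^ 4 / (C * T))) =
        1 / 2 * ((n : ℝ) ^ (-(37 * q)) * y ^ 4) := by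
      have h1 : (22 / b ^ 4 + 4) = C / 2 := by rw [hCd]; ring
      rw [h1]
      field_simp
    exact (mul_le_mul_of_nonneg_left (hrr.trans hb4) hT0.le).trans hfin.le

/-- **The near end, first stage.** -/
theorem ne_s1 (hq : 0 < q) (hb : 0 < b) (ha0 : a0 ≤ 1 / 7) (hb₁ : 100 * q < b₁) (hA : 1 ≤ A) :
    ∀ᶠ n : ℕ in atTop, ∀ y V al s lam η : ℝ, KW a0 b₁ q A b n y V al s lam η →
      s ^ 2 = (n : ℝ) ^ (-(37 * q)) * y ^ 4 →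
      ∀ T : ℝ, (n : ℝ) ^ (-(37 * q)) * y ^ 4 ≤ T → T ≤ (n : ℝ) ^ (-(70 * q)) * y ^ 2 →
      T * (lawOf n b y V al s lam η).rr (Sn n (2 * ⌈(n : ℝ) ^ (1 - 40 * q) * T⌉₊)) (1 - T / 2)
          (1 - (n : ℝ) ^ (-(37 * q)) * y ^ 4 / (V - s ^ 2)) ≤
        1 / 2 * ((n : ℝ) ^ (-(37 * q)) * y ^ 4) := by
  obtain ⟨ε, hε, -, hbad⟩ := H586.ne_bad hb (show 0 < b ^ 2 + 2 by positivity)
  exact ne_s1_of hq hb ha0 hb₁ hA hε hbad

/-- **The near end for the full set of sites, first stage.** -/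
theorem n7_s1 (hq : 0 < q) (hb : 0 < b) (ha0 : a0 ≤ 1 / 7) (hb₁ : 100 * q < b₁) (hA : 1 ≤ A) :
    ∀ᶠ n : ℕ in atTop, ∀ y V al s lam η : ℝ, KW a0 b₁ q A b n y V al s lam η →
      s ^ 2 = (n : ℝ) ^ (-(37 * q)) * y ^ 4 →
      ∀ T : ℝ, (n : ℝ) ^ (-(37 * q)) * y ^ 4 ≤ T → T ≤ (n : ℝ) ^ (-(70 * q)) * y ^ 2 →
      T * (lawOf n b y V al s lam η).rr Finset.univ (1 - T)
          (1 - (n : ℝ) ^ (-(37 * q)) * y ^ 4 / (V - s ^ 2)) ≤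
        (n : ℝ) ^ (-(37 * q)) * y ^ 4 := by
  filter_upwards [ne_s1 hq hb ha0 hb₁ hA, H30.ne_end (a0 := a0) hq hb (by linarith) hb₁ hA] with n e1 e2
  intro y V al s lam η h hs T h1 h2
  exact e2 y V al s lam η h T h1 h2 (e1 y V al s lam η h hs T h1 h2)

end Vale.Agent.P146.H272
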