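import Mathlib

/-!
# P146: the T-integral step of the near-end estimate

`q_le` : the Bessel inequality `c (q-b)_+^(3/2) <= a q + s sqrt q` forces `q <= 2 b + 9 (a/c)^2 + 6 s/c`.
`e_le`, `Te_le` : the pointwise bound of the pair overlap `e T` and of `T * e T`.
`int_le` : the bound of the integral of `e` over `[0, Tm]`.
-/

namespace Vale.Agent.P146.H272

open MeasureTheory Real Set

theorem quad_abs {u A B : ℝ} (h : u ^ 2 ≤ A * u + B) : u ^ 2 ≤ A ^ 2 + 2 * B := by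
  nlinarith [sq_nonneg (u - A)]

/-- The Bessel inequality absorbs. -/
theorem q_le {q b a s c : ℝ} (hq : 0 ≤ q) (hb : 0 ≤ b) (hs : 0 ≤ s) (hc : 0 < c)
    (h : c * (max (q - b) 0 * √(max (q - b) 0)) ≤ a * q + s * √q) :
    q ≤ 2 * b + 9 * (a / c) ^ 2 + 6 * (s / c) := by
  have hac : 0 ≤ (a / c) ^ 2 := sq_nonneg _
  have hsc : 0 ≤ s / c := div_nonneg hs hc.le
  rcases le_or_gt q (2 * b) with h1 | h1
  · nlinarith
  · have hq0 : 0 < q := by linarith
    set u := √q with hu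
    have hu0 : 0 < u := Real.sqrt_pos.2 hq0
    have huq : u ^ 2 = q := Real.sq_sqrt hq
    have hmax : q / 2 ≤ max (q - b) 0 := le_max_of_le_left (by linarith)
    have hsq : (7 / 10 : ℝ) * u ≤ √(max (q - b) 0) := by
      apply Real.le_sqrt_of_sq_le
      nlinarith
    have h2 : (q / 2) * ((7 / 10 : ℝ) * u) ≤ max (q - b) 0 * √(max (q - b) 0) := by
      apply mul_le_mul hmax hsq (by positivity) (by positivity)
    have h3 : c * ((u ^ 2 / 2) * ((7 / 10 : ℝ) * u)) ≤ a * u ^ 2 + s * u := by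
      rw [huq]
      exact (mul_le_mul_of_nonneg_left h2 hc.le).trans h
    have h4 : c * ((7 / 20 : ℝ) * u ^ 2) ≤ a * u + s := by
      have : (c * ((7 / 20 : ℝ) * u ^ 2)) * u ≤ (a * u + s) * u := by nlinarith
      exact le_of_mul_le_mul_right this hu0
    have h5 : u ^ 2 ≤ ((20 / 7 : ℝ) * (a / c)) * u + (20 / 7 : ℝ) * (s / c) := by
      have h6 : (7 / 20 : ℝ) * u ^ 2 ≤ (a * u + s) / c := by
        rw [le_div_iff₀ hc]; linarith
      have h7 : (a * u + s) / c = (a / c) * u + s / c := by field_simp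
      rw [h7] at h6
      nlinarith
    have h8 := quad_abs h5
    rw [huq] at h8
    nlinarith

/-- The pointwise bound, from the literal hypothesis (H). -/
theorem e_le {e : ℝ → ℝ} {T c a b0 r0 r1 r2 rho : ℝ} (hT : 0 < T) (hc : 0 < c)
    (hb0 : 0 ≤ b0) (hr0 : 0 ≤ r0) (hr1 : 0 ≤ r1) (hr2 : 0 ≤ r2)
    (H : ∃ q : ℝ, 0 ≤ q ∧ e T ≤ 3 * q + rho ^ 2 ∧
      c * (max (q - b0 / T) 0 * √(max (q - b0 / T) 0))
        ≤ a * q + (r0 / √T + r1 + r2 * T) * √q) :
    e T ≤ 6 * (b0 / T) + 27 * (a / c) ^ 2 + 18 * ((r0 / √T + r1 + r2 * T) / c) + rho ^ 2 := by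
  obtain ⟨q, hq, he, h⟩ := H
  have hs : 0 ≤ r0 / √T + r1 + r2 * T := by positivity
  have := q_le hq (div_nonneg hb0 hT.le) hs hc h
  linarith

/-- The form of the master: the bound of `T * e T`. -/
theorem Te_le {e : ℝ → ℝ} {T c a b0 r0 r1 r2 rho : ℝ} (hT : 0 < T) (hc : 0 < c)
    (hb0 : 0 ≤ b0) (hr0 : 0 ≤ r0) (hr1 : 0 ≤ r1) (hr2 : 0 ≤ r2)
    (H : ∃ q : ℝ, 0 ≤ q ∧ e T ≤ 3 * q + rho ^ 2 ∧
      c * (max (q - b0 / T) 0 * √(max (q - b0 / T) 0))
        ≤ a * q + (r0 / √T + r1 + r2 * T) * √q) :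
    T * e T ≤ 6 * b0 + (27 * (a / c) ^ 2 + 18 * (r1 / c) + rho ^ 2) * T
      + 18 * (r0 / c) * √T + 18 * (r2 / c) * T ^ 2 := by
  have h1 := mul_le_mul_of_nonneg_left (e_le hT hc hb0 hr0 hr1 hr2 H) hT.le
  have hsT : 0 < √T := Real.sqrt_pos.2 hT
  have h2 : T * (6 * (b0 / T) + 27 * (a / c) ^ 2 + 18 * ((r0 / √T + r1 + r2 * T) / c) + rho ^ 2)
      = 6 * b0 + (27 * (a / c) ^ 2 + 18 * (r1 / c) + rho ^ 2) * T
      + 18 * (r0 / c) * √T + 18 * (r2 / c) * T ^ 2 := by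
    have h3 : T / √T = √T := Real.div_sqrt
    have h4 : T * (b0 / T) = b0 := by field_simp
    have h5 : T * ((r0 / √T + r1 + r2 * T) / c)
        = (r0 / c) * (T / √T) + (r1 / c) * T + (r2 / c) * T ^ 2 := by
      field_simp
    calc _ = 6 * (T * (b0 / T)) + 27 * (a / c) ^ 2 * T
          + 18 * (T * ((r0 / √T + r1 + r2 * T) / c)) + rho ^ 2 * T := by ring
      _ = _ := by rw [h4, h5, h3]; ring
  exact h1.trans_eq h2

/-- The integral of the majorant. -/
theorem int_major {T0 Tm A B C D : ℝ} (h0 : 0 < T0) (h1 : T0 ≤ Tm) :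
    ∫ t in T0..Tm, (A / t + B + C / √t + D * t)
      = A * Real.log (Tm / T0) + B * (Tm - T0) + 2 * C * (√Tm - √T0)
        + D * (Tm ^ 2 - T0 ^ 2) / 2 := by
  have hm : 0 < Tm := h0.trans_le h1
  have hd : ∀ t ∈ uIcc T0 Tm, HasDerivAt
      (fun t => A * Real.log t + B * t + 2 * C * √t + D * t ^ 2 / 2)
      (A / t + B + C / √t + D * t) t := by
    intro t ht
    rw [uIcc_of_le h1] at ht
    have ht0 : 0 < t := h0.trans_le ht.1
    have hst : 0 < √t := Real.sqrt_pos.2 ht0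
    have e1 := (Real.hasDerivAt_log ht0.ne').const_mul A
    have e2 := (hasDerivAt_id t).const_mul B
    have e3 := (Real.hasDerivAt_sqrt ht0.ne').const_mul (2 * C)
    have e4 := ((hasDerivAt_pow 2 t).const_mul D).div_const 2
    have e5 : HasDerivAt
        (fun t => A * Real.log t + B * t + 2 * C * √t + D * t ^ 2 / 2)
        (A * t⁻¹ + B * 1 + (2 * C) * (1 / (2 * √t)) + D * (((2 : ℕ) : ℝ) * t ^ (2 - 1)) / 2) t :=
      ((e1.add e2).add e3).add e4
    refine e5.congr_deriv ?_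
    have e6 : (2 * C) * (1 / (2 * √t)) = C / √t := by field_simp
    rw [e6]
    simp
    ring
  have hc : ContinuousOn (fun t : ℝ => A / t + B + C / √t + D * t) (uIcc T0 Tm) := by
    rw [uIcc_of_le h1]
    intro t ht
    have ht0 : 0 < t := h0.trans_le ht.1
    have hst : √t ≠ 0 := (Real.sqrt_pos.2 ht0).ne'
    apply ContinuousAt.continuousWithinAt
    have c1 : ContinuousAt (fun t : ℝ => A / t) t := continuousAt_const.div continuousAt_id ht0.ne'
    have c2 : ContinuousAt (fun t : ℝ => C / √t) t :=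
      continuousAt_const.div Real.continuous_sqrt.continuousAt hst
    exact ((c1.add continuousAt_const).add c2).add (continuousAt_const.mul continuousAt_id)
  rw [intervalIntegral.integral_eq_sub_of_hasDerivAt hd hc.intervalIntegrable,
    Real.log_div hm.ne' h0.ne']
  ring

/-- The integral bound. -/
theorem int_le {e : ℝ → ℝ} {T0 Tm c a b0 r0 r1 r2 rho : ℝ}
    (hanti : AntitoneOn e (Ioc 0 Tm))
    (he1 : ∀ t ∈ Ioc 0 Tm, e t ≤ 1) (hT0 : 0 < T0) (hTm : T0 ≤ Tm) (hc : 0 < c)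
    (hb0 : 0 ≤ b0) (hr0 : 0 ≤ r0) (hr1 : 0 ≤ r1) (hr2 : 0 ≤ r2)
    (H : ∀ T ∈ Icc T0 Tm, ∃ q : ℝ, 0 ≤ q ∧ e T ≤ 3 * q + rho ^ 2 ∧
      c * (max (q - b0 / T) 0 * √(max (q - b0 / T) 0))
        ≤ a * q + (r0 / √T + r1 + r2 * T) * √q) :
    IntervalIntegrable e volume 0 Tm ∧
    ∫ t in (0 : ℝ)..Tm, e t ≤ T0 + 6 * b0 * Real.log (Tm / T0)
      + (27 * (a / c) ^ 2 + 18 * (r1 / c) + rho ^ 2) * Tm
      + 36 * (r0 / c) * √Tm + 9 * (r2 / c) * Tm ^ 2 := by
  have hm : 0 < Tm := hT0.trans_le hTm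
  -- integrability
  let e' : ℝ → ℝ := fun t => if t ≤ 0 then 1 else e t
  have hanti' : AntitoneOn e' (uIcc 0 Tm) := by
    rw [uIcc_of_le hm.le]
    intro s hs t ht hst
    simp only [e']
    by_cases h1 : s ≤ 0
    · by_cases h2 : t ≤ 0
      · simp [h1, h2]
      · simp only [h1, h2, if_true, if_false]
        exact he1 t ⟨not_le.1 h2, ht.2⟩
    · have h2 : ¬ t ≤ 0 := fun h => h1 (hst.trans h)
      simp only [h1, h2, if_false]
      exact hanti ⟨not_le.1 h1, hs.2⟩ ⟨not_le.1 h2, ht.2⟩ hst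
  have hint : IntervalIntegrable e volume 0 Tm := by
    refine (hanti'.intervalIntegrable (μ := volume)).congr ?_
    rw [uIoc_of_le hm.le]
    intro t ht
    simp [e', not_le.2 ht.1]
  have hint1 : IntervalIntegrable e volume 0 T0 :=
    hint.mono_set (by rw [uIcc_of_le hT0.le, uIcc_of_le hm.le]; exact Icc_subset_Icc_right hTm)
  have hint2 : IntervalIntegrable e volume T0 Tm :=
    hint.mono_set (by rw [uIcc_of_le hTm, uIcc_of_le hm.le]; exact Icc_subset_Icc_left hT0.le)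
  refine ⟨hint, ?_⟩
  rw [← intervalIntegral.integral_add_adjacent_intervals hint1 hint2]
  have hA : ∫ t in (0 : ℝ)..T0, e t ≤ T0 := by
    have h1 : ∫ t in (0 : ℝ)..T0, e t ≤ ∫ t in (0 : ℝ)..T0, (1 : ℝ) := by
      apply intervalIntegral.integral_mono_on_of_le_Ioo hT0.le hint1 (by simp)
      intro t ht
      exact he1 t ⟨ht.1, ht.2.le.trans hTm⟩
    simpa using h1
  have hB : ∫ t in T0..Tm, e t
      ≤ ∫ t in T0..Tm, ((6 * b0) / t + (27 * (a / c) ^ 2 + 18 * (r1 / c) + rho ^ 2)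
          + (18 * (r0 / c)) / √t + (18 * (r2 / c)) * t) := by
    apply intervalIntegral.integral_mono_on hTm hint2
    · apply ContinuousOn.intervalIntegrable
      rw [uIcc_of_le hTm]
      intro t ht
      have ht0 : 0 < t := hT0.trans_le ht.1
      have hst : √t ≠ 0 := (Real.sqrt_pos.2 ht0).ne'
      apply ContinuousAt.continuousWithinAt
      have c1 : ContinuousAt (fun t : ℝ => (6 * b0) / t) t :=
        continuousAt_const.div continuousAt_id ht0.ne'
      have c2 : ContinuousAt (fun t : ℝ => (18 * (r0 / c)) / √t) t :=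
        continuousAt_const.div Real.continuous_sqrt.continuousAt hst
      exact ((c1.add continuousAt_const).add c2).add (continuousAt_const.mul continuousAt_id)
    · intro t ht
      have ht0 : 0 < t := hT0.trans_le ht.1
      have h1 := e_le ht0 hc hb0 hr0 hr1 hr2 (H t ht)
      refine h1.trans_eq ?_
      field_simp
      ring
  rw [int_major hT0 hTm] at hB
  have hs0 : 0 ≤ √T0 := Real.sqrt_nonneg _
  have hK : 0 ≤ 27 * (a / c) ^ 2 + 18 * (r1 / c) + rho ^ 2 := by positivity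
  have hC : 0 ≤ r0 / c := div_nonneg hr0 hc.le
  have hD : 0 ≤ r2 / c := div_nonneg hr2 hc.le
  have k1 : 0 ≤ (27 * (a / c) ^ 2 + 18 * (r1 / c) + rho ^ 2) * T0 := mul_nonneg hK hT0.le
  have k2 : 0 ≤ (r0 / c) * √T0 := mul_nonneg hC hs0
  have k3 : 0 ≤ (r2 / c) * T0 ^ 2 := mul_nonneg hD (sq_nonneg _)
  nlinarith [hA, hB, k1, k2, k3]

end Vale.Agent.P146.H272
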