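import Vale.Agent.P146.H272.NeAbs

/-!
# P146: exponent budget of the near-end estimate

`ne_budget` : with the sizes a = A n^α y, b0 = A n^(-β) y^4, r0 = A n^ρ0, r1 = A n^ρ1 y^2, r2 = A n^ρ2,
rho^2 = A n^ρ3 y^(-10), the pointwise inequality (H) gives `T * e T <= n^(-x) y^4` for all large n,
uniformly on the window `n^(-1/6+ε) <= y`, `0 < T <= n^(-c1) y^2`.
-/

namespace Vale.Agent.P146.H272

open MeasureTheory Real Set Filter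

/-- constants are absorbed by any positive power -/
theorem const_abs {C δ : ℝ} (hδ : 0 < δ) : ∀ᶠ n : ℕ in atTop, C * (n : ℝ) ^ (-δ) ≤ 1 := by
  have h1 : Tendsto (fun n : ℕ => (n : ℝ) ^ (-δ)) atTop (nhds 0) :=
    (tendsto_rpow_neg_atTop hδ).comp tendsto_natCast_atTop_atTop
  have h2 : Tendsto (fun n : ℕ => C * (n : ℝ) ^ (-δ)) atTop (nhds (C * 0)) := h1.const_mul C
  rw [mul_zero] at h2
  exact (h2.eventually (ge_mem_nhds one_pos))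

theorem ne_budget {A c α β ρ0 ρ1 ρ2 ρ3 c1 x ε : ℝ} (hA : 0 ≤ A) (hc : 0 < c)
    (h1 : x < β) (h2 : x + 2 * α < c1) (h3 : x + ρ1 < c1)
    (h4 : x + ρ0 + 1 / 2 < 3 * ε + c1 / 2) (h5 : x + ρ2 < 2 * c1)
    (h6 : x + ρ3 + 2 < 12 * ε + c1) :
    ∀ᶠ n : ℕ in atTop, ∀ y T eT a b0 r0 r1 r2 rho : ℝ,
      (n : ℝ) ^ (-(1 / 6 : ℝ) + ε) ≤ y → 0 < T → T ≤ (n : ℝ) ^ (-c1) * y ^ 2 →
      |a| ≤ A * (n : ℝ) ^ α * y → 0 ≤ b0 → b0 ≤ A * (n : ℝ) ^ (-β) * y ^ 4 →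
      0 ≤ r0 → r0 ≤ A * (n : ℝ) ^ ρ0 → 0 ≤ r1 → r1 ≤ A * (n : ℝ) ^ ρ1 * y ^ 2 →
      0 ≤ r2 → r2 ≤ A * (n : ℝ) ^ ρ2 → rho ^ 2 * y ^ 10 ≤ A * (n : ℝ) ^ ρ3 →
      (∃ q : ℝ, 0 ≤ q ∧ eT ≤ 3 * q + rho ^ 2 ∧
        c * (max (q - b0 / T) 0 * √(max (q - b0 / T) 0))
          ≤ a * q + (r0 / √T + r1 + r2 * T) * √q) →
      T * eT ≤ (n : ℝ) ^ (-x) * y ^ 4 := by
  have e1 := const_abs (C := 36 * A) (δ := β - x) (by linarith)
  have e2 := const_abs (C := 162 * (A / c) ^ 2) (δ := c1 - x - 2 * α) (by linarith)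
  have e3 := const_abs (C := 108 * (A / c)) (δ := c1 - x - ρ1) (by linarith)
  have e4 := const_abs (C := 108 * (A / c)) (δ := 3 * ε + c1 / 2 - x - ρ0 - 1 / 2) (by linarith)
  have e5 := const_abs (C := 108 * (A / c)) (δ := 2 * c1 - x - ρ2) (by linarith)
  have e6 := const_abs (C := 6 * A) (δ := 12 * ε + c1 - x - ρ3 - 2) (by linarith)
  filter_upwards [e1, e2, e3, e4, e5, e6, eventually_gt_atTop 0] with n e1 e2 e3 e4 e5 e6 hn0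
  intro y T eT a b0 r0 r1 r2 rho hy hT hTm ha hb0 hb0' hr0 hr0' hr1 hr1' hr2 hr2' hrho H
  have hn : (0 : ℝ) < n := by exact_mod_cast hn0
  have P : ∀ r : ℝ, 0 < (n : ℝ) ^ r := fun r => Real.rpow_pos_of_pos hn r
  have hy0 : 0 < y := (P _).trans_le hy
  have hyc : ∀ k : ℕ, (n : ℝ) ^ ((k : ℝ) * (-(1 / 6 : ℝ) + ε)) ≤ y ^ k := by
    intro k
    have h := pow_le_pow_left₀ (P _).le hy k
    rwa [← Real.rpow_natCast, ← Real.rpow_mul hn.le, mul_comm (-(1 / 6 : ℝ) + ε)] at h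
  have hAc : 0 ≤ A / c := div_nonneg hA hc.le
  have main := Te_le (e := fun _ => eT) hT hc hb0 hr0 hr1 hr2 H
  -- the six terms
  have R : ∀ r : ℝ, (n : ℝ) ^ r * (n : ℝ) ^ (-r) = 1 := by
    intro r; rw [← Real.rpow_add hn]; simp
  set X := (n : ℝ) ^ (-x) * y ^ 4 with hX
  have hX0 : 0 < X := mul_pos (P _) (by positivity)
  have t1 : 6 * b0 ≤ X / 6 := by
    have h : 36 * (A * (n : ℝ) ^ (-β) * y ^ 4) ≤ X := by
      have hp : (n : ℝ) ^ (-β) = (n : ℝ) ^ (-(β - x)) * (n : ℝ) ^ (-x) := by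
        rw [← Real.rpow_add hn]; congr 1; ring
      calc 36 * (A * (n : ℝ) ^ (-β) * y ^ 4)
          = (36 * A * (n : ℝ) ^ (-(β - x))) * X := by rw [hp, hX]; ring
        _ ≤ 1 * X := mul_le_mul_of_nonneg_right e1 hX0.le
        _ = X := one_mul _
    linarith
  have t2 : 27 * (a / c) ^ 2 * T ≤ X / 6 := by
    have h0 : (a / c) ^ 2 ≤ (A / c) ^ 2 * (n : ℝ) ^ (2 * α) * y ^ 2 := by
      have : (a / c) ^ 2 = |a| ^ 2 / c ^ 2 := by rw [sq_abs, div_pow]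
      rw [this]
      have h1 : |a| ^ 2 ≤ (A * (n : ℝ) ^ α * y) ^ 2 := pow_le_pow_left₀ (abs_nonneg _) ha 2
      have h2 : (n : ℝ) ^ (2 * α) = ((n : ℝ) ^ α) ^ 2 := by
        rw [← Real.rpow_natCast, ← Real.rpow_mul hn.le]; congr 1; push_cast; ring
      calc |a| ^ 2 / c ^ 2 ≤ (A * (n : ℝ) ^ α * y) ^ 2 / c ^ 2 := by gcongr
        _ = _ := by rw [h2, div_pow]; ring
    have hp : (n : ℝ) ^ (2 * α) * (n : ℝ) ^ (-c1)
        = (n : ℝ) ^ (-(c1 - x - 2 * α)) * (n : ℝ) ^ (-x) := by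
      rw [← Real.rpow_add hn, ← Real.rpow_add hn]; congr 1; ring
    have h : 6 * (27 * (a / c) ^ 2 * T) ≤ X := by
      calc 6 * (27 * (a / c) ^ 2 * T)
          ≤ 6 * (27 * ((A / c) ^ 2 * (n : ℝ) ^ (2 * α) * y ^ 2) * ((n : ℝ) ^ (-c1) * y ^ 2)) := by
            gcongr
        _ = 162 * (A / c) ^ 2 * ((n : ℝ) ^ (2 * α) * (n : ℝ) ^ (-c1)) * y ^ 4 := by ring
        _ = (162 * (A / c) ^ 2 * (n : ℝ) ^ (-(c1 - x - 2 * α))) * X := by rw [hp, hX]; ring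
        _ ≤ 1 * X := mul_le_mul_of_nonneg_right e2 hX0.le
        _ = X := one_mul _
    linarith
  have t3 : 18 * (r1 / c) * T ≤ X / 6 := by
    have hp : (n : ℝ) ^ ρ1 * (n : ℝ) ^ (-c1)
        = (n : ℝ) ^ (-(c1 - x - ρ1)) * (n : ℝ) ^ (-x) := by
      rw [← Real.rpow_add hn, ← Real.rpow_add hn]; congr 1; ring
    have h : 6 * (18 * (r1 / c) * T) ≤ X := by
      calc 6 * (18 * (r1 / c) * T)
          ≤ 6 * (18 * ((A * (n : ℝ) ^ ρ1 * y ^ 2) / c) * ((n : ℝ) ^ (-c1) * y ^ 2)) := by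
            gcongr
        _ = 108 * (A / c) * ((n : ℝ) ^ ρ1 * (n : ℝ) ^ (-c1)) * y ^ 4 := by ring
        _ = (108 * (A / c) * (n : ℝ) ^ (-(c1 - x - ρ1))) * X := by rw [hp, hX]; ring
        _ ≤ 1 * X := mul_le_mul_of_nonneg_right e3 hX0.le
        _ = X := one_mul _
    linarith
  have t4 : 18 * (r0 / c) * √T ≤ X / 6 := by
    have hsT : √T ≤ (n : ℝ) ^ (-(c1 / 2)) * y := by
      apply Real.sqrt_le_iff.2
      refine ⟨by positivity, hTm.trans_eq ?_⟩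
      rw [mul_pow, ← Real.rpow_natCast ((n : ℝ) ^ (-(c1 / 2))) 2, ← Real.rpow_mul hn.le]
      congr 2; push_cast; ring
    have hy3 := hyc 3
    have hp : (n : ℝ) ^ ρ0 * (n : ℝ) ^ (-(c1 / 2))
        = (n : ℝ) ^ (-(3 * ε + c1 / 2 - x - ρ0 - 1 / 2)) * (n : ℝ) ^ (-x)
          * (n : ℝ) ^ (((3 : ℕ) : ℝ) * (-(1 / 6 : ℝ) + ε)) := by
      rw [← Real.rpow_add hn, ← Real.rpow_add hn, ← Real.rpow_add hn]
      congr 1; push_cast; ring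
    have h : 6 * (18 * (r0 / c) * √T) ≤ X := by
      calc 6 * (18 * (r0 / c) * √T)
          ≤ 6 * (18 * ((A * (n : ℝ) ^ ρ0) / c) * ((n : ℝ) ^ (-(c1 / 2)) * y)) := by gcongr
        _ = 108 * (A / c) * ((n : ℝ) ^ ρ0 * (n : ℝ) ^ (-(c1 / 2))) * y := by ring
        _ = (108 * (A / c) * (n : ℝ) ^ (-(3 * ε + c1 / 2 - x - ρ0 - 1 / 2)))
              * ((n : ℝ) ^ (-x) * (n : ℝ) ^ (((3 : ℕ) : ℝ) * (-(1 / 6 : ℝ) + ε)) * y) := by
            rw [hp]; ring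
        _ ≤ 1 * ((n : ℝ) ^ (-x) * y ^ 3 * y) := by
            apply mul_le_mul e4 _ (by positivity) zero_le_one
            gcongr
        _ = X := by rw [hX]; ring
    linarith
  have t5 : 18 * (r2 / c) * T ^ 2 ≤ X / 6 := by
    have hp : (n : ℝ) ^ ρ2 * ((n : ℝ) ^ (-c1)) ^ 2
        = (n : ℝ) ^ (-(2 * c1 - x - ρ2)) * (n : ℝ) ^ (-x) := by
      rw [← Real.rpow_natCast ((n : ℝ) ^ (-c1)) 2, ← Real.rpow_mul hn.le,
        ← Real.rpow_add hn, ← Real.rpow_add hn]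
      congr 1; push_cast; ring
    have h : 6 * (18 * (r2 / c) * T ^ 2) ≤ X := by
      calc 6 * (18 * (r2 / c) * T ^ 2)
          ≤ 6 * (18 * ((A * (n : ℝ) ^ ρ2) / c) * ((n : ℝ) ^ (-c1) * y ^ 2) ^ 2) := by
            gcongr
        _ = 108 * (A / c) * ((n : ℝ) ^ ρ2 * ((n : ℝ) ^ (-c1)) ^ 2) * y ^ 4 := by ring
        _ = (108 * (A / c) * (n : ℝ) ^ (-(2 * c1 - x - ρ2))) * X := by rw [hp, hX]; ring
        _ ≤ 1 * X := mul_le_mul_of_nonneg_right e5 hX0.le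
        _ = X := one_mul _
    linarith
  have t6 : rho ^ 2 * T ≤ X / 6 := by
    have hy12 := hyc 12
    have hp : (n : ℝ) ^ ρ3 * (n : ℝ) ^ (-c1)
        = (n : ℝ) ^ (-(12 * ε + c1 - x - ρ3 - 2)) * (n : ℝ) ^ (-x)
          * (n : ℝ) ^ (((12 : ℕ) : ℝ) * (-(1 / 6 : ℝ) + ε)) := by
      rw [← Real.rpow_add hn, ← Real.rpow_add hn, ← Real.rpow_add hn]
      congr 1; push_cast; ring
    have h : 6 * (rho ^ 2 * T) * y ^ 8 ≤ X * y ^ 8 := by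
      calc 6 * (rho ^ 2 * T) * y ^ 8
          ≤ 6 * (rho ^ 2 * ((n : ℝ) ^ (-c1) * y ^ 2)) * y ^ 8 := by gcongr
        _ = 6 * (n : ℝ) ^ (-c1) * (rho ^ 2 * y ^ 10) := by ring
        _ ≤ 6 * (n : ℝ) ^ (-c1) * (A * (n : ℝ) ^ ρ3) := by gcongr
        _ = 6 * A * ((n : ℝ) ^ ρ3 * (n : ℝ) ^ (-c1)) := by ring
        _ = (6 * A * (n : ℝ) ^ (-(12 * ε + c1 - x - ρ3 - 2)))
              * ((n : ℝ) ^ (-x) * (n : ℝ) ^ (((12 : ℕ) : ℝ) * (-(1 / 6 : ℝ) + ε))) := by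
            rw [hp]; ring
        _ ≤ 1 * ((n : ℝ) ^ (-x) * y ^ 12) := by
            apply mul_le_mul e6 _ (by positivity) zero_le_one
            gcongr
        _ = X * y ^ 8 := by rw [hX]; ring
    have h' := le_of_mul_le_mul_right h (by positivity)
    linarith
  calc T * eT ≤ 6 * b0 + (27 * (a / c) ^ 2 + 18 * (r1 / c) + rho ^ 2) * T
      + 18 * (r0 / c) * √T + 18 * (r2 / c) * T ^ 2 := main
    _ = 6 * b0 + 27 * (a / c) ^ 2 * T + 18 * (r1 / c) * T + rho ^ 2 * T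
      + 18 * (r0 / c) * √T + 18 * (r2 / c) * T ^ 2 := by ring
    _ ≤ X := by linarith

end Vale.Agent.P146.H272
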