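import Vale.Agent.P146.H470.Bud

/-!
# P146: the conditions of the near-end estimate on the window of the numbers

`Nw a0 b1 q A n y V T m` : the window (unit `q`): `n^(-a0+1000q) ≤ A y`, `y ≤ A n^(-b1)`,
`V ≤ A n^(-24q) y^3`, `n^(-37q) y^4 ≤ T ≤ n^(-70q) y^2`, `m` hidden sites, `m ~ n^(-40q) n T`.
`h2 = n^(-37q) y^4/(C T)`, `kq = C n^(39q)`.
-/

namespace Vale.Agent.P146.H272

open Real Filter Vale.Agent.P146.H470

/-- the window -/
structure Nw (a0 b1 q A : ℝ) (n : ℕ) (y V T m : ℝ) : Prop where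
  n1 : (1 : ℝ) < n
  y0 : 0 < y
  V0 : 0 < V
  yl : (n : ℝ) ^ (-a0 + 1000 * q) ≤ A * y
  yu : y ≤ A * (n : ℝ) ^ (-b1)
  Vu : V ≤ A * ((n : ℝ) ^ (-(24 * q)) * y ^ 3)
  Tl : (n : ℝ) ^ (-(37 * q)) * y ^ 4 ≤ T
  Tu : T ≤ (n : ℝ) ^ (-(70 * q)) * y ^ 2
  ml : (n : ℝ) ^ (-(40 * q)) * (n * T) ≤ m
  mu : m ≤ 4 * ((n : ℝ) ^ (-(40 * q)) * (n * T))

/-- the window in logarithmic form -/
structure Nl (a0 b1 q K : ℝ) (n : ℕ) (y V T m : ℝ) : Prop where
  n0 : (0 : ℝ) < n
  y0 : 0 < y
  V0 : 0 < V
  T0 : 0 < T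
  m0 : 0 < m
  L0 : 0 < log n
  yl : (-a0 + 1000 * q) * log n ≤ K + log y
  yu : log y ≤ K - b1 * log n
  Vu : log V ≤ K - 24 * q * log n + 3 * log y
  Tl : -(37 * q) * log n + 4 * log y ≤ log T
  Tu : log T ≤ -(70 * q) * log n + 2 * log y
  ml : -(40 * q) * log n + log n + log T ≤ log m
  mu : log m ≤ 2 + -(40 * q) * log n + log n + log T

lemma Nw.log {a0 b1 q A : ℝ} {n : ℕ} {y V T m : ℝ} (hA : 0 < A) (h : Nw a0 b1 q A n y V T m) :
    Nl a0 b1 q (log A) n y V T m := by
  have hn : (0 : ℝ) < n := one_pos.trans h.n1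
  have hy := h.y0
  have hV := h.V0
  have P : ∀ r : ℝ, 0 < (n : ℝ) ^ r := fun r => Real.rpow_pos_of_pos hn r
  have hT : 0 < T := lt_of_lt_of_le (mul_pos (P _) (by positivity)) h.Tl
  have hm : 0 < m := lt_of_lt_of_le (mul_pos (P _) (by positivity)) h.ml
  have g1 := Real.log_le_log (P _) h.yl
  have g2 := Real.log_le_log hy h.yu
  have g3 := Real.log_le_log hV h.Vu
  have g4 := Real.log_le_log (mul_pos (P _) (by positivity)) h.Tl
  have g5 := Real.log_le_log hT h.Tu
  have g6 := Real.log_le_log (mul_pos (P _) (by positivity)) h.ml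
  have g7 := Real.log_le_log hm h.mu
  have h4 : Real.log 4 ≤ 2 := by
    have h2 := Real.log_le_sub_one_of_pos (x := 2) two_pos
    have e : (4 : ℝ) = 2 ^ 2 := by norm_num
    rw [e, Real.log_pow]
    push_cast
    linarith
  simp (disch := positivity) only [Real.log_mul, Real.log_rpow, Real.log_pow] at g1 g2 g3 g4 g5 g6 g7
  push_cast at g3 g4 g5
  exact ⟨hn, hy, hV, hT, hm, Real.log_pos h.n1, by linarith, by linarith, by linarith, by linarith,
    by linarith, by linarith, by linarith⟩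

/-- a size below: `X ≤ ε Y` from logarithms -/
lemma le_eps {X Y ε : ℝ} (hX : 0 < X) (hY : 0 < Y) (hε : 0 < ε)
    (h : log X ≤ log ε + log Y) : X ≤ ε * Y := by
  refine le_of_log hX (by positivity) ?_
  rw [Real.log_mul hε.ne' hY.ne']
  exact h

/-- **The conditions.** `h2 = n^(-37q) y^4/(C T)`, `κ = C n^(39q)`. -/
theorem ne_cond {a0 b1 q A C ε : ℝ} (hq : 0 < q) (hb : 100 * q ≤ b1) (ha : a0 ≤ 1 / 6) (hA : 0 < A)
    (hC : 1 ≤ C) (hε : 0 < ε) :
    ∀ᶠ n : ℕ in atTop, ∀ y V T m, Nw a0 b1 q A n y V T m →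
      ∀ h2 κ, h2 = (n : ℝ) ^ (-(37 * q)) * y ^ 4 / (C * T) → κ = C * (n : ℝ) ^ (39 * q) →
      κ / √m ≤ ε * h2 ∧
      (∀ eG, 0 ≤ eG → eG ≤ C * ((n : ℝ) ^ (-(3800 * q)) * y ^ 2) → κ * eG ≤ ε * h2) ∧
      T ≤ ε * h2 ∧ m / n ≤ ε * h2 ∧ C * ((n : ℝ) ^ (25 * q) * y ^ 2) ≤ ε * h2 ∧
      y ≤ ε * √h2 ∧ y * κ ≤ ε ∧ κ ^ 2 / √m ≤ ε ∧
      (∀ et, 0 ≤ et → et ≤ C * (n : ℝ) ^ (-(2000 * q)) → et * κ ^ 2 ≤ ε) ∧
      C * ((n : ℝ) ^ (2 * q) * y ^ 2 / √T) / m ≤ ε * (h2 * √h2) ∧
      V ≤ ε * (h2 * √h2) ∧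
      (∀ rk, 0 ≤ rk → rk ≤ C * ((n : ℝ) ^ (45 * q) / (n * y ^ 2 * T)) →
        κ ^ 2 * rk ≤ ε ^ 2 * h2) := by
  have hC0 : 0 < C := lt_of_lt_of_le one_pos hC
  have hlC : 0 ≤ log C := Real.log_nonneg hC
  set K : ℝ := |log A| + 10 * log C + 10 * |log ε| + 10 with hK
  have hK0 : 0 < K := by positivity
  filter_upwards [ev_log (show 0 < q / 100 by positivity) K,
    eventually_gt_atTop 1]
    with n e1 _ y V T m hW h2 κ hh hκ
  have hL := hW.log hA
  obtain ⟨hn, hy, hV, hT, hm, hL0, l1, l2, l3, l4, l5, l6, l7⟩ := hL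
  have hh0 : 0 < h2 := by rw [hh]; positivity
  have hκ0 : 0 < κ := by rw [hκ]; positivity
  have k1 : log A ≤ K := by
    have := le_abs_self (log A); have := abs_nonneg (log ε); linarith
  have k2 : -log ε ≤ |log ε| := neg_le_abs _
  have k3 := abs_nonneg (log A)
  have k4 := abs_nonneg (log ε)
  set L := log (n : ℝ) with hLd
  set ly := log y with hly
  set lT := log T with hlT
  have qL : 0 < q * L := mul_pos hq hL0
  have bL : 100 * (q * L) ≤ b1 * L := by
    have := mul_le_mul_of_nonneg_right hb hL0.le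
    linarith
  have lh : log h2 = -(37 * q) * L + 4 * ly - log C - lT := by
    rw [hh]
    simp (disch := positivity) only [Real.log_mul, Real.log_div, Real.log_rpow, Real.log_pow]
    push_cast
    ring
  have lκ : log κ = log C + 39 * q * L := by
    rw [hκ]
    simp (disch := positivity) only [Real.log_mul, Real.log_rpow, hLd]
  have e1' : K ≤ q * L / 100 := by linarith
  have ly6 : -(1 / 6) * L + 999 * q * L ≤ ly := by nlinarith
  refine ⟨?_, ?_, ?_, ?_, ?_, ?_, ?_, ?_, ?_, ?_, ?_, ?_⟩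
  · refine le_eps (by positivity) hh0 hε ?_
    simp (disch := positivity) only [Real.log_div, Real.log_sqrt, lκ, lh]
    linarith
  · intro eG h0 h1
    rcases h0.eq_or_lt with h0 | h0
    · rw [← h0, mul_zero]; positivity
    refine le_eps (by positivity) hh0 hε ?_
    have := Real.log_le_log h0 h1
    simp (disch := positivity) only [Real.log_mul, Real.log_rpow, Real.log_pow] at this
    simp (disch := positivity) only [Real.log_mul, lκ, lh]
    push_cast at this
    linarith
  · refine le_eps hT hh0 hε ?_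
    rw [lh]; linarith
  · refine le_eps (by positivity) hh0 hε ?_
    simp (disch := positivity) only [Real.log_div, lh]
    linarith
  · refine le_eps (by positivity) hh0 hε ?_
    simp (disch := positivity) only [Real.log_mul, Real.log_rpow, Real.log_pow, lh]
    push_cast
    linarith
  · refine le_eps hy (by positivity) hε ?_
    simp (disch := positivity) only [Real.log_sqrt, lh]
    linarith
  · have h1 : y * κ ≤ ε * 1 := by
      refine le_eps (by positivity) one_pos hε ?_
      simp (disch := positivity) only [Real.log_mul, Real.log_one, lκ]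
      linarith
    linarith
  · have h1 : κ ^ 2 / √m ≤ ε * 1 := by
      refine le_eps (by positivity) one_pos hε ?_
      simp (disch := positivity) only [Real.log_div, Real.log_pow, Real.log_sqrt, Real.log_one, lκ]
      push_cast
      linarith
    linarith
  · intro et h0 h1
    rcases h0.eq_or_lt with h0 | h0
    · rw [← h0, zero_mul]; exact hε.le
    have h2 : et * κ ^ 2 ≤ ε * 1 := by
      refine le_eps (by positivity) one_pos hε ?_
      have := Real.log_le_log h0 h1
      simp (disch := positivity) only [Real.log_mul, Real.log_rpow] at this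
      simp (disch := positivity) only [Real.log_mul, Real.log_pow, Real.log_one, lκ]
      push_cast
      linarith
    linarith
  · refine le_eps (by positivity) (by positivity) hε ?_
    simp (disch := positivity) only [Real.log_div, Real.log_mul, Real.log_rpow, Real.log_pow,
      Real.log_sqrt, lh]
    push_cast
    linarith
  · refine le_eps hV (by positivity) hε ?_
    simp (disch := positivity) only [Real.log_mul, Real.log_sqrt, lh]
    linarith
  · intro rk h0 h1
    rcases h0.eq_or_lt with h0 | h0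
    · rw [← h0, mul_zero]; positivity
    refine le_of_log (by positivity) (by positivity) ?_
    have := Real.log_le_log h0 h1
    simp (disch := positivity) only [Real.log_mul, Real.log_div, Real.log_rpow,
      Real.log_pow] at this
    simp (disch := positivity) only [Real.log_mul, Real.log_pow, lκ, lh]
    push_cast at this ⊢
    linarith

/-- the rank number with the window of fixed share, `a0 ≤ 1/7` -/
theorem ne_cond1 {a0 b1 q A C ε : ℝ} (hq : 0 < q) (ha : a0 ≤ 1 / 7) (hA : 0 < A)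
    (hC : 1 ≤ C) (hε : 0 < ε) :
    ∀ᶠ n : ℕ in atTop, ∀ y V T m, Nw a0 b1 q A n y V T m →
      ∀ h2 κ, h2 = (n : ℝ) ^ (-(37 * q)) * y ^ 4 / (C * T) → κ = C * (n : ℝ) ^ (39 * q) →
      (∀ rk, 0 ≤ rk → rk ≤ C * ((n : ℝ) ^ (45 * q) / (n * y ^ 4 * √T)) →
        κ ^ 2 * rk ≤ ε ^ 2 * h2 ∧ rk ≤ ε * h2) := by
  have hC0 : 0 < C := lt_of_lt_of_le one_pos hC
  have hlC : 0 ≤ log C := Real.log_nonneg hC
  set K : ℝ := |log A| + 10 * log C + 10 * |log ε| + 10 with hK
  have hK0 : 0 < K := by positivity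
  filter_upwards [ev_log (show 0 < q / 100 by positivity) K, eventually_gt_atTop 1]
    with n e1 _ y V T m hW h2 κ hh hκ rk h0 h1
  have hL := hW.log hA
  obtain ⟨hn, hy, hV, hT, hm, hL0, l1, l2, l3, l4, l5, l6, l7⟩ := hL
  have hh0 : 0 < h2 := by rw [hh]; positivity
  have hκ0 : 0 < κ := by rw [hκ]; positivity
  have k1 : log A ≤ K := by
    have := le_abs_self (log A); have := abs_nonneg (log ε); linarith
  have k2 : -log ε ≤ |log ε| := neg_le_abs _
  have k3 := abs_nonneg (log A)
  have k4 := abs_nonneg (log ε)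
  set L := log (n : ℝ) with hLd
  set ly := log y with hly
  set lT := log T with hlT
  have qL : 0 < q * L := mul_pos hq hL0
  have lh : log h2 = -(37 * q) * L + 4 * ly - log C - lT := by
    rw [hh]
    simp (disch := positivity) only [Real.log_mul, Real.log_div, Real.log_rpow, Real.log_pow]
    push_cast
    ring
  have lκ : log κ = log C + 39 * q * L := by
    rw [hκ]
    simp (disch := positivity) only [Real.log_mul, Real.log_rpow, hLd]
  have e1' : K ≤ q * L / 100 := by linarith
  have ly7 : -(1 / 7) * L + 999 * q * L ≤ ly := by nlinarith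
  rcases h0.eq_or_lt with h0 | h0
  · rw [← h0, mul_zero]
    exact ⟨by positivity, by positivity⟩
  have := Real.log_le_log h0 h1
  simp (disch := positivity) only [Real.log_mul, Real.log_div, Real.log_rpow,
    Real.log_pow, Real.log_sqrt] at this
  push_cast at this
  constructor
  · refine le_of_log (by positivity) (by positivity) ?_
    simp (disch := positivity) only [Real.log_mul, Real.log_pow, lκ, lh]
    push_cast
    linarith
  · refine le_eps h0 hh0 hε ?_
    rw [lh]
    linarith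

end Vale.Agent.P146.H272
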