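import Vale.Agent.P146.H272.NeNum
import Vale.Agent.P146.H272.NePt
import Vale.Agent.P146.H30.NeEnd
import Vale.Agent.P146.H470.LowA
import Vale.Agent.P146.H615.ErSk

/-!
# P146: facts of the window for the near end

* `kw_small`: the parameters are small on the window; `|al| ≤ n^(25q) y²`;
* `kw_nw`: the window of the numbers of hidden sites;
* `kw_pst`: the amplitude is not stuck;
* `kw_gn`: the gain.
-/

open MeasureTheory ProbabilityTheory Filter Topology Set

namespace Vale.Agent.P146.H272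

open Vale.Agent.P157.Lv hiding Dep
open Vale.Agent.P146.H425 Vale.Agent.P146.H646 Vale.Agent.P146.H196
  Vale.Agent.P146.H475 Vale.Agent.P146.H347 Vale.Agent.P146.H418 Vale.Agent.P146.H412
  Vale.Agent.P146.H320 Vale.Agent.P146.H205 Vale.Agent.P146.H470 Vale.Agent.P146.H529

variable {a0 b₁ q A b : ℝ}

/-- the parameters are small on the window -/
theorem kw_small (hq : 0 < q) (hb : 0 < b) (hb₁ : 100 * q < b₁) (hA : 1 ≤ A) {c : ℝ}
    (hc : 0 < c) :
    ∀ᶠ n : ℕ in atTop, ∀ y V al s lam η : ℝ, KW a0 b₁ q A b n y V al s lam η →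
      y ≤ c ∧ V ≤ c ∧ s ^ 2 ≤ c ∧ η ≤ c ∧ |al| ≤ (n : ℝ) ^ (25 * q) * y ^ 2 ∧
        (n : ℝ) ^ (25 * q) * y ^ 2 ≤ c := by
  filter_upwards [ev_log (θ := q / 10) (by positivity)
    (10 * Real.log A + 10 * |Real.log b| + 10 * |Real.log c| + 100),
    eventually_gt_atTop 1] with n e1 hn
  intro y V al s lam η h
  have hn0 : (0 : ℝ) < n := by exact_mod_cast (by omega : 0 < n)
  have hn1 : (1 : ℝ) < n := by exact_mod_cast hn
  have hL : 0 < Real.log n := Real.log_pos hn1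
  have hA0 : 0 < A := by linarith
  have hlA : 0 ≤ Real.log A := Real.log_nonneg hA
  have hlb' := le_abs_self (Real.log b)
  have hab := abs_nonneg (Real.log b)
  have hlc := neg_le_abs (Real.log c)
  have hac := abs_nonneg (Real.log c)
  have hy := h.y0
  have hV := h.V0
  have hs := h.s0
  have hη := h.η0
  have g2 := Real.log_le_log hy h.yu
  have g3 := Real.log_le_log (by positivity) h.Vl
  have g4 := Real.log_le_log hV h.Vu
  have g5 := Real.log_le_log (by positivity) h.s2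
  have g6 := Real.log_le_log hη h.η1
  simp (disch := positivity) only [Real.log_mul, Real.log_rpow, Real.log_pow] at g2 g3 g4 g5 g6
  push_cast at g3 g4 g5
  have m1 : 100 * (q * Real.log n) < b₁ * Real.log n := by
    have := mul_lt_mul_of_pos_right hb₁ hL
    linarith
  have m3 : 0 < q * Real.log n := mul_pos hq hL
  have c4 : Real.log 4 ≤ 3 := by
    have := Real.log_le_sub_one_of_pos (x := 4) (by norm_num)
    linarith
  have ha := h.sg.abs_le (s0 := q / 2) h.n1.le hb hy.le h.ap hV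
  refine ⟨?_, ?_, ?_, ?_, ha.trans ?_, ?_⟩
  · refine le_of_log hy hc ?_
    linarith
  · refine le_of_log hV hc ?_
    linarith
  · refine le_of_log (by positivity) hc ?_
    rw [Real.log_pow]
    push_cast
    linarith
  · refine le_of_log hη hc ?_
    linarith
  · refine le_of_log (by positivity) (by positivity) ?_
    simp (disch := positivity) only [Real.log_mul, Real.log_div, Real.log_rpow, Real.log_pow]
    push_cast
    linarith
  · refine le_of_log (by positivity) hc ?_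
    simp (disch := positivity) only [Real.log_mul, Real.log_rpow, Real.log_pow]
    push_cast
    linarith

/-- the window of the numbers of hidden sites -/
theorem kw_nw (hq : 0 < q) (ha0 : a0 ≤ 1 / 6) (hb₁ : 100 * q < b₁) (hA : 1 ≤ A) :
    ∀ᶠ n : ℕ in atTop, ∀ y V al s lam η : ℝ, KW a0 b₁ q A b n y V al s lam η →
      ∀ T : ℝ, (n : ℝ) ^ (-(37 * q)) * y ^ 4 ≤ T → T ≤ (n : ℝ) ^ (-(70 * q)) * y ^ 2 →
      1 ≤ ⌈(n : ℝ) ^ (1 - 40 * q) * T⌉₊ ∧
      ∀ m ∈ Finset.Icc ⌈(n : ℝ) ^ (1 - 40 * q) * T⌉₊ (2 * ⌈(n : ℝ) ^ (1 - 40 * q) * T⌉₊),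
        Nw a0 b₁ q A n y V T m := by
  filter_upwards [ev_log (θ := q / 10) (by positivity) (10 * Real.log A + 100),
    eventually_gt_atTop 1] with n e1 hn
  intro y V al s lam η h T hT1 hT2
  have hn0 : (0 : ℝ) < n := by exact_mod_cast (by omega : 0 < n)
  have hn1 : (1 : ℝ) < n := by exact_mod_cast hn
  have hL : 0 < Real.log n := Real.log_pos hn1
  have hA0 : 0 < A := by linarith
  have hlA : 0 ≤ Real.log A := Real.log_nonneg hA
  have hy := h.y0
  have hV := h.V0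
  have g1 := Real.log_le_log (by positivity) h.yl
  have g2 := Real.log_le_log hy h.yu
  simp (disch := positivity) only [Real.log_mul, Real.log_rpow] at g1 g2
  have m1 : 100 * (q * Real.log n) < b₁ * Real.log n := by
    have := mul_lt_mul_of_pos_right hb₁ hL
    linarith
  have m2 : a0 * Real.log n ≤ 1 / 6 * Real.log n := mul_le_mul_of_nonneg_right ha0 hL.le
  have m3 : 0 < q * Real.log n := mul_pos hq hL
  have hT0 : 0 < T := lt_of_lt_of_le (by positivity) hT1
  have g5 := Real.log_le_log (by positivity) hT1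
  simp (disch := positivity) only [Real.log_mul, Real.log_rpow, Real.log_pow] at g5
  push_cast at g5
  set X : ℝ := (n : ℝ) ^ (1 - 40 * q) * T with hX
  have hX0 : 0 < X := by positivity
  have eX : (n : ℝ) ^ (-(40 * q)) * (n * T) = X := by
    have e : (n : ℝ) ^ (1 - 40 * q) = n * (n : ℝ) ^ (-(40 * q)) := by
      rw [sub_eq_add_neg, Real.rpow_add hn0, Real.rpow_one]
    rw [hX, e]
    ring
  have hX1 : 1 ≤ X := by
    refine le_of_log one_pos hX0 ?_
    rw [Real.log_one, hX, Real.log_mul (by positivity) (by positivity), Real.log_rpow hn0]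
    linarith
  have hc1 : 1 ≤ ⌈X⌉₊ := Nat.one_le_ceil_iff.2 hX0
  refine ⟨hc1, fun m hm => ?_⟩
  have hm' := Finset.mem_Icc.1 hm
  have h1 : X ≤ m := (Nat.le_ceil X).trans (by exact_mod_cast hm'.1)
  have h2 : (m : ℝ) ≤ 4 * X := by
    have h3 : (m : ℝ) ≤ 2 * ⌈X⌉₊ := by exact_mod_cast hm'.2
    have h4 := (Nat.ceil_lt_add_one hX0.le).le
    linarith
  exact ⟨hn1, hy, hV, h.yl, h.yu, h.Vu, hT1, hT2, by rw [eX]; exact h1, by rw [eX]; exact h2⟩

/-- the amplitude is not stuck -/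
theorem kw_pst (hq : 0 < q) (hb : 0 < b) (ha0 : a0 ≤ 1 / 6) (hb₁ : 100 * q < b₁) (hA : 1 ≤ A)
    (D : ℝ) :
    ∀ᶠ n : ℕ in atTop, ∀ y V al s lam η : ℝ, KW a0 b₁ q A b n y V al s lam η →
      ∀ t ∈ Icc (0 : ℝ) 1, ∀ u ∈ Icc (0 : ℝ) 1,
      H615.PstL (lawOf n b y V al s lam η) t u ≤ (n : ℝ) ^ (-D) := by
  filter_upwards [H30.kw_par1 hq hb ha0 hb₁ hA, tail_ap (D := D) (cl := q) hq hb] with n h1 h2
  intro y V al s lam η h t ht u hu
  obtain ⟨p1, p2, p3, p4⟩ := h1 y V al s lam η h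
  have hy := h.y0
  exact h2 Bool Bool (H418.cb t) (H418.cf (V - s ^ 2) u) lam s η y V al (sum_cb ht.1 ht.2)
    (by rw [sum_cf p3.le hu.1 hu.2]; ring) p1.V1 h.s0 p1.lam1 h.η0 p1.η1 h.ll hy
    (by linarith [p1.y1]) h.sg

/-- the gain -/
theorem kw_gn (hq : 0 < q) (hb : 0 < b) (ha0 : a0 ≤ 1 / 6) (hb₁ : 100 * q < b₁) (hA : 1 ≤ A) :
    ∀ᶠ n : ℕ in atTop, ∀ y V al s lam η : ℝ, KW a0 b₁ q A b n y V al s lam η →
      (∀ t ∈ Icc (0 : ℝ) 1, ∀ u ∈ Icc (0 : ℝ) 1,
        gn (lawOf n b y V al s lam η) t u ≤ (n : ℝ) ^ (1 + q) * y ^ 6) ∧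
      1 ≤ (n : ℝ) ^ (1 + q) * y ^ 6 := by
  filter_upwards [H30.kw_par1 hq hb ha0 hb₁ hA,
    H516.gn_ev1 (b := b) (e := 999 * q) (s0 := q / 2) (s1 := q) hb (by positivity) (by positivity)
      (by linarith), eventually_ge_atTop 1] with n h1 h2 g2
  intro y V al s lam η h
  obtain ⟨p1, p2, p3, p4⟩ := h1 y V al s lam η h
  refine ⟨h2 (V - s ^ 2) s lam η y V al p1, ?_⟩
  have hn1 : (1 : ℝ) ≤ n := by exact_mod_cast g2
  have hn0 : (0 : ℝ) < n := by linarith
  have h3 := ypow g2 p1.y0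
  calc (1 : ℝ) ≤ (n : ℝ) ^ (q + 6 * (999 * q)) := Real.one_le_rpow hn1 (by linarith)
    _ = (n : ℝ) ^ (1 + q) * (n : ℝ) ^ (-1 + 6 * (999 * q)) := by
        rw [← Real.rpow_add hn0]
        congr 1
        ring
    _ ≤ _ := by gcongr

end Vale.Agent.P146.H272
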