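import Vale.Agent.P146.H272.NeCond

/-!
# P146: the numbers of the near end on the window

`rN` = square of the a-priori size of the overlap, up to a constant: `n^(1+q) y^6/(y^2 b^2 T n)`.
-/

namespace Vale.Agent.P146.H272

open Real Filter Vale.Agent.P146.H470

/-- the a-priori number -/
noncomputable def rN (q b : ℝ) (n : ℕ) (y T : ℝ) : ℝ :=
  (n : ℝ) ^ (1 + q) * y ^ 6 / (y ^ 2 * b ^ 2 * T * n)

theorem ne_nums {a0 b1 q A C b K : ℝ} (hq : 0 < q) (hb1 : 100 * q ≤ b1) (ha : a0 ≤ 1 / 6)
    (hA : 0 < A) (hC : 1 ≤ C) (hb : 0 < b) (hK : 0 < K) {ε : ℝ} (hε : 0 < ε) :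
    ∀ᶠ n : ℕ in atTop, ∀ y V T m, Nw a0 b1 q A n y V T m →
      (8 * √(rN q b n y T)) ^ 2 ≤ C * (n : ℝ) ^ (39 * q) *
        ((n : ℝ) ^ (-(37 * q)) * y ^ 4 / (C * T)) ∧
      1 / (n : ℝ) ≤ (n : ℝ) ^ (-(37 * q)) * y ^ 4 / (C * T) ∧
      (C * (n : ℝ) ^ (39 * q)) ^ 2 *
        (1 / √(n * ((n : ℝ) ^ (-(37 * q)) * y ^ 4 / 2))) ≤ ε ∧
      V / b ^ 2 ≤ min 1 (8 * √(rN q b n y T)) ∧
      12 * (8 * √(rN q b n y T)) / (y ^ 2 * ((n : ℝ) ^ (-(37 * q)) * y ^ 4) * n) ≤
        C * ((n : ℝ) ^ (45 * q) / (n * y ^ 4 * √T)) ∧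
      54 * (8 * √(rN q b n y T)) / m ≤ C * ((n : ℝ) ^ (2 * q) * y ^ 2 / √T) / m ∧
      (n : ℝ) ^ (-(2 : ℝ)) ≤ min 1 (8 * √(rN q b n y T)) ∧
      K * (n : ℝ) ^ (-(49 : ℝ)) ≤ (n : ℝ) ^ (-(3800 * q)) * y ^ 2 ∧
      T ≤ 1 ∧ 8 * m ≤ n := by
  have hC0 : 0 < C := lt_of_lt_of_le one_pos hC
  have hlC : 0 ≤ log C := Real.log_nonneg hC
  set M : ℝ := |log A| + 10 * log C + 10 * |log ε| + 10 * |log b| + |log K| + 1000 with hM
  have hM0 : 0 < M := by positivity
  filter_upwards [ev_log (show 0 < q / 100 by positivity) M,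
    ev_log (show (0 : ℝ) < 1 / 10000 by norm_num) M, eventually_gt_atTop 1]
    with n e1 e2 _ y V T m hW
  have hL := hW.log hA
  obtain ⟨hn, hy, hV, hT, hm, hL0, l1, l2, l3, l4, l5, l6, l7⟩ := hL
  have hr0 : 0 < rN q b n y T := by unfold rN; positivity
  have k1 : log A ≤ |log A| := le_abs_self _
  have k2 : -log ε ≤ |log ε| := neg_le_abs _
  have k5 : log b ≤ |log b| := le_abs_self _
  have k6 : -log b ≤ |log b| := neg_le_abs _
  have k7 : log K ≤ |log K| := le_abs_self _
  have k3 := abs_nonneg (log A)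
  have k4 := abs_nonneg (log ε)
  have k8 := abs_nonneg (log b)
  have k9 := abs_nonneg (log K)
  have cl : ∀ c : ℝ, 0 < c → c ≤ 100 → log c ≤ 100 := fun c h0 h1 =>
    (Real.log_le_sub_one_of_pos h0).trans (by linarith)
  have c8 := cl 8 (by norm_num) (by norm_num)
  have c12 := cl 12 (by norm_num) (by norm_num)
  have c54 := cl 54 (by norm_num) (by norm_num)
  have c2 := cl 2 (by norm_num) (by norm_num)
  have d2 : 0 < log 2 := Real.log_pos (by norm_num)
  have d8 : 0 < log 8 := Real.log_pos (by norm_num)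
  set L := log (n : ℝ) with hLd
  set ly := log y with hly
  set lT := log T with hlT
  have qL : 0 < q * L := mul_pos hq hL0
  have bL : 100 * (q * L) ≤ b1 * L := by
    have := mul_le_mul_of_nonneg_right hb1 hL0.le
    linarith
  have aL : a0 * L ≤ 1 / 6 * L := mul_le_mul_of_nonneg_right ha hL0.le
  have lr : log (rN q b n y T) = q * L + 4 * ly - 2 * log b - lT := by
    unfold rN
    simp (disch := positivity) only [Real.log_mul, Real.log_div, Real.log_rpow, Real.log_pow]
    push_cast
    ring
  have hTle : lT ≤ -200 := by linarith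
  refine ⟨?_, ?_, ?_, ?_, ?_, ?_, ?_, ?_, ?_, ?_⟩
  · refine le_of_log (by positivity) (by positivity) ?_
    simp (disch := positivity) only [Real.log_mul, Real.log_div, Real.log_rpow, Real.log_pow,
      Real.log_sqrt, lr]
    push_cast
    linarith
  · refine le_of_log (by positivity) (by positivity) ?_
    simp (disch := positivity) only [Real.log_mul, Real.log_div, Real.log_rpow, Real.log_pow,
      Real.log_one]
    push_cast
    linarith
  · refine le_of_log (by positivity) hε ?_
    simp (disch := positivity) only [Real.log_mul, Real.log_div, Real.log_rpow, Real.log_pow,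
      Real.log_sqrt, Real.log_one]
    push_cast
    linarith
  · refine le_min ?_ ?_
    · refine le_of_log (by positivity) one_pos ?_
      simp (disch := positivity) only [Real.log_div, Real.log_pow, Real.log_one]
      push_cast
      linarith
    · refine le_of_log (by positivity) (by positivity) ?_
      simp (disch := positivity) only [Real.log_mul, Real.log_div, Real.log_pow, Real.log_sqrt, lr]
      push_cast
      linarith
  · refine le_of_log (by positivity) (by positivity) ?_
    simp (disch := positivity) only [Real.log_mul, Real.log_div, Real.log_rpow, Real.log_pow,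
      Real.log_sqrt, lr]
    push_cast
    linarith
  · refine le_of_log (by positivity) (by positivity) ?_
    simp (disch := positivity) only [Real.log_mul, Real.log_div, Real.log_rpow, Real.log_pow,
      Real.log_sqrt, lr]
    push_cast
    linarith
  · refine le_min ?_ ?_
    · refine le_of_log (by positivity) one_pos ?_
      rw [Real.log_rpow hn, Real.log_one]
      linarith
    · refine le_of_log (by positivity) (by positivity) ?_
      simp (disch := positivity) only [Real.log_mul, Real.log_rpow, Real.log_sqrt, lr]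
      linarith
  · refine le_of_log (by positivity) (by positivity) ?_
    simp (disch := positivity) only [Real.log_mul, Real.log_rpow, Real.log_pow]
    push_cast
    linarith
  · refine le_of_log hT one_pos ?_
    rw [Real.log_one]
    linarith
  · refine le_of_log (by positivity) hn ?_
    rw [Real.log_mul (by norm_num) hm.ne']
    linarith

end Vale.Agent.P146.H272
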