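import Vale.Agent.P146.H585.NeGen

/-!
# P146: the lower bound of the remaining square by the third moment of the overlap

As `H585.ne_gen`, without the last convexity step: `ex Y^3` on the left side, the bad event of the
fourth cumulant enters through `Bd3 ≥ ex (1_bad Y^3)`.
-/

open MeasureTheory ProbabilityTheory Filter Topology

namespace Vale.Agent.P146.H272

open Vale.Agent.P157.Lv Vale.Agent.P146.H196 Vale.Agent.P146.H646 Vale.Agent.P146.H161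
  Vale.Agent.P146.H615 Vale.Agent.P146.H586 Vale.Agent.P146.H463 Vale.Agent.P146.H585

set_option linter.unusedSectionVars false

variable {ι : Type} [Fintype ι] [DecidableEq ι] {J : Type} [Fintype J] [DecidableEq J]
  {Ω : Type} [MeasurableSpace Ω]
  {m : Measure Ω} {E : ι → Ω → ℝ} {M0 : ℝ} {K K' R : Finset ι}
  {S : Finset J} {σ : J → Ω → ℝ} {s0 a : Ω → ℝ} {x τ v kp η b0 : ℝ}

/-- the good event, with the third moment -/
lemma good_ex3 {w : (ι → ℝ) → ℝ} (hw : Wt (gg ι) w) {Y kap : (ι → ℝ) → ℝ} (bY : BM Y)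
    (hY0 : ∀ z, 0 ≤ Y z) (bkap : BM kap) {c Bd3 : ℝ} (hc0 : 0 ≤ c)
    (hbd : ex (gg ι) w (fun z => (if -c / 2 < kap z then 1 else 0) * Y z ^ 3) ≤ Bd3) :
    c ^ 2 / 4 * (ex (gg ι) w (fun z => Y z ^ 3) - Bd3) ≤
      ex (gg ι) w (fun z => Y z ^ 3 * kap z ^ 2) := by
  obtain ⟨B, hB⟩ : ∃ B : (ι → ℝ) → ℝ, B = fun z => if -c / 2 < kap z then 1 else 0 := ⟨_, rfl⟩
  have bY3 := bm_cube bY
  have bB : BM B := by
    rw [hB]
    exact H355.bm_ind (measurableSet_lt measurable_const bkap.1)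
  have e1 : (fun z => (if -c / 2 < kap z then 1 else 0) * Y z ^ 3) = fun z => B z * Y z ^ 3 := by
    rw [hB]
  rw [e1] at hbd
  have hlow : c ^ 2 / 4 * ex (gg ι) w (fun z => (1 - B z) * Y z ^ 3) ≤
      ex (gg ι) w (fun z => Y z ^ 3 * kap z ^ 2) := by
    rw [← ex_cmul]
    refine ex_mono hw (bcm _ (((BM.const 1).sub bB).mul bY3)) (bY3.mul (bsq bkap)) fun z => ?_
    have h6 : 0 ≤ Y z ^ 3 := pow_nonneg (hY0 z) 3
    by_cases h : -c / 2 < kap z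
    · have h7 : B z = 1 := by rw [hB]; simp [h]
      rw [h7]
      have h8 : 0 ≤ Y z ^ 3 * kap z ^ 2 := mul_nonneg h6 (sq_nonneg _)
      linarith
    · have h7 : B z = 0 := by rw [hB]; simp [h]
      rw [h7]
      have h8 : c ^ 2 / 4 ≤ kap z ^ 2 := by nlinarith [not_lt.1 h]
      have h9 := mul_le_mul_of_nonneg_right h8 h6
      linarith
  have e5 : ex (gg ι) w (fun z => (1 - B z) * Y z ^ 3) =
      ex (gg ι) w (fun z => Y z ^ 3) - ex (gg ι) w (fun z => B z * Y z ^ 3) := by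
    have e6 : ex (gg ι) w (fun z => Y z ^ 3) =
        ex (gg ι) w (fun z => (1 - B z) * Y z ^ 3) + ex (gg ι) w (fun z => B z * Y z ^ 3) := by
      rw [← ex_add hw (((BM.const 1).sub bB).mul bY3) (bB.mul bY3)]
      congr 1
      funext z
      ring
    linarith
  rw [e5] at hlow
  refine le_trans (mul_le_mul_of_nonneg_left ?_ (by positivity)) hlow
  linarith

/-- **The lower bound of the remaining square by the third moment.** -/
theorem ne_gen3 (hG : GM m E M0) (hx0 : 0 ≤ x) (hx1 : x ≤ 1) (hη : 0 ≤ η) (hη1 : η ≤ 1 / 2)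
    (hb0 : 0 ≤ b0) (hxb : x * b0 ≤ 1 / 4) (hkp : 0 < kp) (hτ : 0 ≤ τ) (hv : 0 ≤ v)
    (hKR : Disjoint K R) (hK : K ⊆ K') (hR : R ⊆ K')
    (hs : ∀ j, Bd (σ j)) (hs0 : Bd s0) (hs1 : ∀ ω, s0 ω ^ 2 = 1) (ha : Bd a)
    (haη : ∀ ω, |a ω - 1| ≤ η)
    (cf : (ι → ℝ) → ι → ℝ)
    (hY : ∀ z ω, YS R (cf z) E ω = kp * (s0 ω * (τ * ms S (Mg m E x K a σ) σ z ω + v)))
    (hc : ∀ z, ∑ e ∈ R, cf z e ^ 2 = kp ^ 2 * Yf S (Mg m E x K a σ) τ v z)
    (hb : ∀ ω, ∑ e ∈ R, E e ω ^ 2 ≤ b0 ^ 2)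
    {C3 c Bd3 G rk : ℝ}
    (hC3 : ex (gg ι) (Zxm m 1 E x) (fun z => cx (gg ι) K (Zxm m 1 E x) (fun y =>
        (cx (gg ι) K' (Zxm m 1 E x) (avm m 1 E (fun ω => a ω * s0 ω)) y -
          lc R (cf z) y) ^ 2) z) ≤ C3)
    (hc0 : 0 ≤ c)
    (hbd : ex (gg ι) (Zxm m 1 E x)
      (fun z => (if -c / 2 < H355.kapF m 1 E x K s0 z then 1 else 0) *
        Yf S (Mg m E x K a σ) τ v z ^ 3) ≤ Bd3)
    (hG0 : 0 ≤ G)
    (hG4 : 2 * τ ^ 4 * ex (gg ι) (Zxm m 1 E x) (Q4g m E x K σ S) + 2 * v ^ 4 ≤ G ^ 2)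
    (hrk : ex (gg ι) (Zxm m 1 E x) (RKg m E x K σ S) ≤ rk) :
    c ^ 2 / 4 * (ex (gg ι) (Zxm m 1 E x) (fun z => Yf S (Mg m E x K a σ) τ v z ^ 3) - Bd3) ≤
      160 * C3 +
      784 * 155446 * ((3 / 2 * (τ * √rk) + 4 * η ^ 2 *
        √(ex (gg ι) (Zxm m 1 E x) (fun z => Yf S (Mg m E x K a σ) τ v z ^ 2))) * G) +
      (44 * (48 * η + 28 * x) ^ 2 + 1696 * (kp ^ 2 * (x * (48 * b0 ^ 2 + 6)) ^ 2)) *
        (√(ex (gg ι) (Zxm m 1 E x) (fun z => Yf S (Mg m E x K a σ) τ v z ^ 2)) * G) := by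
  set w := Zxm m 1 E x with hwd
  have hw : Wt (gg ι) w := hG.wt 1 x
  have hAv := av_gm hG 1
  set M := Mg m E x K a σ with hMdef
  have hM : ∀ j, BM (M j) := bm_Mg hG x K ha hs
  have hMd : ∀ j, H646.Dep K (M j) := fun j => dep_cx K
  set Y := Yf S M τ v with hYdef
  have bY : BM Y := bm_Y (S := S) hAv hs hM τ v
  have hY0 : ∀ z, 0 ≤ Y z := fun z => Y_nonneg hτ hv z
  have bR : BM (RKg m E x K σ S) := bm_RKg hG x K hs S
  have bRs : BM fun z => √(RKg m E x K σ S z) := bm_sqrt bR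
  have bQ : BM (Q4g m E x K σ S) := bm_Q4g hG x K hs S
  have bQs : BM fun z => √(Q4g m E x K σ S z) := bm_sqrt bQ
  obtain ⟨W, hW⟩ : ∃ W : (ι → ℝ) → ℝ, W = fun z => τ ^ 2 * √(Q4g m E x K σ S z) + v ^ 2 :=
    ⟨_, rfl⟩
  have bW : BM W := by rw [hW]; exact (bcm _ bQs).add (BM.const _)
  have hW0 : ∀ z, 0 ≤ W z := fun z => by rw [hW]; positivity
  obtain ⟨dl, hdl⟩ : ∃ dl : (ι → ℝ) → ℝ, dl = fun z =>
      3 / 2 * (τ * √(RKg m E x K σ S z)) + 4 * η ^ 2 * Y z := ⟨_, rfl⟩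
  have bdl : BM dl := by rw [hdl]; exact (bcm _ (bcm _ bRs)).add (bcm _ bY)
  have hdl0 : ∀ z, 0 ≤ dl z := fun z => by
    rw [hdl]
    have := hY0 z
    positivity
  have hY2 : ∀ z, Y z ^ 2 ≤ 11 * W z := fun z => by
    rw [hW]
    exact y2_le hG hη hη1 hτ hv x K ha hs haη S z
  have hW2 : ex (gg ι) w (fun z => W z ^ 2) ≤ G ^ 2 := by
    rw [hW]
    exact (exW2 hG x K hs S τ v).trans hG4
  have hdY : ∀ z, (dl z + Y z) ^ 2 ≤ 106 * W z := fun z => by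
    have h7 : √(RKg m E x K σ S z) ^ 2 ≤ 4 * √(Q4g m E x K σ S z) := by
      rw [Real.sq_sqrt (RKg_nonneg z S)]
      exact RKg_le hG x K hs S z
    have h8 := hY2 z
    rw [hdl, hW]
    rw [hW] at h8
    exact dlY_sq hη hη1 hτ (Real.sqrt_nonneg _) (hY0 z) h7 h8
  have hrk' : ex (gg ι) w (fun z => √(RKg m E x K σ S z) ^ 2) ≤ rk := by
    have e2 : (fun z => √(RKg m E x K σ S z) ^ 2) = RKg m E x K σ S := by
      funext z
      exact Real.sq_sqrt (RKg_nonneg z S)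
    rw [e2]
    exact hrk
  obtain ⟨t2, t3, t4⟩ := mom_ex (τ := τ) (η := η) hw bY hY0 bW bRs bdl hdl0 hY2 hdY hdl hτ hG0
    hW2 hrk'
  have hbes := bes_ex (K := K) (K' := K') (R := R) (M := M) (T := S) (s := σ) hG hx0 hx1 hη
    (by linarith) hb0 hxb hkp hτ hv hKR hK hR hs hs0 hs1 ha haη hM hMd cf hY hc hb
    (dl := dl) (x4 := fun z => 8 * W z) bdl (bcm 8 bW) hdl0
    (fun z => mul_nonneg (by norm_num) (hW0 z))
    (fun z => by rw [hdl]; exact hdl_of hG hη hη1 hτ hv x K ha hs haη S z)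
    (fun z => by rw [hW]; exact hx4_of hG hτ hv x K a hs S z)
  have bkap : BM (H355.kapF m 1 E x K s0) := hw.bm_cx K (H355.bm_kf hG 1 hs0)
  have hgood := good_ex3 hw bY hY0 bkap hc0 hbd
  have hkk : (fun z => Y z ^ 3 * H355.kapF m 1 E x K s0 z ^ 2) = fun z => Y z ^ 3 *
      cx (gg ι) K w (fun y => k0 (avm m 1 E s0 y)) z ^ 2 := rfl
  rw [hkk] at hgood
  rw [← hwd] at hbes
  set h2 := ex (gg ι) w (fun z => Y z ^ 2) with hh2
  have h11 := mul_le_mul_of_nonneg_left t3 (show 0 ≤ 4 * (48 * η + 28 * x) ^ 2 by positivity)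
  have h12 := mul_le_mul_of_nonneg_left t4
    (show 0 ≤ 16 * (kp ^ 2 * (x * (48 * b0 ^ 2 + 6)) ^ 2) by positivity)
  have h14 := mul_le_mul_of_nonneg_left t2 (show (0 : ℝ) ≤ 784 by norm_num)
  have h15 := mul_le_mul_of_nonneg_left hC3 (show (0 : ℝ) ≤ 160 by norm_num)
  refine (hgood.trans hbes).trans ?_
  have e6 : 4 * ((48 * η + 28 * x) ^ 2 * ex (gg ι) w (fun z => Y z ^ 3)) =
      4 * (48 * η + 28 * x) ^ 2 * ex (gg ι) w (fun z => Y z ^ 3) := by ring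
  have e7 : 16 * (kp ^ 2 * (x * (48 * b0 ^ 2 + 6)) ^ 2 *
      ex (gg ι) w (fun z => Y z * (dl z + Y z) ^ 2)) =
      16 * (kp ^ 2 * (x * (48 * b0 ^ 2 + 6)) ^ 2) *
        ex (gg ι) w (fun z => Y z * (dl z + Y z) ^ 2) := by ring
  rw [e6, e7]
  linarith

end Vale.Agent.P146.H272
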