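import Vale.Agent.P146.H272.Pk1
import Vale.Agent.P146.H586.NeS

set_option linter.all false

/-!
# P146: the lower bound of the remaining square by the third moment, modulated SK system

`ne_co3` as `H586.ne_co`, `ne_sk3` as `H586.ne_sk`, with `ex Y^3` in place of `(ex Y^2)^(3/2)`.
-/

open MeasureTheory ProbabilityTheory Filter Topology

namespace Vale.Agent.P146.H272

open Vale.Agent.P157.Lv Vale.Agent.P146.H196 Vale.Agent.P146.H646 Vale.Agent.P146.H161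
  Vale.Agent.P146.H615 Vale.Agent.P146.H463 Vale.Agent.P146.H347 Vale.Agent.P146.H475
  Vale.Agent.P146.H816 Vale.Agent.P146.H325 Vale.Agent.P146.H205 Vale.Agent.P146.H197
  Vale.Agent.P146.H586

variable {n : ℕ} {LB LF : Type} [Fintype LB] [DecidableEq LB] [Fintype LF] [DecidableEq LF]

variable {b s η lam c x r0 : ℝ} {cB : LB → ℝ} {cF : LF → ℝ} {BL : Finset LB} {FL : Finset LF}

section main

variable (hl : 0 < lam) (hη : 0 ≤ η) (hη1 : η ≤ 1 / 2) (hs : s ≠ 0) (hx0 : 0 ≤ x) (hx1 : x < 1)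
  (hn : 0 < n) (hc : c = s ^ 2 * n * (1 - (1 - x) * r0)) (hk : 0 ≤ 1 - (1 - x) * r0)
include hl hη hη1 hs hx0 hx1 hn hc hk

/-- **The near end, one frozen set.** -/
theorem ne_co3 (hkp : 0 < 1 - (1 - x) * r0) {S S1 : Finset (Fin n)} (hSne : S.Nonempty)
    (hS : S ⊆ S1) {i0 : Fin n} (hi0 : i0 ∉ S) (hne : (S1 \ S).Nonempty) {t wf : ℝ}
    (ht : ∑ l ∈ BL, cB l ^ 2 = t) (hwf : ∑ l ∈ FL, cF l ^ 2 = b ^ 2 * wf) (hwf0 : 0 ≤ wf)
    {b0 : ℝ} (hb0 : 0 ≤ b0) (hxb : x * b0 ≤ 1 / 4)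
    (hb : b ^ 2 * t + b ^ 2 * wf ≤ b0 ^ 2) {c0 Bd3 G rk g4 : ℝ} (hc0 : 0 ≤ c0)
    (hbd : exS n b cB cF s η lam c x (fun z =>
      (if -c0 / 2 < H355.kapA n b cB cF s η lam c x (Kset S BL FL) i0 z then 1 else 0) *
        (b ^ 2 * (t * Qv n b cB cF s η lam c x S BL FL z + wf)) ^ 3) ≤ Bd3)
    (hG0 : 0 ≤ G)
    (hQ4 : exS n b cB cF s η lam c x (Q4g (muA (Xs n) lam η c) (Sm b cB cF s η) x
      (Kset S BL FL) (fun (j : Fin n) w => sp w.2 j) S) ≤ n ^ 4 * g4)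
    (hG4 : 2 * (b ^ 2 * t) ^ 4 * g4 + 2 * (b ^ 2 * wf) ^ 4 ≤ G ^ 2)
    (hrk : exS n b cB cF s η lam c x (RKv n b cB cF s η lam c x S BL FL) ≤ rk) :
    c0 ^ 2 / 4 * (b ^ 6 * exS n b cB cF s η lam c x (fun z =>
      (t * Qv n b cB cF s η lam c x S BL FL z + wf) ^ 3) - Bd3) ≤
      160 * C3n n b cB cF s η lam c x r0 t wf S S1 BL FL i0 +
      784 * 155446 * ((3 / 2 * (b ^ 2 * t * √rk) + 4 * η ^ 2 *
        √(b ^ 4 * exS n b cB cF s η lam c x (fun z =>
          (t * Qv n b cB cF s η lam c x S BL FL z + wf) ^ 2))) * G) +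
      (44 * (48 * η + 28 * x) ^ 2 +
        1696 * ((1 - (1 - x) * r0) ^ 2 * (x * (48 * b0 ^ 2 + 6)) ^ 2)) *
        (√(b ^ 4 * exS n b cB cF s η lam c x (fun z =>
          (t * Qv n b cB cF s η lam c x S BL FL z + wf) ^ 2)) * G) := by
  have hG := gmA (n := n) b cB cF s hl hη c
  have hw : Wt (g1 (Co n LB LF)) (wS n b cB cF s η lam c x) := wtA b cB cF s hl hη c x
  have hσ : ∀ j : Fin n, Bd fun w : ℝ × Xs n => sp w.2 j := fun j => H347.bm_sp j
  have ha : Bd fun w : ℝ × Xs n => al η w.1 := bm_of_al (n := n) hη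
  have haη : ∀ w : ℝ × Xs n, |al η w.1 - 1| ≤ η := fun w => by
    have := al_mem hη w.1
    rw [abs_le]
    constructor <;> linarith [this.1, this.2]
  have ht0 : 0 ≤ t := by rw [← ht]; exact Finset.sum_nonneg fun _ _ => sq_nonneg _
  have hn' : (0 : ℝ) < n := Nat.cast_pos.2 hn
  have hR : Rw i0 S BL FL ⊆ Kset (insert i0 S) BL FL := by
    rw [← Rw_union hi0]
    exact Finset.subset_union_right
  have hKK : Kset S BL FL ⊆ Kset (LB := LB) (LF := LF) (insert i0 S) BL FL :=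
    Kset_mono (Finset.subset_insert i0 S) (Finset.Subset.refl _) (Finset.Subset.refl _)
  set M := Mv n b cB cF s η lam c x S BL FL with hM
  have hScard : (S.card : ℝ) ≤ n := by
    have := Finset.card_le_univ S
    rw [Fintype.card_fin] at this
    exact_mod_cast this
  have hc3 := c3_one (BL := BL) (FL := FL) (cB := cB) (cF := cF) (b := b) hl hη hη1 hs hx0 hx1 hn
    hc hk hSne hS hi0 hne ht hwf hwf0
  have hc3' : ex (gg _) (Zxm (muA (Xs n) lam η c) 1 (Sm b cB cF s η) x) (fun z =>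
      cx (gg _) (Kset S BL FL) (Zxm (muA (Xs n) lam η c) 1 (Sm b cB cF s η) x) (fun y =>
        (cx (gg _) (Kset (insert i0 S) BL FL) (Zxm (muA (Xs n) lam η c) 1 (Sm b cB cF s η) x)
          (avm (muA (Xs n) lam η c) 1 (Sm b cB cF s η) (fun w => al η w.1 * sp w.2 i0)) y -
          lc (Rw i0 S BL FL) (cfr i0 b cB cF (1 - (1 - x) * r0) M z) y) ^ 2) z) ≤
      C3n n b cB cF s η lam c x r0 t wf S S1 BL FL i0 := by
    refine le_trans (le_of_eq ?_) hc3
    unfold C3v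
    simp only [one_mul]
    rfl
  -- the algebra of `Y`
  have em : ∀ z, m2 S M z = n * Qv n b cB cF s η lam c x S BL FL z := by
    intro z
    show m2 S M z = (n : ℝ) * (m2 S M z / n)
    field_simp
  have eY : ∀ z, Yf S M (b ^ 2 / n * t) (b ^ 2 * wf) z =
      b ^ 2 * (t * Qv n b cB cF s η lam c x S BL FL z + wf) := by
    intro z
    show b ^ 2 / n * t * m2 S M z + b ^ 2 * wf = _
    rw [em]
    field_simp
  have eY2 : ex (gg _) (Zxm (muA (Xs n) lam η c) 1 (Sm b cB cF s η) x)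
      (fun z => Yf S M (b ^ 2 / n * t) (b ^ 2 * wf) z ^ 2) =
      b ^ 4 * exS n b cB cF s η lam c x (fun z =>
        (t * Qv n b cB cF s η lam c x S BL FL z + wf) ^ 2) := by
    rw [← ex_cmul]
    congr 1
    funext z
    rw [eY]
    ring
  have hrk' : ex (gg _) (Zxm (muA (Xs n) lam η c) 1 (Sm b cB cF s η) x)
      (RKg (muA (Xs n) lam η c) (Sm b cB cF s η) x (Kset S BL FL)
        (fun (j : Fin n) w => sp w.2 j) S) ≤ n ^ 2 * rk := by
    have e : RKg (muA (Xs n) lam η c) (Sm b cB cF s η) x (Kset S BL FL)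
        (fun (j : Fin n) w => sp w.2 j) S = fun z =>
        (n : ℝ) ^ 2 * RKv n b cB cF s η lam c x S BL FL z := by
      funext z
      show _ = (n : ℝ) ^ 2 * (RKg (muA (Xs n) lam η c) (Sm b cB cF s η) x (Kset S BL FL)
        (fun (j : Fin n) w => sp w.2 j) S z / (n : ℝ) ^ 2)
      field_simp
    rw [e, ex_cmul]
    exact mul_le_mul_of_nonneg_left hrk (by positivity)
  have eY3 : ex (gg _) (Zxm (muA (Xs n) lam η c) 1 (Sm b cB cF s η) x)
      (fun z => Yf S M (b ^ 2 / n * t) (b ^ 2 * wf) z ^ 3) =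
      b ^ 6 * exS n b cB cF s η lam c x (fun z =>
        (t * Qv n b cB cF s η lam c x S BL FL z + wf) ^ 3) := by
    rw [← ex_cmul]
    congr 1
    funext z
    rw [eY]
    ring
  have hbd' : ex (gg _) (Zxm (muA (Xs n) lam η c) 1 (Sm b cB cF s η) x)
      (fun z => (if -c0 / 2 < H355.kapF (muA (Xs n) lam η c) 1 (Sm b cB cF s η) x
        (Kset S BL FL) (fun w : ℝ × Xs n => sp w.2 i0) z then 1 else 0) *
        Yf S M (b ^ 2 / n * t) (b ^ 2 * wf) z ^ 3) ≤ Bd3 := by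
    simp only [eY]
    exact hbd
  have key := ne_gen3 (K := Kset S BL FL) (K' := Kset (insert i0 S) BL FL)
    (R := Rw i0 S BL FL) (S := S) (σ := fun (j : Fin n) (w : ℝ × Xs n) => sp w.2 j)
    (s0 := fun w : ℝ × Xs n => sp w.2 i0) (a := fun w : ℝ × Xs n => al η w.1) (b0 := b0)
    (kp := 1 - (1 - x) * r0) (τ := b ^ 2 / n * t) (v := b ^ 2 * wf)
    hG hx0 hx1.le hη hη1 hb0 hxb hkp
    (mul_nonneg (div_nonneg (sq_nonneg _) hn'.le) ht0) (mul_nonneg (sq_nonneg _) hwf0)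
    (Rw_disj hi0) hKK hR hσ (hσ i0)
    (fun w => by
      show sp w.2 i0 ^ 2 = 1
      rw [sq]
      exact sp_mul_self w.2 i0)
    ha haη (cfr i0 b cB cF (1 - (1 - x) * r0) M)
    (fun z w => by
      have h := ys_cfr b cB cF s η BL FL hi0 (1 - (1 - x) * r0) M z w
      rw [ht, hwf] at h
      exact h)
    (fun z => by
      have h := sq_cfr b cB cF BL FL hi0 (1 - (1 - x) * r0) M z
      rw [ht, hwf] at h
      exact h)
    (fun w => by
      rw [sum_Rw_sq b cB cF s η hi0 BL FL w, ht, hwf]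
      have h1 : b ^ 2 / n * t * S.card ≤ b ^ 2 * t := by
        have h2 : b ^ 2 / n * t * S.card ≤ b ^ 2 / n * t * n :=
          mul_le_mul_of_nonneg_left hScard (by positivity)
        have h3 : b ^ 2 / n * t * n = b ^ 2 * t := by field_simp
        linarith
      linarith)
    (c := c0) (Bd3 := Bd3) (G := G) (rk := n ^ 2 * rk)
    hc3' hc0 hbd' hG0 (by
      refine le_trans ?_ hG4
      have h1 : 2 * (b ^ 2 / n * t) ^ 4 * ex (gg _) (Zxm (muA (Xs n) lam η c) 1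
          (Sm b cB cF s η) x) (Q4g (muA (Xs n) lam η c) (Sm b cB cF s η) x
          (Kset S BL FL) (fun (j : Fin n) w => sp w.2 j) S) ≤
          2 * (b ^ 2 / n * t) ^ 4 * (n ^ 4 * g4) :=
        mul_le_mul_of_nonneg_left hQ4 (by positivity)
      have h2 : 2 * (b ^ 2 / n * t) ^ 4 * (n ^ 4 * g4) = 2 * (b ^ 2 * t) ^ 4 * g4 := by
        field_simp
      linarith)
    hrk'
  rw [show (fun z => Yf S (Mg (muA (Xs n) lam η c) (Sm b cB cF s η) x (Kset S BL FL)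
    (fun w : ℝ × Xs n => al η w.1) (fun (j : Fin n) (w : ℝ × Xs n) => sp w.2 j))
    (b ^ 2 / n * t) (b ^ 2 * wf) z ^ 2) = fun z => Yf S M (b ^ 2 / n * t) (b ^ 2 * wf) z ^ 2
    from rfl, eY2,
    show (fun z => Yf S (Mg (muA (Xs n) lam η c) (Sm b cB cF s η) x (Kset S BL FL)
    (fun w : ℝ × Xs n => al η w.1) (fun (j : Fin n) (w : ℝ × Xs n) => sp w.2 j))
    (b ^ 2 / n * t) (b ^ 2 * wf) z ^ 3) = fun z => Yf S M (b ^ 2 / n * t) (b ^ 2 * wf) z ^ 3
    from rfl, eY3] at key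
  have hsq : b ^ 2 / n * t * √((n : ℝ) ^ 2 * rk) = b ^ 2 * t * √rk := by
    rw [Real.sqrt_mul (sq_nonneg (n : ℝ)), Real.sqrt_sq hn'.le]
    field_simp
  rw [hsq] at key
  exact key

end main

end Vale.Agent.P146.H272
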