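import Vale.Agent.P146.H272.Pk2
import Vale.Agent.P146.H75.KUp

set_option linter.all false

/-!
# P146: the lower bound of the remaining square by the third moment, names of `H418.Skel`

* `ne_sk3` : as `H586.ne_sk`, with `ex Y^3` in place of `(ex Y^2)^(3/2)`;
* `bd3_le` : the bad part from the tail of the overlap.
-/

open MeasureTheory ProbabilityTheory Filter Topology

namespace Vale.Agent.P146.H272

open Vale.Agent.P157.Lv hiding Dep
open Vale.Agent.P146.H425 Vale.Agent.P146.H646 Vale.Agent.P146.H615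
open Vale.Agent.P146.H325 hiding cb cf
open Vale.Agent.P146.H196 Vale.Agent.P146.H347 Vale.Agent.P146.H475 Vale.Agent.P146.H418
  Vale.Agent.P146.H412 Vale.Agent.P146.H320 Vale.Agent.P146.H463 Vale.Agent.P146.H355
  Vale.Agent.P146.H586

/-- **The near end, one frozen set, on the names of Skel.** -/
theorem ne_sk3 {L : Law} (hA : Adm L) (hη1 : L.η ≤ 1 / 2) (hs : L.s ≠ 0) (hx1 : L.x < 1) {r0 : ℝ}
    (hc : L.c = L.s ^ 2 * L.n * (1 - (1 - L.x) * r0)) (hk : 0 < 1 - (1 - L.x) * r0) {m : ℕ}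
    (hm0 : 1 ≤ m) (hm : m < L.n) {t u : ℝ} (ht : 0 ≤ t) (ht1 : t ≤ 1) (hu : 0 ≤ u)
    {i0 : Fin L.n} (hi : i0.1 + m = L.n) {b0 : ℝ} (hb0 : 0 ≤ b0) (hxb0 : L.x * b0 ≤ 1 / 4)
    (hbb : L.b ^ 2 * t + u * L.vp ≤ b0 ^ 2) {c0 Bd3 G rk g4 U θ I : ℝ} (hc0 : 0 ≤ c0)
    (hbd : L.ex' t u (fun z => (if -c0 / 2 < kapL L (Sn L.n m) t u i0 z then 1 else 0) *
      (L.b ^ 2 * (t * L.Q (Sn L.n m) t u z + u * L.vp / L.b ^ 2)) ^ 3) ≤ Bd3)
    (hG0 : 0 ≤ G)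
    (hQ4 : L.ex' t u (Q4g (muA (Xs L.n) L.lam L.η L.c) (Sm L.b (H418.cb t) (H418.cf L.vp u) L.s
      L.η) L.x (Kt L.n (Sn L.n m)) (fun (j : Fin L.n) w => sp w.2 j) (Sn L.n m)) ≤
        L.n ^ 4 * g4)
    (hG4 : 2 * (L.b ^ 2 * t) ^ 4 * g4 + 2 * (u * L.vp) ^ 4 ≤ G ^ 2)
    (hwU : u * L.vp / L.b ^ 2 ≤ U) (hU0 : 0 < U) (hU1 : U ≤ 1)
    (hxb : 8 * (L.x ^ 2 * L.b ^ 2) ≤ 1)
    (hUu : L.ex' t u (CC L Finset.univ t u) ≤ U ^ 2)
    (hUS : L.ex' t u (fun z => CC L (Sn L.n m) t u z ^ 2) ≤ U ^ 4)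
    (hrk : L.rk (Sn L.n m) t u ≤ rk)
    (hθ : 5 / √m + 2 * |L.lam / ((1 - L.x) * (L.s ^ 2 * L.n))| +
      3 * ((|r0| + 1) * √(PstL L t u)) / √U ≤ θ)
    (hI : incL L (H418.cb t) (H418.cf L.vp u) (Sn L.n m) (Kset (Sn L.n m) {true} {true})
      (Kset (insert i0 (Sn L.n m)) {true} {true}) ≤ I) :
    c0 ^ 2 / 4 * (L.b ^ 6 * L.ex' t u (fun z => (t * L.Q (Sn L.n m) t u z +
      u * L.vp / L.b ^ 2) ^ 3) - Bd3) ≤
      160 * ((L.n / (L.n - m) - (L.b * (1 - (1 - L.x) * r0)) ^ 2 * t) *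
          L.ex' t u (L.Q (Sn L.n m) t u) -
        (L.b * (1 - (1 - L.x) * r0)) ^ 2 * (u * L.vp / L.b ^ 2) + I / (L.n - m) +
        L.x * L.b * (L.b * (1 - (1 - L.x) * r0)) ^ 3 *
          L.ex' t u (fun z => (t * L.Q (Sn L.n m) t u z + u * L.vp / L.b ^ 2) ^ 2) +
        E1c L.b L.x (1 - (1 - L.x) * r0) L.η U (u * L.vp / L.b ^ 2) θ rk) +
      784 * 155446 * ((3 / 2 * (L.b ^ 2 * t * √rk) + 4 * L.η ^ 2 *
        √(L.b ^ 4 * L.ex' t u (fun z => (t * L.Q (Sn L.n m) t u z +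
          u * L.vp / L.b ^ 2) ^ 2))) * G) +
      (44 * (48 * L.η + 28 * L.x) ^ 2 +
        1696 * ((1 - (1 - L.x) * r0) ^ 2 * (L.x * (48 * b0 ^ 2 + 6)) ^ 2)) *
        (√(L.b ^ 4 * L.ex' t u (fun z => (t * L.Q (Sn L.n m) t u z +
          u * L.vp / L.b ^ 2) ^ 2)) * G) := by
  have hb := hA.b0
  have hvp := hA.vp0
  have hi1 : i0 ∉ Sn L.n m := Sn_not_mem hi
  have hSne : (Sn L.n m).Nonempty := by
    refine ⟨⟨0, hA.n0⟩, ?_⟩
    simp only [Sn, Finset.mem_filter, Finset.mem_univ, true_and]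
    omega
  have hne : (Finset.univ \ Sn L.n m).Nonempty := ⟨i0, by simp [hi1]⟩
  have hwf0 : 0 ≤ u * L.vp / L.b ^ 2 := by positivity
  have hbw : L.b ^ 2 * (u * L.vp / L.b ^ 2) = u * L.vp := by field_simp
  have e1 := er1_sk hA hη1 hk.le hm.le ht ht1 hu hwU hU0 hU1 hUu hUS hrk hθ
  have e2 := e2n_sk hA hη1 hm.le ht ht1 hu hwU hU1 hxb hUu zero_le_one le_rfl hi hI
    (P := 1) (Lr := 0)
  have key := ne_co3 (b := L.b) (s := L.s) (η := L.η) (lam := L.lam) (c := L.c) (x := L.x)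
    (r0 := r0) (cB := H418.cb t) (cF := H418.cf L.vp u) (BL := {true}) (FL := {true})
    hA.lam0 hA.η0 hη1 hs hA.x0 hx1 hA.n0 hc hk.le hk hSne (Finset.subset_univ _) hi1 hne
    (cb_true ht) (cf_true hvp.le hu hb.ne') hwf0 hb0 hxb0
    (by rw [hbw]; exact hbb) hc0 (Bd3 := Bd3) (G := G) (rk := rk) (g4 := g4)
    hbd hG0 hQ4 (by rw [hbw]; exact hG4) (by rw [RKv_rk]; exact hrk)
  have hC : C3n L.n L.b (H418.cb t) (H418.cf L.vp u) L.s L.η L.lam L.c L.x r0 t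
      (u * L.vp / L.b ^ 2) (Sn L.n m) Finset.univ {true} {true} i0 ≤
      (L.n / (L.n - m) - (L.b * (1 - (1 - L.x) * r0)) ^ 2 * t) *
          L.ex' t u (L.Q (Sn L.n m) t u) -
        (L.b * (1 - (1 - L.x) * r0)) ^ 2 * (u * L.vp / L.b ^ 2) + I / (L.n - m) +
        L.x * L.b * (L.b * (1 - (1 - L.x) * r0)) ^ 3 *
          L.ex' t u (fun z => (t * L.Q (Sn L.n m) t u z + u * L.vp / L.b ^ 2) ^ 2) +
        E1c L.b L.x (1 - (1 - L.x) * r0) L.η U (u * L.vp / L.b ^ 2) θ rk := by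
    unfold C3n
    rw [card_vis hm.le, Qv_Q]
    have h3 : (1 : ℝ) * I / (L.n - m) + 918 * L.b ^ 2 * 0 * U * √(I + 9 / 4 * U) / √L.n =
        I / (L.n - m) := by
      rw [mul_zero, zero_mul, zero_mul, zero_div, add_zero, one_mul]
    rw [h3] at e2
    have h4 : exS L.n L.b (H418.cb t) (H418.cf L.vp u) L.s L.η L.lam L.c L.x
        (L.Q (Sn L.n m) t u) = L.ex' t u (L.Q (Sn L.n m) t u) := rfl
    have h5 : exS L.n L.b (H418.cb t) (H418.cf L.vp u) L.s L.η L.lam L.c L.x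
        (fun z => (t * L.Q (Sn L.n m) t u z + u * L.vp / L.b ^ 2) ^ 2) =
        L.ex' t u (fun z => (t * L.Q (Sn L.n m) t u z + u * L.vp / L.b ^ 2) ^ 2) := rfl
    rw [h4, h5]
    linarith
  have k2 := mul_le_mul_of_nonneg_left hC (by norm_num : (0 : ℝ) ≤ 160)
  rw [Qv_Q] at key
  have h5 : exS L.n L.b (H418.cb t) (H418.cf L.vp u) L.s L.η L.lam L.c L.x
      (fun z => (t * L.Q (Sn L.n m) t u z + u * L.vp / L.b ^ 2) ^ 2) =
      L.ex' t u (fun z => (t * L.Q (Sn L.n m) t u z + u * L.vp / L.b ^ 2) ^ 2) := rfl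
  have h6 : exS L.n L.b (H418.cb t) (H418.cf L.vp u) L.s L.η L.lam L.c L.x
      (fun z => (t * L.Q (Sn L.n m) t u z + u * L.vp / L.b ^ 2) ^ 3) =
      L.ex' t u (fun z => (t * L.Q (Sn L.n m) t u z + u * L.vp / L.b ^ 2) ^ 3) := rfl
  rw [h5, h6] at key
  linarith

/-- the bad part from the tail of the overlap -/
theorem bd3_le {L : Law} (hA : Adm L) (hη1 : L.η ≤ 1 / 2) {m : ℕ} {t u : ℝ} (ht : 0 ≤ t)
    (ht1 : t ≤ 1) (hu : 0 ≤ u) (i0 : Fin L.n) {c0 pb pQ U : ℝ}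
    (hpb : L.ex' t u (fun z => if -c0 / 2 < kapL L (Sn L.n m) t u i0 z then 1 else 0) ≤ pb)
    (hwU : u * L.vp / L.b ^ 2 ≤ U) (hU1 : U ≤ 1)
    (hQ : L.ex' t u (H317.ind U (L.Q (Sn L.n m) t u)) ≤ pQ) :
    L.ex' t u (fun z => (if -c0 / 2 < kapL L (Sn L.n m) t u i0 z then 1 else 0) *
      (L.b ^ 2 * (t * L.Q (Sn L.n m) t u z + u * L.vp / L.b ^ 2)) ^ 3) ≤
      8 * L.b ^ 6 * U ^ 3 * pb + 35 * L.b ^ 6 * pQ := by
  have hl := hA.lam0
  have hη := hA.η0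
  have hb := hA.b0
  have hvp := hA.vp0
  have hw := wtL (L := L) hl hη t u
  have bQ := bm_Q (L := L) hl hη (Sn L.n m) t u
  have bi : BM (H317.ind U (L.Q (Sn L.n m) t u)) := H355.bm_ind (measurableSet_lt measurable_const bQ.1)
  have bk : BM (kapL L (Sn L.n m) t u i0) := hw.bm_cx _ (H355.bm_kf
    (gmA (n := L.n) L.b (H418.cb t) (H418.cf L.vp u) L.s hl hη L.c) 1 (H347.bm_sp i0))
  have bB : BM fun z => if -c0 / 2 < kapL L (Sn L.n m) t u i0 z then (1 : ℝ) else 0 :=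
    H355.bm_ind (measurableSet_lt measurable_const bk.1)
  have bY : BM fun z => L.b ^ 2 * (t * L.Q (Sn L.n m) t u z + u * L.vp / L.b ^ 2) :=
    bcm _ ((bcm t bQ).add (BM.const _))
  have hwf0 : 0 ≤ u * L.vp / L.b ^ 2 := by positivity
  have hU0 : 0 ≤ U := hwf0.trans hwU
  have e : 8 * L.b ^ 6 * U ^ 3 * L.ex' t u
      (fun z => if -c0 / 2 < kapL L (Sn L.n m) t u i0 z then 1 else 0) +
      35 * L.b ^ 6 * L.ex' t u (H317.ind U (L.Q (Sn L.n m) t u)) =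
      L.ex' t u (fun z => 8 * L.b ^ 6 * U ^ 3 *
        (if -c0 / 2 < kapL L (Sn L.n m) t u i0 z then 1 else 0) +
        35 * L.b ^ 6 * H317.ind U (L.Q (Sn L.n m) t u) z) := by
    unfold Law.ex'
    rw [ex_add hw (bcm _ bB) (bcm _ bi), ex_cmul, ex_cmul]
  have h1 : L.ex' t u (fun z => (if -c0 / 2 < kapL L (Sn L.n m) t u i0 z then 1 else 0) *
      (L.b ^ 2 * (t * L.Q (Sn L.n m) t u z + u * L.vp / L.b ^ 2)) ^ 3) ≤
      8 * L.b ^ 6 * U ^ 3 * L.ex' t u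
      (fun z => if -c0 / 2 < kapL L (Sn L.n m) t u i0 z then 1 else 0) +
      35 * L.b ^ 6 * L.ex' t u (H317.ind U (L.Q (Sn L.n m) t u)) := by
    rw [e]
    refine ex_mono hw (bB.mul (H585.bm_cube bY)) ((bcm _ bB).add (bcm _ bi)) fun z => ?_
    have hQ0 : 0 ≤ L.Q (Sn L.n m) t u z := Q_nonneg (Sn L.n m) t u z
    have hQ1 : L.Q (Sn L.n m) t u z ≤ 9 / 4 := by
      refine (H75.Q_le hA (Sn L.n m) t u z).trans ?_
      nlinarith
    have htQ : t * L.Q (Sn L.n m) t u z ≤ 1 * L.Q (Sn L.n m) t u z :=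
      mul_le_mul_of_nonneg_right ht1 hQ0
    have htQ0 : 0 ≤ t * L.Q (Sn L.n m) t u z := mul_nonneg ht hQ0
    have hb6 : 0 ≤ L.b ^ 6 := by positivity
    have hin : 0 ≤ H317.ind U (L.Q (Sn L.n m) t u) z := by
      unfold H317.ind
      split_ifs <;> norm_num
    by_cases hz : U < L.Q (Sn L.n m) t u z
    · have e2 : H317.ind U (L.Q (Sn L.n m) t u) z = 1 := if_pos hz
      rw [e2, mul_one]
      have h3 : (L.b ^ 2 * (t * L.Q (Sn L.n m) t u z + u * L.vp / L.b ^ 2)) ^ 3 ≤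
          35 * L.b ^ 6 := by
        calc (L.b ^ 2 * (t * L.Q (Sn L.n m) t u z + u * L.vp / L.b ^ 2)) ^ 3 ≤
            (L.b ^ 2 * (13 / 4)) ^ 3 := by
              refine pow_le_pow_left₀ (by positivity) ?_ 3
              exact mul_le_mul_of_nonneg_left (by linarith) (by positivity)
          _ = (13 / 4) ^ 3 * L.b ^ 6 := by ring
          _ ≤ _ := mul_le_mul_of_nonneg_right (by norm_num) hb6
      have h4 : 0 ≤ (L.b ^ 2 * (t * L.Q (Sn L.n m) t u z + u * L.vp / L.b ^ 2)) ^ 3 := by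
        positivity
      have h5 : 0 ≤ 8 * L.b ^ 6 * U ^ 3 := by positivity
      split_ifs
      · linarith
      · linarith
    · have h3 : (L.b ^ 2 * (t * L.Q (Sn L.n m) t u z + u * L.vp / L.b ^ 2)) ^ 3 ≤
          8 * L.b ^ 6 * U ^ 3 := by
        calc (L.b ^ 2 * (t * L.Q (Sn L.n m) t u z + u * L.vp / L.b ^ 2)) ^ 3 ≤
            (L.b ^ 2 * (2 * U)) ^ 3 := by
              refine pow_le_pow_left₀ (by positivity) ?_ 3
              exact mul_le_mul_of_nonneg_left (by linarith [not_lt.1 hz]) (by positivity)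
          _ = _ := by ring
      have h6 : 0 ≤ 35 * L.b ^ 6 * H317.ind U (L.Q (Sn L.n m) t u) z := by positivity
      have h5 : 0 ≤ 8 * L.b ^ 6 * U ^ 3 := by positivity
      split_ifs
      · linarith
      · linarith
  refine h1.trans (add_le_add ?_ ?_)
  · exact mul_le_mul_of_nonneg_left hpb (by positivity)
  · exact mul_le_mul_of_nonneg_left hQ (by positivity)

end Vale.Agent.P146.H272
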