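import Vale.Agent.P146.H272.Pk3
import Vale.Agent.P146.H586.NeBad

set_option linter.all false

/-!
# P146: the inequality with the third moment at the typical point of the near end

`pk_typ` : as `H586.ne_typ`, with the third moment of the overlap kept.
-/

open MeasureTheory ProbabilityTheory Filter Topology

namespace Vale.Agent.P146.H272

open Vale.Agent.P157.Lv hiding Dep
open Vale.Agent.P146.H425 Vale.Agent.P146.H646 Vale.Agent.P146.H615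
open Vale.Agent.P146.H325 hiding cb cf
open Vale.Agent.P146.H196 Vale.Agent.P146.H347 Vale.Agent.P146.H475 Vale.Agent.P146.H418
  Vale.Agent.P146.H412 Vale.Agent.P146.H320 Vale.Agent.P146.H463 Vale.Agent.P146.H355
  Vale.Agent.P146.H586

lemma NeP.mono {L : Law} {b2 U U' T wn : ℝ} {m : ℕ} {t u : ℝ} (h : NeP L b2 U T wn m t u)
    (hU0 : 0 ≤ U) (hU : U ≤ U') : NeP L b2 U' T wn m t u := by
  have hn : (0 : ℝ) ≤ L.n := Nat.cast_nonneg _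
  refine ⟨h.m1, h.mn, h.t0, h.t1, h.u0, h.u1, h.hw, ?_, fun i0 hi => ?_, fun S => ?_, fun S => ?_,
    fun S => ?_, h.k3⟩
  · refine h.rk.trans ?_
    gcongr
  · refine (h.inc i0 hi).trans ?_
    gcongr
  · exact (h.cc1 S).trans (by gcongr)
  · exact (h.cc2 S).trans (by gcongr)
  · exact (h.q4 S).trans (by gcongr)

/-- the second moment of the overlap with the plain field -/
noncomputable def Yq (L : Law) (m : ℕ) (t u : ℝ) : ℝ :=
  L.ex' t u (fun z => (t * L.Q (Sn L.n m) t u z + u * L.vp / L.b ^ 2) ^ 2)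

/-- the third moment of the overlap -/
noncomputable def Qc (L : Law) (m : ℕ) (t u : ℝ) : ℝ :=
  L.ex' t u (fun z => L.Q (Sn L.n m) t u z ^ 3)

section
variable {L : Law} (hA : Adm L) {m : ℕ} {t u : ℝ}
include hA

lemma Yq_le (ht : 0 ≤ t) (ht1 : t ≤ 1) (hu : 0 ≤ u) :
    Yq L m t u ≤ L.qq (Sn L.n m) t u +
      2 * (u * L.vp / L.b ^ 2) * L.ex' t u (L.Q (Sn L.n m) t u) + (u * L.vp / L.b ^ 2) ^ 2 := by
  have hl := hA.lam0
  have hη := hA.η0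
  have hw := wtL (L := L) hl hη t u
  have hvp := hA.vp0
  have hb := hA.b0
  have bQ := bm_Q hl hη (Sn L.n m) t u
  have hQ0 : ∀ z, 0 ≤ L.Q (Sn L.n m) t u z := Qn L (Sn L.n m) t u
  have hwf0 : 0 ≤ u * L.vp / L.b ^ 2 := by positivity
  set wf := u * L.vp / L.b ^ 2 with hwf
  have e : L.qq (Sn L.n m) t u + 2 * wf * L.ex' t u (L.Q (Sn L.n m) t u) + wf ^ 2 =
      L.ex' t u (fun z => L.Q (Sn L.n m) t u z ^ 2 + 2 * wf * L.Q (Sn L.n m) t u z + wf ^ 2) := by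
    unfold Law.qq Law.ex'
    rw [ex_add hw ((bsq bQ).add (bcm _ bQ)) (BM.const _), ex_add hw (bsq bQ) (bcm _ bQ), ex_cmul,
      H615.ex_const hw]
  rw [e]
  unfold Yq
  refine ex_mono hw (bsq ((bcm t bQ).add (BM.const _))) (((bsq bQ).add (bcm _ bQ)).add
    (BM.const _)) fun z => ?_
  have h1 : 0 ≤ t * L.Q (Sn L.n m) t u z := mul_nonneg ht (hQ0 z)
  have h2 : t * L.Q (Sn L.n m) t u z ≤ 1 * L.Q (Sn L.n m) t u z :=
    mul_le_mul_of_nonneg_right ht1 (hQ0 z)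
  calc (t * L.Q (Sn L.n m) t u z + wf) ^ 2 ≤ (L.Q (Sn L.n m) t u z + wf) ^ 2 :=
        pow_le_pow_left₀ (by positivity) (by linarith) 2
    _ = _ := by ring

lemma Qc_le (ht : 0 ≤ t) (hu : 0 ≤ u) :
    t ^ 3 * Qc L m t u ≤
      L.ex' t u (fun z => (t * L.Q (Sn L.n m) t u z + u * L.vp / L.b ^ 2) ^ 3) := by
  have hl := hA.lam0
  have hη := hA.η0
  have hw := wtL (L := L) hl hη t u
  have hvp := hA.vp0
  have hb := hA.b0
  have bQ := bm_Q hl hη (Sn L.n m) t u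
  have hQ0 : ∀ z, 0 ≤ L.Q (Sn L.n m) t u z := Qn L (Sn L.n m) t u
  have hwf0 : 0 ≤ u * L.vp / L.b ^ 2 := by positivity
  have e : t ^ 3 * Qc L m t u = L.ex' t u (fun z => t ^ 3 * L.Q (Sn L.n m) t u z ^ 3) := by
    unfold Qc Law.ex'
    rw [← ex_cmul]
  rw [e]
  refine ex_mono hw (bcm _ (H585.bm_cube bQ)) (H585.bm_cube ((bcm t bQ).add (BM.const _)))
    fun z => ?_
  have h1 : 0 ≤ t * L.Q (Sn L.n m) t u z := mul_nonneg ht (hQ0 z)
  calc t ^ 3 * L.Q (Sn L.n m) t u z ^ 3 = (t * L.Q (Sn L.n m) t u z) ^ 3 := by ring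
    _ ≤ _ := pow_le_pow_left₀ h1 (by linarith) 3

lemma Qc_nonneg : 0 ≤ Qc L m t u :=
  H615.ex_nonneg (wtL (L := L) hA.lam0 hA.η0 t u) fun z =>
    pow_nonneg (Qn L (Sn L.n m) t u z) 3

/-- Cauchy -/
lemma qq_sq_le : L.qq (Sn L.n m) t u ^ 2 ≤ L.ex' t u (L.Q (Sn L.n m) t u) * Qc L m t u := by
  have hl := hA.lam0
  have hη := hA.η0
  have hw := wtL (L := L) hl hη t u
  have bQ := bm_Q hl hη (Sn L.n m) t u
  have hQ0 : ∀ z, 0 ≤ L.Q (Sn L.n m) t u z := Qn L (Sn L.n m) t u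
  set X := L.ex' t u (L.Q (Sn L.n m) t u) with hX
  set q2 := L.qq (Sn L.n m) t u with hq2
  set q3 := Qc L m t u with hq3
  have hX0 : 0 ≤ X := H615.ex_nonneg hw hQ0
  have h3 : 0 ≤ q3 := Qc_nonneg hA
  have h2 : 0 ≤ q2 := H615.ex_nonneg hw fun z => sq_nonneg _
  -- for all r: 2 r q2 ≤ r^2 X + q3
  have key : ∀ r : ℝ, 0 ≤ r ^ 2 * X - 2 * r * q2 + q3 := by
    intro r
    have e : r ^ 2 * X - 2 * r * q2 + q3 =
        L.ex' t u (fun z => L.Q (Sn L.n m) t u z * (r - L.Q (Sn L.n m) t u z) ^ 2) := by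
      have e1 : (fun z => L.Q (Sn L.n m) t u z * (r - L.Q (Sn L.n m) t u z) ^ 2) =
          fun z => (r ^ 2 * L.Q (Sn L.n m) t u z + (-(2 * r)) * L.Q (Sn L.n m) t u z ^ 2) +
            L.Q (Sn L.n m) t u z ^ 3 := by
        funext z
        ring
      rw [e1]
      unfold Law.ex'
      rw [ex_add hw ((bcm _ bQ).add (bcm _ (bsq bQ))) (H585.bm_cube bQ),
        ex_add hw (bcm _ bQ) (bcm _ (bsq bQ)), ex_cmul, ex_cmul]
      rw [hX, hq2, hq3]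
      unfold Qc Law.qq Law.ex'
      ring
    rw [e]
    exact H615.ex_nonneg hw fun z => mul_nonneg (hQ0 z) (sq_nonneg _)
  rcases hX0.eq_or_lt with h0 | h0
  · -- X = 0: then q2 ≤ (9/4) X = 0
    have hk := key ((q3 + 1) / (2 * (q2 + 1)))
    by_cases hq : q2 = 0
    · rw [hq]
      have : 0 ≤ X * q3 := mul_nonneg hX0 h3
      simpa using this
    · have hq' : 0 < q2 := lt_of_le_of_ne h2 (Ne.symm hq)
      have hk2 := key ((q3 + 1) / (2 * q2))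
      rw [← h0] at hk2
      have : 2 * ((q3 + 1) / (2 * q2)) * q2 = q3 + 1 := by field_simp
      linarith
  · have hk := key (q2 / X)
    have e1 : (q2 / X) ^ 2 * X - 2 * (q2 / X) * q2 + q3 = q3 - q2 ^ 2 / X := by
      field_simp
      ring
    rw [e1] at hk
    have h5 : q2 ^ 2 / X ≤ q3 := by linarith
    rw [div_le_iff₀ h0] at h5
    linarith

end

/-- the overlap moments from the numbers -/
lemma ex_qq_num {L : Law} (hA : Adm L) (hη1 : L.η ≤ 1 / 2) {S : Finset (Fin L.n)} {t u U : ℝ}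
    (hU : L.ex' t u (CC L S t u) ≤ U ^ 2) : L.qq S t u ≤ 81 / 16 * U ^ 2 := by
  have h2 := mom_Q hA.lam0 hA.η0 hA.n0 S t u 1
  simp only [pow_one] at h2
  have h4 : 0 ≤ L.ex' t u (CC L S t u) :=
    H615.ex_nonneg (wtL (L := L) hA.lam0 hA.η0 t u) fun z => CC_nonneg hA.lam0 hA.η0 S t u z
  have hη := hA.η0
  have h3 : (1 + L.η) ^ (4 * 1) ≤ (9 / 4) ^ 2 := by
    calc (1 + L.η) ^ (4 * 1) ≤ (1 + 1 / 2) ^ (4 * 1) := by gcongr
      _ = (9 / 4) ^ 2 := by norm_num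
  have h5 : L.ex' t u (fun z => L.Q S t u z ^ (2 * 1)) ≤ (9 / 4) ^ 2 * U ^ 2 := by
    refine h2.trans ?_
    gcongr
  calc L.qq S t u = L.ex' t u (fun z => L.Q S t u z ^ (2 * 1)) := rfl
    _ ≤ (9 / 4) ^ 2 * U ^ 2 := h5
    _ = 81 / 16 * U ^ 2 := by ring

/-- the root of the second moment from the numbers -/
lemma Yq_sqrt {L : Law} (hA : Adm L) (hη1 : L.η ≤ 1 / 2) {m : ℕ} {t u U : ℝ} (ht : 0 ≤ t)
    (ht1 : t ≤ 1) (hu : 0 ≤ u) (hU0 : 0 ≤ U)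
    (hU : L.ex' t u (CC L (Sn L.n m) t u) ≤ U ^ 2) (hwU : u * L.vp / L.b ^ 2 ≤ U) :
    √(L.b ^ 4 * L.ex' t u (fun z => (t * L.Q (Sn L.n m) t u z +
      u * L.vp / L.b ^ 2) ^ 2)) ≤ 4 * (L.b ^ 2 * U) := by
  have hvp := hA.vp0
  have hb := hA.b0
  have hqq := ex_qq_num hA hη1 hU
  have hY := Yq_le hA (m := m) (t := t) (u := u) ht ht1 hu
  have hX1 := ex_Q_le hA.lam0 hA.η0 hη1 hA.n0 (Sn L.n m) hU0 hU
  have hwf0 : 0 ≤ u * L.vp / L.b ^ 2 := by positivity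
  have hY4 : Yq L m t u ≤ (4 * U) ^ 2 := by
    refine hY.trans ?_
    have h1 : 2 * (u * L.vp / L.b ^ 2) * L.ex' t u (L.Q (Sn L.n m) t u) ≤
        2 * U * (9 / 4 * U) := by
      have h0 : 0 ≤ L.ex' t u (L.Q (Sn L.n m) t u) :=
        H615.ex_nonneg (wtL (L := L) hA.lam0 hA.η0 t u) (Qn L (Sn L.n m) t u)
      exact mul_le_mul (by linarith) hX1 h0 (by positivity)
    have h2 : (u * L.vp / L.b ^ 2) ^ 2 ≤ U ^ 2 := pow_le_pow_left₀ hwf0 hwU 2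
    have e1 : 2 * U * (9 / 4 * U) = 9 / 2 * U ^ 2 := by ring
    have e2 : (4 * U) ^ 2 = 16 * U ^ 2 := by ring
    have e3 : 0 ≤ U ^ 2 := sq_nonneg U
    rw [e1] at h1
    rw [e2]
    linarith
  refine H615.sqrt_le_num (by positivity) ?_
  have h1 : L.b ^ 4 * Yq L m t u ≤ L.b ^ 4 * (4 * U) ^ 2 :=
    mul_le_mul_of_nonneg_left hY4 (by positivity)
  refine (show L.b ^ 4 * L.ex' t u (fun z => (t * L.Q (Sn L.n m) t u z +
    u * L.vp / L.b ^ 2) ^ 2) ≤ _ from h1).trans (le_of_eq ?_)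
  ring

/-- **The inequality with the third moment at the typical point.** -/
lemma pk_typ {L : Law} {b2 : ℝ} (hb2 : 0 < b2) (hA : Adm L) (hη1 : L.η ≤ 1 / 2) (hs : L.s ≠ 0)
    (hx0 : 0 < L.x) (hx1 : L.x < 1) {r0 : ℝ} (hc : L.c = L.s ^ 2 * L.n * (1 - (1 - L.x) * r0))
    (hk : 0 < 1 - (1 - L.x) * r0) (hxb : 8 * (L.x ^ 2 * L.b ^ 2) ≤ 1)
    (hxb0 : L.x * √b2 ≤ 1 / 4) (hbb : L.b ^ 2 + L.vp ≤ b2) {T wn U t u : ℝ} {m : ℕ}
    (hP : NeP L b2 U T wn m t u) (hU0 : 0 < U) (hU1 : U ≤ 1) (hT0 : 0 < T) (hT1 : T ≤ 1)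
    (hwn : 0 < wn) (hwU : u * L.vp / L.b ^ 2 ≤ U) {i0 : Fin L.n} (hi0 : i0.1 + m = L.n) {pQ : ℝ}
    (hQ : L.ex' t u (H317.ind U (L.Q (Sn L.n m) t u)) ≤ pQ) :
    cK b2 ^ 2 / 4 * (L.b ^ 6 * (1 / 8 * Qc L m t u) - (8 * L.b ^ 6 * U ^ 3 *
      (32 / cK b2 * (1 / √(m : ℝ) + (1 / √(L.n * (wn / 2)) + L.η * |L.s| / √(wn / 2)))) +
      35 * L.b ^ 6 * pQ)) ≤
      160 * ((L.n / (L.n - m) - (L.b * (1 - (1 - L.x) * r0)) ^ 2 * t) *
          L.ex' t u (L.Q (Sn L.n m) t u) -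
        (L.b * (1 - (1 - L.x) * r0)) ^ 2 * (u * L.vp / L.b ^ 2) +
        27 * (L.n * U) / m / (L.n - m) +
        L.x * L.b * (L.b * (1 - (1 - L.x) * r0)) ^ 3 * Yq L m t u +
        E1c L.b L.x (1 - (1 - L.x) * r0) L.η U (u * L.vp / L.b ^ 2)
          (5 / √m + 2 * |L.lam / ((1 - L.x) * (L.s ^ 2 * L.n))| +
            3 * ((|r0| + 1) * √(PstL L t u)) / √U) (12 * U / (L.x ^ 2 * wn * L.n))) +
      784 * 155446 * ((3 / 2 * (L.b ^ 2 * t * √(12 * U / (L.x ^ 2 * wn * L.n))) + 4 * L.η ^ 2 *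
        (4 * (L.b ^ 2 * U))) * (5 * L.b ^ 4 * U ^ 2)) +
      (44 * (48 * L.η + 28 * L.x) ^ 2 +
        1696 * ((1 - (1 - L.x) * r0) ^ 2 * (L.x * (48 * √b2 ^ 2 + 6)) ^ 2)) *
        (4 * (L.b ^ 2 * U) * (5 * L.b ^ 4 * U ^ 2)) := by
  have hb := hA.b0
  have hvp := hA.vp0
  have ht12 : 1 / 2 ≤ t := by have := hP.t0; linarith
  have ht1 : t ≤ 1 := by have := hP.t1; linarith
  have hu1 := hP.u1.le
  have hu0 := hP.u0
  have hwf0 : 0 ≤ u * L.vp / L.b ^ 2 := by positivity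
  have e3 : L.b ^ 2 * (u * L.vp / L.b ^ 2) = u * L.vp := by field_simp
  have hbd := bd3_le (L := L) hA hη1 (m := m) (t := t) (u := u) (by linarith) ht1 hu0 i0
    (c0 := cK b2) (U := U) (hP.k3 i0 hi0) hwU hU1 hQ
  have key := ne_sk3 (L := L) hA hη1 hs hx1 hc hk hP.m1 hP.mn (by linarith : 0 ≤ t) ht1 hu0 hi0
    (b0 := √b2) (Real.sqrt_nonneg _) hxb0 (by
      rw [Real.sq_sqrt hb2.le]
      have e1 : L.b ^ 2 * t ≤ L.b ^ 2 * 1 := mul_le_mul_of_nonneg_left ht1 (by positivity)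
      have e2 : u * L.vp ≤ 1 * L.vp := mul_le_mul_of_nonneg_right hu1 hvp.le
      linarith) (c0 := cK b2) (G := 5 * L.b ^ 4 * U ^ 2)
    (rk := 12 * U / (L.x ^ 2 * wn * L.n)) (g4 := (3 * U ^ 2) ^ 2) (U := U)
    (θ := 5 / √m + 2 * |L.lam / ((1 - L.x) * (L.s ^ 2 * L.n))| +
      3 * ((|r0| + 1) * √(PstL L t u)) / √U) (I := 27 * (L.n * U) / m) (cK_pos hb2).le
    hbd (by positivity) (hP.q4 _) (by
      have e1 : (L.b ^ 2 * t) ^ 4 ≤ (L.b ^ 2) ^ 4 :=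
        pow_le_pow_left₀ (by positivity) (mul_le_of_le_one_right (by positivity) ht1) 4
      have e2 : (u * L.vp) ^ 4 ≤ (L.b ^ 2 * U) ^ 4 := by
        refine pow_le_pow_left₀ (by positivity) ?_ 4
        have e5 := mul_le_mul_of_nonneg_left hwU (show 0 ≤ L.b ^ 2 by positivity)
        rwa [e3] at e5
      have e5 := mul_le_mul_of_nonneg_right e1 (show 0 ≤ (3 * U ^ 2) ^ 2 by positivity)
      have e6 : 0 ≤ L.b ^ 8 * U ^ 4 := by positivity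
      have e7 : (L.b ^ 2) ^ 4 * (3 * U ^ 2) ^ 2 = 9 * (L.b ^ 8 * U ^ 4) := by ring
      have e8 : (L.b ^ 2 * U) ^ 4 = L.b ^ 8 * U ^ 4 := by ring
      have e9 : (5 * L.b ^ 4 * U ^ 2) ^ 2 = 25 * (L.b ^ 8 * U ^ 4) := by ring
      rw [e7] at e5
      rw [e8] at e2
      rw [e9]
      linarith) hwU hU0 hU1 hxb (hP.cc1 _) (hP.cc2 _) (rk_le hA hx0 hP hwn) le_rfl
    (hP.inc i0 hi0)
  have hq3 := Qc_le hA (m := m) (t := t) (u := u) (by linarith) hu0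
  have hQc := Qc_nonneg hA (m := m) (t := t) (u := u)
  have ht3 : (1 / 8 : ℝ) ≤ t ^ 3 := by
    calc (1 / 8 : ℝ) = (1 / 2) ^ 3 := by norm_num
      _ ≤ t ^ 3 := pow_le_pow_left₀ (by norm_num) ht12 3
  have h8 : 1 / 8 * Qc L m t u ≤
      L.ex' t u (fun z => (t * L.Q (Sn L.n m) t u z + u * L.vp / L.b ^ 2) ^ 3) :=
    (mul_le_mul_of_nonneg_right ht3 hQc).trans hq3
  have hs4 := Yq_sqrt hA hη1 (by linarith : 0 ≤ t) ht1 hu0 hU0.le (hP.cc1 (Sn L.n m)) hwU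
  have hG0 : 0 ≤ 5 * L.b ^ 4 * U ^ 2 := by positivity
  have k1 : cK b2 ^ 2 / 4 * (L.b ^ 6 * (1 / 8 * Qc L m t u) - (8 * L.b ^ 6 * U ^ 3 *
      (32 / cK b2 * (1 / √(m : ℝ) + (1 / √(L.n * (wn / 2)) + L.η * |L.s| / √(wn / 2)))) +
      35 * L.b ^ 6 * pQ)) ≤ cK b2 ^ 2 / 4 * (L.b ^ 6 *
      L.ex' t u (fun z => (t * L.Q (Sn L.n m) t u z + u * L.vp / L.b ^ 2) ^ 3) -
      (8 * L.b ^ 6 * U ^ 3 *
      (32 / cK b2 * (1 / √(m : ℝ) + (1 / √(L.n * (wn / 2)) + L.η * |L.s| / √(wn / 2)))) +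
      35 * L.b ^ 6 * pQ)) := by
    refine mul_le_mul_of_nonneg_left ?_ (by positivity)
    have := mul_le_mul_of_nonneg_left h8 (show 0 ≤ L.b ^ 6 by positivity)
    linarith
  refine k1.trans (key.trans ?_)
  refine add_le_add (add_le_add le_rfl ?_) ?_
  · gcongr
  · gcongr

end Vale.Agent.P146.H272
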