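import Vale.Agent.P146.H272.Pk4

set_option linter.all false

/-!
# P146: the own slope is at most a constant times the square of the tilt

`slope_alg` : the arithmetic; `slope_pt` : at one law and one typical point.
-/

open MeasureTheory ProbabilityTheory Filter Topology

namespace Vale.Agent.P146.H272

open Vale.Agent.P157.Lv hiding Dep
open Vale.Agent.P146.H425 Vale.Agent.P146.H646 Vale.Agent.P146.H615
open Vale.Agent.P146.H325 hiding cb cf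
open Vale.Agent.P146.H196 Vale.Agent.P146.H347 Vale.Agent.P146.H475 Vale.Agent.P146.H418
  Vale.Agent.P146.H412 Vale.Agent.P146.H320 Vale.Agent.P146.H463 Vale.Agent.P146.H355
  Vale.Agent.P146.H586

/-- the error of the fourth relation -/
lemma sl_E1 {b x kp η U wf θ rk W : ℝ} (hb : 0 < b) (hx : 0 < x) (hxU : x ≤ U) (hU1 : U ≤ 1)
    (hk : 0 < kp) (hA : b * kp ≤ 2) (hη : 0 ≤ η) (hηU : η * U ^ 3 ≤ W) (hθ : 0 ≤ θ) (hwf : 0 < wf)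
    (h1 : U * θ ≤ W) (h2 : U ^ 2 * √rk ≤ W) (hηw : η * wf ≤ W) (h4 : x * wf ≤ W) :
    E1c b x kp η U wf θ rk ≤ (8 + 106 * b + 1508 * b ^ 2) * W := by
  have hU : 0 < U := hx.trans_le hxU
  have hx1 : x ≤ 1 := hxU.trans hU1
  have hW : 0 < W := lt_of_lt_of_le (by positivity) h4
  have hkb : kp * b ≤ 2 := by linarith
  have hk2 : kp ^ 2 * b ^ 2 ≤ 4 := by
    calc kp ^ 2 * b ^ 2 = (kp * b) ^ 2 := by ring
      _ ≤ 2 ^ 2 := pow_le_pow_left₀ (by positivity) hkb 2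
      _ = 4 := by norm_num
  -- first
  have a1 : 2 * kp * b ^ 2 * (5 / 2 * (U * θ) + wf * (kp * η)) ≤ 10 * b * W + 8 * W := by
    have e1 : 2 * kp * b ^ 2 * (5 / 2 * (U * θ) + wf * (kp * η)) =
        5 * b * (kp * b) * (U * θ) + 2 * (kp ^ 2 * b ^ 2) * (η * wf) := by ring
    have e2 : 5 * b * (kp * b) * (U * θ) ≤ 5 * b * 2 * W := by gcongr
    have e3 : 2 * (kp ^ 2 * b ^ 2) * (η * wf) ≤ 2 * 4 * W := by gcongr
    rw [e1]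
    linarith
  have a2 : U ^ 2 * (23 * θ) * x ≤ 23 * W := by
    have e1 : U ^ 2 * (23 * θ) * x = 23 * (U * x) * (U * θ) := by ring
    have e2 : U * x ≤ 1 := by
      calc U * x ≤ 1 * 1 := mul_le_mul hU1 hx1 hx.le zero_le_one
        _ = 1 := one_mul 1
    have e3 : 23 * (U * x) * (U * θ) ≤ 23 * 1 * W := by gcongr
    rw [e1]
    linarith
  have a3 : x * (U ^ 2 * η) ≤ W := by
    calc x * (U ^ 2 * η) ≤ U * (U ^ 2 * η) := by gcongr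
      _ = η * U ^ 3 := by ring
      _ ≤ W := hηU
  have a4 : x * (U * √rk) ≤ W := by
    calc x * (U * √rk) ≤ U * (U * √rk) := by gcongr
      _ = U ^ 2 * √rk := by ring
      _ ≤ W := h2
  have a3' : 0 ≤ x * (U ^ 2 * η) := by positivity
  have a5 : x * kp ^ 2 * b ^ 4 * (U ^ 2 * (23 * θ + (312 + 12 * kp) * η) + 42 * (U * √rk)) ≤
      (1508 * b ^ 2 + 96 * b) * W := by
    have e1 : x * kp ^ 2 * b ^ 4 * (U ^ 2 * (23 * θ + (312 + 12 * kp) * η) + 42 * (U * √rk)) =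
        kp ^ 2 * b ^ 2 * (b ^ 2 * (U ^ 2 * (23 * θ) * x + 312 * (x * (U ^ 2 * η)) +
          42 * (x * (U * √rk))) + 12 * b * (kp * b) * (x * (U ^ 2 * η))) := by ring
    have e2 : 12 * b * (kp * b) * (x * (U ^ 2 * η)) ≤ 12 * b * 2 * W := by gcongr
    have e3 : b ^ 2 * (U ^ 2 * (23 * θ) * x + 312 * (x * (U ^ 2 * η)) +
          42 * (x * (U * √rk))) ≤ b ^ 2 * (377 * W) :=
      mul_le_mul_of_nonneg_left (by linarith) (by positivity)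
    have e4 : b ^ 2 * (U ^ 2 * (23 * θ) * x + 312 * (x * (U ^ 2 * η)) +
          42 * (x * (U * √rk))) + 12 * b * (kp * b) * (x * (U ^ 2 * η)) ≤
        b ^ 2 * (377 * W) + 12 * b * 2 * W := add_le_add e3 e2
    rw [e1]
    calc _ ≤ 4 * (b ^ 2 * (377 * W) + 12 * b * 2 * W) :=
          mul_le_mul hk2 e4 (by positivity) (by norm_num)
      _ = _ := by ring
  unfold E1c
  have e9 : (8 + 106 * b + 1508 * b ^ 2) * W = (10 * b * W + 8 * W) +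
      (1508 * b ^ 2 + 96 * b) * W := by ring
  rw [e9]
  exact add_le_add a1 a5

/-- the second error -/
lemma sl_R2 {b x η U t rk W : ℝ} (hb : 0 < b) (hx : 0 < x) (hxU : x ≤ U) (hU1 : U ≤ 1)
    (hη : 0 ≤ η) (hη1 : η ≤ 1) (hηU : η * U ^ 3 ≤ W) (ht : 0 ≤ t) (ht1 : t ≤ 1)
    (h2 : U ^ 2 * √rk ≤ W) :
    (3 / 2 * (b ^ 2 * t * √rk) + 4 * η ^ 2 * (4 * (b ^ 2 * U))) * (5 * b ^ 4 * U ^ 2) ≤
      88 * b ^ 6 * W := by
  have hU : 0 < U := hx.trans_le hxU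
  have hη2 : η ^ 2 ≤ η := by
    calc η ^ 2 = η * η := by ring
      _ ≤ η * 1 := by gcongr
      _ = η := mul_one η
  have e1 : (3 / 2 * (b ^ 2 * t * √rk) + 4 * η ^ 2 * (4 * (b ^ 2 * U))) * (5 * b ^ 4 * U ^ 2) =
      15 / 2 * b ^ 6 * (t * (U ^ 2 * √rk)) + 80 * b ^ 6 * (η ^ 2 * U ^ 3) := by ring
  have h0 : 0 ≤ U ^ 2 * √rk := by positivity
  have e2 : t * (U ^ 2 * √rk) ≤ W := (mul_le_of_le_one_left h0 ht1).trans h2
  have e3 : η ^ 2 * U ^ 3 ≤ W := by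
    refine le_trans ?_ hηU
    gcongr
  have hW : 0 ≤ W := h0.trans h2
  rw [e1]
  have e4 : 15 / 2 * b ^ 6 * (t * (U ^ 2 * √rk)) ≤ 15 / 2 * b ^ 6 * W := by gcongr
  have e5 : 80 * b ^ 6 * (η ^ 2 * U ^ 3) ≤ 80 * b ^ 6 * W := by gcongr
  have e6 : 0 ≤ b ^ 6 * W := by positivity
  linarith

/-- the third error -/
lemma sl_R3 {b b0 x kp η U W : ℝ} (hb : 0 < b) (hx : 0 < x) (hxU : x ≤ U) (hU1 : U ≤ 1)
    (hk : 0 < kp) (hA : b * kp ≤ 2) (hη : 0 ≤ η) (hη1 : η ≤ 1) (hηU : η * U ^ 3 ≤ W)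
    (h3 : x ^ 2 * U ^ 3 ≤ W) :
    (44 * (48 * η + 28 * x) ^ 2 + 1696 * (kp ^ 2 * (x * (48 * b0 ^ 2 + 6)) ^ 2)) *
      (4 * (b ^ 2 * U) * (5 * b ^ 4 * U ^ 2)) ≤
      (5434880 * b ^ 6 + 135680 * b ^ 4 * (48 * b0 ^ 2 + 6) ^ 2) * W := by
  have hU : 0 < U := hx.trans_le hxU
  have hη2 : η ^ 2 ≤ η := by
    calc η ^ 2 = η * η := by ring
      _ ≤ η * 1 := by gcongr
      _ = η := mul_one η
  have hkb : kp * b ≤ 2 := by linarith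
  have hk2 : kp ^ 2 * b ^ 2 ≤ 4 := by
    calc kp ^ 2 * b ^ 2 = (kp * b) ^ 2 := by ring
      _ ≤ 2 ^ 2 := pow_le_pow_left₀ (by positivity) hkb 2
      _ = 4 := by norm_num
  have e0 : (48 * η + 28 * x) ^ 2 ≤ 4608 * η + 1568 * x ^ 2 := by
    have := sq_nonneg (48 * η - 28 * x)
    linarith [this, hη2]
  have e1 : (44 * (48 * η + 28 * x) ^ 2 + 1696 * (kp ^ 2 * (x * (48 * b0 ^ 2 + 6)) ^ 2)) *
      (4 * (b ^ 2 * U) * (5 * b ^ 4 * U ^ 2)) =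
      880 * b ^ 6 * ((48 * η + 28 * x) ^ 2 * U ^ 3) +
      33920 * b ^ 4 * (48 * b0 ^ 2 + 6) ^ 2 * (kp ^ 2 * b ^ 2) * (x ^ 2 * U ^ 3) := by ring
  have e2 : (48 * η + 28 * x) ^ 2 * U ^ 3 ≤ 6176 * W := by
    calc (48 * η + 28 * x) ^ 2 * U ^ 3 ≤ (4608 * η + 1568 * x ^ 2) * U ^ 3 := by gcongr
      _ = 4608 * (η * U ^ 3) + 1568 * (x ^ 2 * U ^ 3) := by ring
      _ ≤ 4608 * W + 1568 * W := by gcongr
      _ = 6176 * W := by ring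
  have e3 : 880 * b ^ 6 * ((48 * η + 28 * x) ^ 2 * U ^ 3) ≤ 880 * b ^ 6 * (6176 * W) := by gcongr
  have e4 : 33920 * b ^ 4 * (48 * b0 ^ 2 + 6) ^ 2 * (kp ^ 2 * b ^ 2) * (x ^ 2 * U ^ 3) ≤
      33920 * b ^ 4 * (48 * b0 ^ 2 + 6) ^ 2 * 4 * W := by gcongr
  rw [e1]
  linarith

/-- the arithmetic -/
lemma slope_alg {b ck : ℝ} (hb : 0 < b) (hck : 0 < ck) (b0 : ℝ) : ∃ ε : ℝ, 0 < ε ∧ ε ≤ 1 ∧
    ∃ C : ℝ, 1 ≤ C ∧ ∀ (X q2 q3 Y2 x η U θ wf pb pQ rk lin I kp t : ℝ), 0 ≤ X → X ≤ 9 / 4 →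
    0 ≤ q2 → 0 ≤ q3 → q2 ^ 2 ≤ X * q3 → Y2 ≤ q2 + 2 * wf * X + wf ^ 2 → 0 < x → x ≤ ε → x ≤ U →
    U ≤ 1 → 0 ≤ η → η ≤ ε → η * U ^ 3 ≤ ε * wf → 0 ≤ θ → 0 < wf → wf ≤ 1 → 0 ≤ t → t ≤ 1 →
    0 < kp → b * kp ≤ 2 →
    U * θ ≤ ε * wf → U ^ 2 * √rk ≤ ε * wf → x ^ 2 * U ^ 3 ≤ ε * wf → I ≤ ε * wf →
    U ^ 3 * pb ≤ ε * wf → pQ ≤ ε * wf → C * x ^ 2 ≤ b * kp - 1 → lin ≤ -(b * kp - 1) →
    ck ^ 2 / 4 * (b ^ 6 * (1 / 8 * q3) - (8 * b ^ 6 * U ^ 3 * pb + 35 * b ^ 6 * pQ)) ≤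
      160 * (lin * X - (b * kp) ^ 2 * wf + I + x * b * (b * kp) ^ 3 * Y2 +
        E1c b x kp η U wf θ rk) +
      784 * 155446 * ((3 / 2 * (b ^ 2 * t * √rk) + 4 * η ^ 2 *
        (4 * (b ^ 2 * U))) * (5 * b ^ 4 * U ^ 2)) +
      (44 * (48 * η + 28 * x) ^ 2 + 1696 * (kp ^ 2 * (x * (48 * b0 ^ 2 + 6)) ^ 2)) *
        (4 * (b ^ 2 * U) * (5 * b ^ 4 * U ^ 2)) → False := by
  obtain ⟨c2, hc2d⟩ : ∃ c2 : ℝ, c2 = ck ^ 2 / 32 * b ^ 6 := ⟨_, rfl⟩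
  have hc2 : 0 < c2 := by rw [hc2d]; positivity
  obtain ⟨K0, hK0d⟩ : ∃ K0 : ℝ, K0 = 5434880 * b ^ 6 + 135680 * b ^ 4 * (48 * b0 ^ 2 + 6) ^ 2 :=
    ⟨_, rfl⟩
  have hK00 : 0 < K0 := by rw [hK0d]; positivity
  obtain ⟨Kt, hKtd⟩ : ∃ Kt : ℝ, Kt = ck ^ 2 / 4 * (43 * b ^ 6) + 160 +
      160 * (8 + 106 * b + 1508 * b ^ 2) + 784 * 155446 * (88 * b ^ 6) + K0 + 7040 * b := ⟨_, rfl⟩
  have hKt : 160 ≤ Kt := by
    rw [hKtd]
    have : 0 ≤ ck ^ 2 / 4 * (43 * b ^ 6) + 160 * (8 + 106 * b + 1508 * b ^ 2) +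
      784 * 155446 * (88 * b ^ 6) + K0 + 7040 * b := by positivity
    linarith
  have hKt0 : 0 < Kt := by linarith
  refine ⟨80 / Kt, by positivity, by rw [div_le_one hKt0]; linarith, max 1 (2560 * b ^ 2 / c2),
    le_max_left _ _, ?_⟩
  intro X q2 q3 Y2 x η U θ wf pb pQ rk lin I kp t hX hX9 hq2 hq3 hC hY hx hxε hxU hU1 hη hηε hηU
    hθ hwf hwf1 ht ht1 hk hA e1 e2 e3 e4 e5 e6 ha hlin key
  obtain ⟨ε, hεd⟩ : ∃ ε : ℝ, ε = 80 / Kt := ⟨_, rfl⟩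
  rw [← hεd] at hxε hηε hηU e1 e2 e3 e4 e5 e6
  have hε : 0 < ε := by rw [hεd]; positivity
  have hε1 : ε ≤ 1 := by rw [hεd, div_le_one hKt0]; linarith
  have hεK : Kt * ε = 80 := by rw [hεd]; field_simp
  obtain ⟨W, hWd⟩ : ∃ W : ℝ, W = ε * wf := ⟨_, rfl⟩
  rw [← hWd] at hηU e1 e2 e3 e4 e5 e6
  have hW : 0 < W := by rw [hWd]; positivity
  have hxW : x * wf ≤ W := by rw [hWd]; gcongr
  have hηW : η * wf ≤ W := by rw [hWd]; gcongr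
  have hη1 : η ≤ 1 := hηε.trans hε1
  have r1 := sl_E1 hb hx hxU hU1 hk hA hη hηU hθ hwf e1 e2 hηW hxW
  have r2 := sl_R2 (t := t) hb hx hxU hU1 hη hη1 hηU ht ht1 e2
  have r3 := sl_R3 (b0 := b0) hb hx hxU hU1 hk hA hη hη1 hηU e3
  rw [← hK0d] at r3
  have ha1 : x ^ 2 ≤ b * kp - 1 := by
    have : 1 * x ^ 2 ≤ max 1 (2560 * b ^ 2 / c2) * x ^ 2 :=
      mul_le_mul_of_nonneg_right (le_max_left _ _) (by positivity)
    linarith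
  have ha2 : 2560 * b ^ 2 / c2 * x ^ 2 ≤ b * kp - 1 := by
    have : 2560 * b ^ 2 / c2 * x ^ 2 ≤ max 1 (2560 * b ^ 2 / c2) * x ^ 2 :=
      mul_le_mul_of_nonneg_right (le_max_right _ _) (by positivity)
    linarith
  have hx2 : 0 < x ^ 2 := by positivity
  have hA1 : 1 ≤ b * kp := by linarith
  have hA2 : wf ≤ (b * kp) ^ 2 * wf := by
    have : 1 ≤ (b * kp) ^ 2 := one_le_pow₀ hA1
    exact le_mul_of_one_le_left hwf.le this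
  have hA3 : (b * kp) ^ 3 ≤ 8 := by
    calc (b * kp) ^ 3 ≤ 2 ^ 3 := pow_le_pow_left₀ (by positivity) hA 3
      _ = 8 := by norm_num
  have hY0 : 0 ≤ q2 + 2 * wf * X + wf ^ 2 := by positivity
  have r4 : x * b * (b * kp) ^ 3 * Y2 ≤ 8 * (x * b * q2) + 44 * (b * W) := by
    have h1 : x * b * (b * kp) ^ 3 * Y2 ≤ x * b * (b * kp) ^ 3 * (q2 + 2 * wf * X + wf ^ 2) :=
      mul_le_mul_of_nonneg_left hY (by positivity)
    have h2 : x * b * (b * kp) ^ 3 * (q2 + 2 * wf * X + wf ^ 2) ≤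
        x * b * 8 * (q2 + 2 * wf * X + wf ^ 2) := by gcongr
    have h3 : 2 * wf * X + wf ^ 2 ≤ 11 / 2 * wf := by
      have h4 : 2 * wf * X ≤ 2 * wf * (9 / 4) := by gcongr
      have h5 : wf ^ 2 ≤ wf := by
        calc wf ^ 2 = wf * wf := by ring
          _ ≤ wf * 1 := by gcongr
          _ = wf := mul_one wf
      linarith
    have h6 : x * b * 8 * (2 * wf * X + wf ^ 2) ≤ x * b * 8 * (11 / 2 * wf) := by gcongr
    have h7 : b * (x * wf) ≤ b * W := by gcongr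
    have h8 : x * b * 8 * (11 / 2 * wf) = 44 * (b * (x * wf)) := by ring
    have h9 : x * b * 8 * (q2 + 2 * wf * X + wf ^ 2) = 8 * (x * b * q2) +
        x * b * 8 * (2 * wf * X + wf ^ 2) := by ring
    linarith
  have r5 : ck ^ 2 / 4 * (8 * b ^ 6 * U ^ 3 * pb + 35 * b ^ 6 * pQ) ≤
      ck ^ 2 / 4 * (43 * b ^ 6) * W := by
    have h1 : 8 * b ^ 6 * U ^ 3 * pb + 35 * b ^ 6 * pQ ≤ 43 * b ^ 6 * W := by
      have h2 : 8 * b ^ 6 * (U ^ 3 * pb) ≤ 8 * b ^ 6 * W := by gcongr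
      have h3 : 35 * b ^ 6 * pQ ≤ 35 * b ^ 6 * W := by gcongr
      calc 8 * b ^ 6 * U ^ 3 * pb + 35 * b ^ 6 * pQ =
          8 * b ^ 6 * (U ^ 3 * pb) + 35 * b ^ 6 * pQ := by ring
        _ ≤ 8 * b ^ 6 * W + 35 * b ^ 6 * W := add_le_add h2 h3
        _ = _ := by ring
    calc _ ≤ ck ^ 2 / 4 * (43 * b ^ 6 * W) := mul_le_mul_of_nonneg_left h1 (by positivity)
      _ = _ := by ring
  have r6 : lin * X ≤ -(b * kp - 1) * X := mul_le_mul_of_nonneg_right hlin hX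
  have r2' : 784 * 155446 * ((3 / 2 * (b ^ 2 * t * √rk) + 4 * η ^ 2 *
        (4 * (b ^ 2 * U))) * (5 * b ^ 4 * U ^ 2)) ≤ 784 * 155446 * (88 * b ^ 6) * W := by
    calc _ ≤ 784 * 155446 * (88 * b ^ 6 * W) := mul_le_mul_of_nonneg_left r2 (by norm_num)
      _ = _ := by ring
  -- the total
  have tot : c2 * q3 + 160 * ((b * kp - 1) * X) + 80 * wf ≤ 1280 * (x * b * q2) := by
    have h1 : Kt * W = 80 * wf := by
      rw [hWd, ← mul_assoc, hεK]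
    have h2 : Kt * W = ck ^ 2 / 4 * (43 * b ^ 6) * W + 160 * W +
        160 * ((8 + 106 * b + 1508 * b ^ 2) * W) + 784 * 155446 * (88 * b ^ 6) * W + K0 * W +
        7040 * (b * W) := by
      rw [hKtd]
      ring
    have h3 : c2 * q3 = ck ^ 2 / 4 * (b ^ 6 * (1 / 8 * q3)) := by
      rw [hc2d]
      ring
    have h4 : ck ^ 2 / 4 * (b ^ 6 * (1 / 8 * q3) - (8 * b ^ 6 * U ^ 3 * pb + 35 * b ^ 6 * pQ)) =
        ck ^ 2 / 4 * (b ^ 6 * (1 / 8 * q3)) -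
          ck ^ 2 / 4 * (8 * b ^ 6 * U ^ 3 * pb + 35 * b ^ 6 * pQ) := by ring
    rw [h4, ← h3] at key
    linarith
  -- Cauchy and the square
  have hxb : 0 < x * b := by positivity
  have hR : 1280 * (x * b * q2) ≤ c2 * q3 + 409600 * (x * b) ^ 2 / c2 * X := by
    have h0 : 0 ≤ c2 * q3 + 409600 * (x * b) ^ 2 / c2 * X := by positivity
    refine _root_.abs_le_of_sq_le_sq' ?_ h0 |>.2
    have h1 : (1280 * (x * b * q2)) ^ 2 ≤ 1638400 * (x * b) ^ 2 * (X * q3) := by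
      calc (1280 * (x * b * q2)) ^ 2 = 1638400 * (x * b) ^ 2 * q2 ^ 2 := by ring
        _ ≤ _ := by gcongr
    have h2 : 1638400 * (x * b) ^ 2 * (X * q3) =
        4 * (c2 * q3) * (409600 * (x * b) ^ 2 / c2 * X) := by
      field_simp
      ring
    have h3 := four_mul_le_sq_add (c2 * q3) (409600 * (x * b) ^ 2 / c2 * X)
    linarith
  have hf : 409600 * (x * b) ^ 2 / c2 * X ≤ 160 * ((b * kp - 1) * X) := by
    have h1 : 409600 * (x * b) ^ 2 / c2 * X = 160 * ((2560 * b ^ 2 / c2 * x ^ 2) * X) := by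
      field_simp
      ring
    rw [h1]
    gcongr
  linarith

end Vale.Agent.P146.H272
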