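import Vale.Agent.P146.H272.Pk5

set_option linter.all false

/-!
# P146: the own slope is at most a constant times the square of the tilt, one law

`slope_pt` : at one law and one typical point.
-/

open MeasureTheory ProbabilityTheory Filter Topology

namespace Vale.Agent.P146.H272

open Vale.Agent.P157.Lv hiding Dep
open Vale.Agent.P146.H425 Vale.Agent.P146.H646 Vale.Agent.P146.H615
open Vale.Agent.P146.H325 hiding cb cf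
open Vale.Agent.P146.H196 Vale.Agent.P146.H347 Vale.Agent.P146.H475 Vale.Agent.P146.H418
  Vale.Agent.P146.H412 Vale.Agent.P146.H320 Vale.Agent.P146.H463 Vale.Agent.P146.H355
  Vale.Agent.P146.H586

lemma lin_neg {n m A t x : ℝ} (hn : 0 < n) (hm : 0 ≤ m) (hm2 : m ≤ n / 2) (hmx : m / n ≤ x ^ 2)
    (hx : 0 < x) (hx2 : x ^ 2 ≤ 1 / 4) (hA : 4 * x ^ 2 ≤ A - 1) (ht : 1 - x ^ 2 / 2 ≤ t) :
    n / (n - m) - A ^ 2 * t ≤ -(A - 1) := by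
  have h1 : n / (n - m) ≤ 1 + 2 * x ^ 2 := by
    have hnm : 0 < n - m := by linarith
    rw [div_le_iff₀ hnm]
    have h2 : m ≤ x ^ 2 * n := by rwa [div_le_iff₀ hn] at hmx
    have h3 : 0 ≤ x ^ 2 := sq_nonneg x
    nlinarith
  have hx0 : 0 < x ^ 2 := by positivity
  obtain ⟨a, ha⟩ : ∃ a, a = A - 1 := ⟨_, rfl⟩
  have hAa : A = 1 + a := by linarith
  rw [← ha] at hA ⊢
  have ha0 : 0 < a := by linarith
  have h4 : 1 + 2 * a ≤ A ^ 2 := by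
    rw [hAa]
    nlinarith
  have ht0 : 0 ≤ 1 - x ^ 2 / 2 := by linarith
  have h5 : (1 + 2 * a) * (1 - x ^ 2 / 2) ≤ A ^ 2 * t :=
    mul_le_mul h4 ht ht0 (sq_nonneg _)
  have h6 : a * x ^ 2 ≤ a * (1 / 4) := mul_le_mul_of_nonneg_left hx2 ha0.le
  have h7 : (1 + 2 * a) * (1 - x ^ 2 / 2) = 1 + 2 * a - x ^ 2 / 2 - a * x ^ 2 := by ring
  linarith

/-- **The own slope, one law.** -/
theorem slope_pt {b : ℝ} (hb : 0 < b) : ∃ ε : ℝ, 0 < ε ∧ ε ≤ 1 ∧ ∃ C : ℝ, 4 ≤ C ∧ ∀ (L : Law),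
    L.b = b → Adm L → L.η ≤ 1 / 2 → L.s ≠ 0 → 0 < L.x → L.x < 1 →
    ∀ r0 : ℝ, L.c = L.s ^ 2 * L.n * (1 - (1 - L.x) * r0) → 0 < 1 - (1 - L.x) * r0 →
    b * (1 - (1 - L.x) * r0) ≤ 2 → 8 * (L.x ^ 2 * L.b ^ 2) ≤ 1 → L.x * √(b ^ 2 + 2) ≤ 1 / 4 →
    L.b ^ 2 + L.vp ≤ b ^ 2 + 2 →
    ∀ (T wn U t u : ℝ) (m : ℕ), NeP L (b ^ 2 + 2) U T wn m t u → 0 < U → U ≤ 1 → 0 < T →
    T ≤ L.x ^ 2 → 0 < wn → 2 * m ≤ L.n → ∀ wf, wf = u * L.vp / L.b ^ 2 → 0 < wf → wf ≤ U →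
    ∀ pQ : ℝ, L.ex' t u (H317.ind U (L.Q (Sn L.n m) t u)) ≤ pQ →
    L.x ≤ ε → L.x ^ 2 ≤ 1 / 4 → L.x ≤ U → L.η ≤ ε → L.η * U ^ 3 ≤ ε * wf → m / L.n ≤ L.x ^ 2 →
    U * (5 / √m + 2 * |L.lam / ((1 - L.x) * (L.s ^ 2 * L.n))| +
      3 * ((|r0| + 1) * √(PstL L t u)) / √U) ≤ ε * wf →
    U ^ 2 * √(12 * U / (L.x ^ 2 * wn * L.n)) ≤ ε * wf → L.x ^ 2 * U ^ 3 ≤ ε * wf →
    54 * U / m ≤ ε * wf →
    U ^ 3 * (32 / cK (b ^ 2 + 2) * (1 / √(m : ℝ) + (1 / √(L.n * (wn / 2)) +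
      L.η * |L.s| / √(wn / 2)))) ≤ ε * wf → pQ ≤ ε * wf →
    b * (1 - (1 - L.x) * r0) ≤ 1 + C * L.x ^ 2 := by
  have hb2 : 0 < b ^ 2 + 2 := by positivity
  have hc0 : 0 < cK (b ^ 2 + 2) := cK_pos hb2
  obtain ⟨ε, hε, hε1, C, hC1, hR⟩ := slope_alg hb hc0 (√(b ^ 2 + 2))
  refine ⟨ε, hε, hε1, max C 4, le_max_right _ _, ?_⟩
  intro L hLb hA hη1 hs hx0 hx1 r0 hc hk hA2 hxb hxb0 hbb T wn U t u m hP hU0 hU1 hT0 hTx hwn
    hm2 wf hwfd hwf hwfU pQ hQ hxε hx4 hxU hηε hηU hmn g1 g2 g3 g4 g5 g6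
  by_contra hcon
  push Not at hcon
  have hl := hA.lam0
  have hη := hA.η0
  have hvp := hA.vp0
  have hn0 : (0 : ℝ) < L.n := by exact_mod_cast hA.n0
  have hw := wtL (L := L) hl hη t u
  have hm0 : 1 ≤ m := hP.m1
  have hmR : (0 : ℝ) < m := by exact_mod_cast (show 0 < m by omega)
  have hm2R : (m : ℝ) ≤ L.n / 2 := by
    have : (2 * m : ℝ) ≤ L.n := by exact_mod_cast hm2
    linarith
  have hT1 : T ≤ 1 := by linarith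
  have ht12 : 1 / 2 ≤ t := by have := hP.t0; linarith
  have ht1 : t ≤ 1 := by have := hP.t1; linarith
  have ht0 : 0 ≤ t := by linarith
  have hu0 := hP.u0
  obtain ⟨i0, hi0⟩ : ∃ i0 : Fin L.n, i0.1 + m = L.n := ⟨⟨L.n - m, by omega⟩, by
    show L.n - m + m = L.n
    omega⟩
  have hx2 : 0 < L.x ^ 2 := by positivity
  have hCx : C * L.x ^ 2 ≤ b * (1 - (1 - L.x) * r0) - 1 := by
    have : C * L.x ^ 2 ≤ max C 4 * L.x ^ 2 := mul_le_mul_of_nonneg_right (le_max_left _ _) hx2.le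
    linarith
  have h4x : 4 * L.x ^ 2 ≤ b * (1 - (1 - L.x) * r0) - 1 := by
    have : 4 * L.x ^ 2 ≤ max C 4 * L.x ^ 2 := mul_le_mul_of_nonneg_right (le_max_right _ _) hx2.le
    linarith
  have hlin := lin_neg (A := b * (1 - (1 - L.x) * r0)) (t := t) hn0 hmR.le hm2R hmn hx0 hx4 h4x
    (by have := hP.t0; linarith)
  have key := pk_typ hb2 hA hη1 hs hx0 hx1 hc hk hxb hxb0 hbb hP hU0 hU1 hT0 hT1 hwn
    (by rw [← hwfd]; exact hwfU) hi0 hQ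
  rw [← hwfd] at key
  obtain ⟨kp, hkp⟩ : ∃ kp, kp = 1 - (1 - L.x) * r0 := ⟨_, rfl⟩
  rw [← hkp] at hk hA2 hCx hlin key
  rw [hLb] at key
  have hX0 : 0 ≤ L.ex' t u (L.Q (Sn L.n m) t u) := H615.ex_nonneg hw (Qn L (Sn L.n m) t u)
  have hX1 : L.ex' t u (L.Q (Sn L.n m) t u) ≤ 9 / 4 := by
    have h1 := ex_Q_le hl hη hη1 hA.n0 (Sn L.n m) hU0.le (hP.cc1 (Sn L.n m))
    linarith
  have hY := Yq_le hA (m := m) (t := t) (u := u) ht0 ht1 hu0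
  rw [← hwfd] at hY
  have hq20 : 0 ≤ L.qq (Sn L.n m) t u := H615.ex_nonneg hw fun z => sq_nonneg _
  have hI : 27 * (L.n * U) / m / (L.n - m) ≤ ε * wf := by
    refine le_trans ?_ g4
    have h3 : (L.n : ℝ) / 2 ≤ L.n - m := by linarith
    have h4 : 0 ≤ 27 * (L.n * U) / m := by positivity
    calc 27 * (L.n * U) / m / (L.n - m) ≤ 27 * (L.n * U) / m / (L.n / 2) :=
          div_le_div_of_nonneg_left h4 (by positivity) h3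
      _ = 54 * U / m := by field_simp; ring
  exact hR (L.ex' t u (L.Q (Sn L.n m) t u)) (L.qq (Sn L.n m) t u) (Qc L m t u) (Yq L m t u) L.x
    L.η U _ wf _ pQ _ _ _ kp t hX0 hX1 hq20 (Qc_nonneg hA) (qq_sq_le hA) hY hx0 hxε hxU hU1 hη
    hηε hηU (by positivity) hwf (hwfU.trans hU1) ht0 ht1 hk hA2 g1 g2 g3 hI g5 g6 hCx hlin key

end Vale.Agent.P146.H272
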