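import Vale.Agent.P146.H272.NeCond

/-!
# P146: the numbers of the bound of the own slope, at one `n`

`Sw a0 b1 q A n y V m` : the window; `m` hidden sites, `m ~ n^(1-40q) y^2`, overlap size `n^q y`.
-/

namespace Vale.Agent.P146.H272

open Real Filter Vale.Agent.P146.H470

/-- the window -/
structure Sw (a0 b1 q A : ℝ) (n : ℕ) (y V m : ℝ) : Prop where
  n1 : (1 : ℝ) < n
  y0 : 0 < y
  V0 : 0 < V
  yl : (n : ℝ) ^ (-a0 + 1000 * q) ≤ A * y
  yu : y ≤ A * (n : ℝ) ^ (-b1)
  Vl : (n : ℝ) ^ (-(24 * q)) * y ^ 3 ≤ A * V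
  Vu : V ≤ A * ((n : ℝ) ^ (-(24 * q)) * y ^ 3)
  ml : (n : ℝ) ^ (1 - 40 * q) * y ^ 2 ≤ m
  mu : m ≤ 4 * ((n : ℝ) ^ (1 - 40 * q) * y ^ 2)

/-- the constant of the numbers -/
noncomputable def SM (A ε b K : ℝ) : ℝ :=
  10 * |log A| + 10 * |log ε| + 10 * |log b| + |log K| + 1000

/-- **The numbers.** -/
theorem sl_nums {a0 b1 q A ε b K : ℝ} {n : ℕ} (hq : 0 < q) (hb1 : 100 * q ≤ b1) (ha : a0 ≤ 1 / 6)
    (hA : 0 < A) (hε : 0 < ε) (hb : 0 < b) (hK : 0 < K) (hM : SM A ε b K ≤ q / 100 * log n)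
    {y V m : ℝ} (hW : Sw a0 b1 q A n y V m) :
    (n : ℝ) ^ q * y ≤ 1 ∧ V / b ^ 2 ≤ (n : ℝ) ^ q * y ∧ (n : ℝ) ^ (-(100 : ℝ)) ≤ ε * V ∧
    (n : ℝ) ^ q * y * (5 / √m) ≤ ε * V ∧
    (n : ℝ) ^ q * y * (5 * ((n : ℝ) ^ (-(3800 * q)) * y ^ 2)) ≤ ε * V ∧
    ((n : ℝ) ^ q * y) ^ 2 * √(48 * ((n : ℝ) ^ q * y) / (y ^ 2 * V * n)) ≤ ε * V ∧
    y ^ 2 * ((n : ℝ) ^ q * y) ^ 3 ≤ ε * V ∧ 54 * ((n : ℝ) ^ q * y) / m ≤ ε * V ∧
    ((n : ℝ) ^ q * y) ^ 3 * (1 / √m) ≤ ε * V ∧
    ((n : ℝ) ^ q * y) ^ 3 * (1 / √(n * (V / 8))) ≤ ε * V ∧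
    (n : ℝ) ^ (-(2000 * q)) * ((n : ℝ) ^ q * y) ^ 3 ≤ ε * V ∧
    (n : ℝ) ^ (-(2 : ℝ)) ≤ (n : ℝ) ^ q * y ∧
    K * (n : ℝ) ^ (-(49 : ℝ)) ≤ (n : ℝ) ^ (-(3800 * q)) * y ^ 2 ∧
    8 * √((n : ℝ) ^ (1 + q) * y ^ 6 / (y ^ 2 * b ^ 2 * y ^ 2 * n)) ≤ (n : ℝ) ^ q * y ∧
    m / n ≤ y ^ 2 ∧ 8 * m ≤ n ∧ y ≤ (n : ℝ) ^ q * y ∧
    ((n : ℝ) ^ (3 / 4 * q) * y ^ 2) ^ 2 ≤ ((n : ℝ) ^ q * y) ^ 2 * (y ^ 2 / 4) := by
  have hn : (0 : ℝ) < n := one_pos.trans hW.n1
  have hy := hW.y0
  have hV := hW.V0
  have P : ∀ r : ℝ, 0 < (n : ℝ) ^ r := fun r => Real.rpow_pos_of_pos hn r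
  have hX : 0 < (n : ℝ) ^ (1 - 40 * q) * y ^ 2 := mul_pos (P _) (by positivity)
  have hm : 0 < m := lt_of_lt_of_le hX hW.ml
  have g1 := Real.log_le_log (P _) hW.yl
  have g2 := Real.log_le_log hy hW.yu
  have g3 := Real.log_le_log (mul_pos (P _) (by positivity)) hW.Vl
  have g4 := Real.log_le_log hV hW.Vu
  have g6 := Real.log_le_log hX hW.ml
  have g7 := Real.log_le_log hm hW.mu
  simp (disch := positivity) only [Real.log_mul, Real.log_rpow, Real.log_pow] at g1 g2 g3 g4 g6 g7
  push_cast at g3 g4 g6 g7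
  have k1 : log A ≤ |log A| := le_abs_self _
  have k1' : -log A ≤ |log A| := neg_le_abs _
  have k2 : -log ε ≤ |log ε| := neg_le_abs _
  have k2' : log ε ≤ |log ε| := le_abs_self _
  have k5 : log b ≤ |log b| := le_abs_self _
  have k6 : -log b ≤ |log b| := neg_le_abs _
  have k7 : log K ≤ |log K| := le_abs_self _
  have k3 := abs_nonneg (log A)
  have k4 := abs_nonneg (log ε)
  have k8 := abs_nonneg (log b)
  have k9 := abs_nonneg (log K)
  have cl : ∀ c : ℝ, 0 < c → c ≤ 100 → log c ≤ 100 := fun c h0 h1 =>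
    (Real.log_le_sub_one_of_pos h0).trans (by linarith)
  have c8 := cl 8 (by norm_num) (by norm_num)
  have c5 := cl 5 (by norm_num) (by norm_num)
  have c48 := cl 48 (by norm_num) (by norm_num)
  have c54 := cl 54 (by norm_num) (by norm_num)
  have c4 := cl 4 (by norm_num) (by norm_num)
  have d8 : 0 < log 8 := Real.log_pos (by norm_num)
  have d4 : 0 < log 4 := Real.log_pos (by norm_num)
  have hL0 : 0 < log (n : ℝ) := Real.log_pos hW.n1
  have hM' := hM
  unfold SM at hM'
  set L := log (n : ℝ) with hLd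
  set ly := log y with hly
  set lV := log V with hlV
  set lm := log m with hlm
  have qL : 0 < q * L := mul_pos hq hL0
  have bL : 100 * (q * L) ≤ b1 * L := by
    have := mul_le_mul_of_nonneg_right hb1 hL0.le
    linarith
  have aL : a0 * L ≤ 1 / 6 * L := mul_le_mul_of_nonneg_right ha hL0.le
  have hM2 : 10 * |log A| + 10 * |log ε| + 10 * |log b| + |log K| + 1000 ≤ q * L / 100 := by
    linarith
  have hly1 : -(1 / 6) * L + 1000 * (q * L) ≤ log A + ly := by linarith
  have hly2 : ly ≤ log A - 100 * (q * L) := by linarith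
  have hqL : 6000 * (q * L) ≤ L := by linarith
  refine ⟨?_, ?_, ?_, ?_, ?_, ?_, ?_, ?_, ?_, ?_, ?_, ?_, ?_, ?_, ?_, ?_, ?_, ?_⟩
  · refine le_of_log (by positivity) one_pos ?_
    simp (disch := positivity) only [Real.log_mul, Real.log_rpow, Real.log_one]
    linarith
  · refine le_of_log (by positivity) (by positivity) ?_
    simp (disch := positivity) only [Real.log_mul, Real.log_div, Real.log_rpow, Real.log_pow]
    push_cast
    linarith
  · refine le_eps (by positivity) hV hε ?_
    simp (disch := positivity) only [Real.log_rpow]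
    linarith
  · refine le_eps (by positivity) hV hε ?_
    simp (disch := positivity) only [Real.log_mul, Real.log_div, Real.log_rpow, Real.log_sqrt]
    linarith
  · refine le_eps (by positivity) hV hε ?_
    simp (disch := positivity) only [Real.log_mul, Real.log_rpow, Real.log_pow]
    push_cast
    linarith
  · refine le_eps (by positivity) hV hε ?_
    simp (disch := positivity) only [Real.log_mul, Real.log_div, Real.log_rpow, Real.log_pow,
      Real.log_sqrt]
    push_cast
    linarith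
  · refine le_eps (by positivity) hV hε ?_
    simp (disch := positivity) only [Real.log_mul, Real.log_rpow, Real.log_pow]
    push_cast
    linarith
  · refine le_eps (by positivity) hV hε ?_
    simp (disch := positivity) only [Real.log_mul, Real.log_div, Real.log_rpow]
    linarith
  · refine le_eps (by positivity) hV hε ?_
    simp (disch := positivity) only [Real.log_mul, Real.log_div, Real.log_rpow, Real.log_pow,
      Real.log_sqrt, Real.log_one]
    push_cast
    linarith
  · refine le_eps (by positivity) hV hε ?_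
    simp (disch := positivity) only [Real.log_mul, Real.log_div, Real.log_rpow, Real.log_pow,
      Real.log_sqrt, Real.log_one]
    push_cast
    linarith
  · refine le_eps (by positivity) hV hε ?_
    simp (disch := positivity) only [Real.log_mul, Real.log_rpow, Real.log_pow]
    push_cast
    linarith
  · refine le_of_log (by positivity) (by positivity) ?_
    simp (disch := positivity) only [Real.log_mul, Real.log_rpow]
    linarith
  · refine le_of_log (by positivity) (by positivity) ?_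
    simp (disch := positivity) only [Real.log_mul, Real.log_rpow, Real.log_pow]
    push_cast
    linarith
  · refine le_of_log (by positivity) (by positivity) ?_
    simp (disch := positivity) only [Real.log_mul, Real.log_div, Real.log_rpow, Real.log_pow,
      Real.log_sqrt]
    push_cast
    linarith
  · refine le_of_log (by positivity) (by positivity) ?_
    simp (disch := positivity) only [Real.log_div, Real.log_pow]
    push_cast
    linarith
  · refine le_of_log (by positivity) hn ?_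
    rw [Real.log_mul (by norm_num) hm.ne']
    linarith
  · refine le_of_log hy (by positivity) ?_
    simp (disch := positivity) only [Real.log_mul, Real.log_rpow]
    linarith
  · refine le_of_log (by positivity) (by positivity) ?_
    simp (disch := positivity) only [Real.log_mul, Real.log_div, Real.log_rpow, Real.log_pow]
    push_cast
    linarith

end Vale.Agent.P146.H272
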