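import Vale.Agent.P146.H272.NePt

/-!
# P146: the typical point with the share of the plain field

`ne_num_u` : as `ne_num`; the share of the plain field at the point is at least `1 - wn / vp`.
-/

open MeasureTheory ProbabilityTheory

namespace Vale.Agent.P146.H272

open Vale.Agent.P157.Lv Vale.Agent.P146.H425 Vale.Agent.P146.H646 Vale.Agent.P146.H196
  Vale.Agent.P146.H475 Vale.Agent.P146.H347 Vale.Agent.P146.H418 Vale.Agent.P146.H412
  Vale.Agent.P146.H320 Vale.Agent.P146.H205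

variable {L : Law}

/-- The numbers at the typical point, with the lower bound of the share of the plain field. -/
theorem ne_num_u (h : Adm L) (hη1 : L.η ≤ 1 / 2) (hx : 0 < L.x) (hxb : L.x ^ 2 * L.b ^ 2 ≤ 4)
    {b2 : ℝ} (hb2 : 0 < b2) (hxc : L.x ≤ H355.cK b2 / 4)
    (hbb : L.b ^ 2 + L.vp + (1 + L.η) ^ 2 * L.s ^ 2 ≤ b2) {g : ℝ}
    (hg : ∀ t ∈ Set.Icc (0 : ℝ) 1, ∀ u ∈ Set.Icc (0 : ℝ) 1, gn L t u ≤ g) (hg1 : 1 ≤ g)
    {T wn : ℝ} (hT0 : 0 < T) (hT1 : T ≤ 1) (hwn : 0 < wn) (hwv : wn ≤ L.vp)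
    {m1 : ℕ} (h1 : 1 ≤ m1) (h2 : 2 * m1 < L.n) :
    ∃ t u : ℝ, ∃ m ∈ Finset.Icc m1 (2 * m1),
      NeP L b2 (min 1 (8 * √(g / (L.x ^ 2 * L.b ^ 2 * T * L.n)))) T wn m t u ∧
      1 - wn / L.vp ≤ u := by
  have hn0 : (0 : ℝ) < L.n := by exact_mod_cast h.n0
  have hv := h.vp0
  have hb := h.b0
  have hl := h.lam0
  have hη := h.η0
  set r := g / (L.x ^ 2 * L.b ^ 2 * T * L.n) with hr
  have hg0 : 0 < g := by linarith
  have hr0 : 0 < r := by rw [hr]; positivity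
  set U8 := 8 * √r with hU8
  have hU80 : 0 < U8 := by rw [hU8]; positivity
  have hU2 : U8 ^ 2 = 64 * r := by
    rw [hU8, mul_pow, Real.sq_sqrt hr0.le]
    norm_num
  set U := min 1 U8 with hU
  have hU0 : 0 < U := by rw [hU]; exact lt_min one_pos hU80
  have hmin : ∀ X : ℝ, X ≤ 1 → X ≤ U8 ^ 2 → X ≤ U ^ 2 := by
    intro X h1 h2
    rcases min_choice 1 U8 with h3 | h3 <;> rw [hU, h3]
    · simpa using h1
    · exact h2
  have hmin4 : ∀ X : ℝ, X ≤ 1 → X ≤ U8 ^ 4 → X ≤ U ^ 4 := by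
    intro X h1 h2
    rcases min_choice 1 U8 with h3 | h3 <;> rw [hU, h3]
    · simpa using h1
    · exact h2
  -- moments at every point of the window
  have mom : ∀ t u : ℝ, 0 ≤ t → t ≤ 1 - T / 4 → 0 ≤ u → u ≤ 1 → ∀ S : Finset (Fin L.n),
      L.ex' t u (CC L S t u) ≤ U ^ 2 ∧ L.ex' t u (fun z => CC L S t u z ^ 2) ≤ U ^ 4 ∧
      L.ex' t u (H463.Q4g (muA (Xs L.n) L.lam L.η L.c)
        (Sm L.b (cb t) (cf L.vp u) L.s L.η) L.x (Kt L.n S) (H463.spR L.n) S) ≤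
          (L.n : ℝ) ^ 4 * (3 * U ^ 2) ^ 2 := by
    intro t u ht0 ht1 hu0 hu1 S
    have htt : T / 4 ≤ 1 - t := by linarith
    have ht2 : t < 1 := by linarith
    have h1t : 0 < 1 - t := by linarith
    have hgt := hg t ⟨ht0, ht2.le⟩ u ⟨hu0, hu1⟩
    have hq : 4 * g / (L.x ^ 2 * L.b ^ 2 * (1 - t) * L.n) ≤ 16 * r := by
      rw [hr, ← mul_div_assoc, div_le_div_iff₀ (by positivity) (by positivity)]
      have h3 : 4 * g * (L.x ^ 2 * L.b ^ 2 * T * L.n) =
          16 * g * (L.x ^ 2 * L.b ^ 2 * (T / 4) * L.n) := by ring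
      rw [h3]
      gcongr
    have hq0 : 0 ≤ 4 * g / (L.x ^ 2 * L.b ^ 2 * (1 - t) * L.n) := by positivity
    have hw := wtL (L := L) hl hη t u
    have hC0 : ∀ z, 0 ≤ CC L S t u z := fun z => CC_nonneg hl hη S t u z
    have hC1 : ∀ z, CC L S t u z ≤ 1 := fun z => CC_le1 hl hη h.n0 S t u z
    have bC := bm_CC (L := L) hl hη S t u
    refine ⟨hmin _ ?_ ?_, hmin4 _ ?_ ?_, ?_⟩
    · exact (H615.ex_mono hw bC (BM.const 1) hC1).trans (H615.ex_const hw 1).le
    · have h3 := mom_CC hl hη hx h.n0 hb.ne' ht0 ht2 hxb S u hgt hg1 1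
      simp only [pow_one] at h3
      refine h3.trans ?_
      have h4 : Cp 1 = 3 := by norm_num [Cp]
      rw [h4, hU2]
      linarith
    · exact (H615.ex_mono hw (H615.bsq bC) (BM.const 1) fun z =>
        pow_le_one₀ (hC0 z) (hC1 z)).trans (H615.ex_const hw 1).le
    · have h3 := mom_CC hl hη hx h.n0 hb.ne' ht0 ht2 hxb S u hgt hg1 2
      refine h3.trans ?_
      have h4 : Cp 2 = 14 := by norm_num [Cp, Nat.factorial]
      have h5 : U8 ^ 4 = (64 * r) ^ 2 := by rw [← hU2]; ring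
      rw [h4, h5]
      calc 14 * (4 * g / (L.x ^ 2 * L.b ^ 2 * (1 - t) * L.n)) ^ 2 ≤ 14 * (16 * r) ^ 2 := by gcongr
        _ ≤ (64 * r) ^ 2 := by nlinarith [sq_nonneg r]
    · have bsp : ∀ j : Fin L.n, H615.Bd (H463.spR L.n j) := fun j => H347.bm_sp j
      have bQ := H463.bm_Q4g (gmA (n := L.n) L.b (cb t) (cf L.vp u) L.s hl hη L.c) L.x
        (Kt L.n S) bsp S
      rcases min_choice 1 U8 with h9 | h9 <;> rw [hU, h9]
      · refine (H615.ex_mono hw bQ (BM.const _) fun z => Q4_le1 hl hη h.n0 S t u z).trans ?_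
        rw [H615.ex_const hw]
        have : (0 : ℝ) ≤ (L.n : ℝ) ^ 4 := by positivity
        linarith
      · have h3 := H463.q4_can (L := L) hl hη hx h.x1 h.n0 hb.ne' hv ht0 ht2 hu0 hu1 hxb S hgt hg1
        refine h3.trans ?_
        have h4 : 43 * g / (L.x ^ 2 * L.b ^ 2 * (1 - t) * L.n) ≤ 3 * U8 ^ 2 := by
          have h5 : 43 * g / (L.x ^ 2 * L.b ^ 2 * (1 - t) * L.n) =
              43 / 4 * (4 * g / (L.x ^ 2 * L.b ^ 2 * (1 - t) * L.n)) := by ring
          rw [h5, hU2]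
          linarith
        gcongr
  -- the window of the field
  have hwv' : wn / L.vp ≤ 1 := by rw [div_le_one hv]; exact hwv
  have hwp : 0 < wn / L.vp := by positivity
  set u0 := 1 - wn / L.vp with hu0
  set u1 := 1 - wn / L.vp / 2 with hu1
  have hu00 : 0 ≤ u0 := by rw [hu0]; linarith
  have hu01 : u0 ≤ u1 := by rw [hu0, hu1]; linarith
  have hu11 : u1 < 1 := by rw [hu1]; linarith
  have hT4 : 0 ≤ 1 - T / 4 := by linarith
  obtain ⟨t, ht, u, hu', m, hm, k1, k2, k3⟩ := ne_pt (L := L) h hη1 hT0 hT1 hu00 hu01 hu11.le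
    hU0.le h1 (mom (1 - T / 4) u1 hT4 le_rfl (hu00.trans hu01) hu11.le Finset.univ).1
  have hm' := Finset.mem_Icc.1 hm
  have ht0 : 0 ≤ t := by have := ht.1; linarith
  have hu0' : 0 ≤ u := hu00.trans hu'.1
  have hu1' : u < 1 := hu'.2.trans_lt hu11
  have hmm := mom t u ht0 ht.2 hu0' hu1'.le
  have hmR : (0 : ℝ) < m := by
    have : 0 < m := by omega
    exact_mod_cast this
  have hm1R : (0 : ℝ) < m1 := by exact_mod_cast h1
  have hm2 : (m : ℝ) ≤ 2 * m1 := by exact_mod_cast hm'.2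
  have hhw : wn / 2 ≤ (1 - u) * L.vp := by
    have h3 : wn / L.vp / 2 ≤ 1 - u := by
      have := hu'.2
      rw [hu1] at this
      linarith
    calc wn / 2 = wn / L.vp / 2 * L.vp := by field_simp
      _ ≤ (1 - u) * L.vp := mul_le_mul_of_nonneg_right h3 hv.le
  refine ⟨t, u, m, hm, ⟨by omega, by omega, ht.1, ht.2, hu0', hu1', hhw, ?_, fun i0 hi0 => ?_,
    fun S => (hmm S).1, fun S => (hmm S).2.1, fun S => (hmm S).2.2, fun i0 hi0 => ?_⟩, hu'.1⟩
  · have h3 : L.vp * (u1 - u0) = wn / 2 := by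
      rw [hu0, hu1]
      field_simp
      ring
    have h4 : L.x ^ 2 * L.vp * (u1 - u0) = L.x ^ 2 * (wn / 2) := by
      rw [mul_assoc, h3]
    rw [h4] at k2
    exact k2
  · refine (k3 i0 hi0).trans ?_
    rw [div_le_div_iff₀ hm1R hmR]
    have h3 : 0 ≤ L.n * U := by positivity
    nlinarith
  · refine (H355.k3_can L hl hη hx.le hb2 hxc hbb hv ht0 (by linarith [ht.2]) hu0' hu1'
      hi0).trans ?_
    have hc : 0 ≤ 32 / H355.cK b2 := by
      have := H355.cK_pos hb2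
      positivity
    have hw2 : 0 < wn / 2 := by positivity
    have e1 : 1 / √(L.n * ((1 - u) * L.vp)) ≤ 1 / √(L.n * (wn / 2)) := by
      apply one_div_le_one_div_of_le (Real.sqrt_pos.2 (by positivity))
      exact Real.sqrt_le_sqrt (by gcongr)
    have e2 : L.η * |L.s| / √((1 - u) * L.vp) ≤ L.η * |L.s| / √(wn / 2) := by
      apply div_le_div_of_nonneg_left (by positivity) (Real.sqrt_pos.2 hw2)
      exact Real.sqrt_le_sqrt hhw
    gcongr

end Vale.Agent.P146.H272
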