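import Vale.Agent.P146.H272.SlopeUp
import Vale.Agent.P146.H119.S3N7

set_option linter.all false

/-!
# P146: the own slope, in the size and the unit of the exponents

Port of `H272.slope_up` (and of `kw_small`, `kw_pst`, `kw_gn`) to `EV`.
-/

open MeasureTheory ProbabilityTheory Filter Topology Set

namespace Vale.Agent.P146.S3

open Vale.Agent.P157.Lv hiding Dep
open Vale.Agent.P146.H425 Vale.Agent.P146.H646 Vale.Agent.P146.H196
  Vale.Agent.P146.H475 Vale.Agent.P146.H347 Vale.Agent.P146.H418 Vale.Agent.P146.H412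
  Vale.Agent.P146.H320 Vale.Agent.P146.H205 Vale.Agent.P146.H529
  Vale.Agent.P146.H355 Vale.Agent.P146.H272
open Vale.Agent.P146.H470 (le_of_log)

variable {a0 b₁ A b : ℝ}

/-- the parameters are small on the window -/
theorem kw_smallQ (hb : 0 < b) (hb₁0 : 0 < b₁) (hA : 1 ≤ A) {c : ℝ} (hc : 0 < c) :
    EV fun n q => ∀ y V al s lam η : ℝ, KW a0 b₁ q A b n y V al s lam η →
      y ≤ c ∧ V ≤ c ∧ s ^ 2 ≤ c ∧ η ≤ c ∧ |al| ≤ (n : ℝ) ^ (25 * q) * y ^ 2 ∧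
        (n : ℝ) ^ (25 * q) * y ^ 2 ≤ c := by
  filter_upwards [ev_log (θ := 1 / 10) (by norm_num)
    (10 * Real.log A + 10 * |Real.log b| + 10 * |Real.log c| + 100),
    ev_atTop (eventually_gt_atTop 1), ev_q0, ev_qlt100 hb₁0] with ⟨n, q⟩ e1 hn hq hb₁
  dsimp only at e1 hn hq hb₁ ⊢
  intro y V al s lam η h
  have hn0 : (0 : ℝ) < n := by exact_mod_cast (by omega : 0 < n)
  have hn1 : (1 : ℝ) < n := by exact_mod_cast hn
  have hL : 0 < Real.log n := Real.log_pos hn1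
  have hA0 : 0 < A := by linarith
  have hlA : 0 ≤ Real.log A := Real.log_nonneg hA
  have hlb' := le_abs_self (Real.log b)
  have hab := abs_nonneg (Real.log b)
  have hlc := neg_le_abs (Real.log c)
  have hac := abs_nonneg (Real.log c)
  have hy := h.y0
  have hV := h.V0
  have hs := h.s0
  have hη := h.η0
  have g2 := Real.log_le_log hy h.yu
  have g3 := Real.log_le_log (by positivity) h.Vl
  have g4 := Real.log_le_log hV h.Vu
  have g5 := Real.log_le_log (by positivity) h.s2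
  have g6 := Real.log_le_log hη h.η1
  simp (disch := positivity) only [Real.log_mul, Real.log_rpow, Real.log_pow] at g2 g3 g4 g5 g6
  push_cast at g3 g4 g5
  have m1 : 100 * (q * Real.log n) < b₁ * Real.log n := by
    have := mul_lt_mul_of_pos_right hb₁ hL
    linarith
  have m3 : 0 < q * Real.log n := mul_pos hq hL
  have c4 : Real.log 4 ≤ 3 := by
    have := Real.log_le_sub_one_of_pos (x := 4) (by norm_num)
    linarith
  have ha := h.sg.abs_le (s0 := q / 2) h.n1.le hb hy.le h.ap hV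
  refine ⟨?_, ?_, ?_, ?_, ha.trans ?_, ?_⟩
  · refine le_of_log hy hc ?_
    linarith
  · refine le_of_log hV hc ?_
    linarith
  · refine le_of_log (by positivity) hc ?_
    rw [Real.log_pow]
    push_cast
    linarith
  · refine le_of_log hη hc ?_
    linarith
  · refine le_of_log (by positivity) (by positivity) ?_
    simp (disch := positivity) only [Real.log_mul, Real.log_div, Real.log_rpow, Real.log_pow]
    push_cast
    linarith
  · refine le_of_log (by positivity) hc ?_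
    simp (disch := positivity) only [Real.log_mul, Real.log_rpow, Real.log_pow]
    push_cast
    linarith

/-- the amplitude is not stuck -/
theorem kw_pstQ (hb : 0 < b) (ha0 : a0 ≤ 1 / 6) (hb₁0 : 0 < b₁) (hA : 1 ≤ A) (D : ℝ) :
    EV fun n q => ∀ y V al s lam η : ℝ, KW a0 b₁ q A b n y V al s lam η →
      ∀ t ∈ Icc (0 : ℝ) 1, ∀ u ∈ Icc (0 : ℝ) 1,
      H615.PstL (lawOf n b y V al s lam η) t u ≤ (n : ℝ) ^ (-D) := by
  filter_upwards [kw_par1 (a0 := a0) (b₁ := b₁) (b := b) hA ha0 hb₁0,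
    tail_ap (D := D) (c := 1) one_pos hb] with ⟨n, q⟩ h1 h2
  dsimp only at h1 h2 ⊢
  rw [one_mul] at h2
  intro y V al s lam η h t ht u hu
  obtain ⟨p1, p3, p2, -⟩ := h1 y V al s lam η h
  have hy := h.y0
  exact h2 Bool Bool (H418.cb t) (H418.cf (V - s ^ 2) u) lam s η y V al (sum_cb ht.1 ht.2)
    (by rw [sum_cf p3.le hu.1 hu.2]; ring) p1.V1 h.s0 p1.lam1 h.η0 p1.η1 h.ll hy
    (by linarith [p1.y1]) h.sg

/-- the gain -/
theorem kw_gnQ (hb : 0 < b) (ha0 : a0 ≤ 1 / 6) (hb₁0 : 0 < b₁) (hA : 1 ≤ A) :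
    EV fun n q => ∀ y V al s lam η : ℝ, KW a0 b₁ q A b n y V al s lam η →
      (∀ t ∈ Icc (0 : ℝ) 1, ∀ u ∈ Icc (0 : ℝ) 1,
        gn (lawOf n b y V al s lam η) t u ≤ (n : ℝ) ^ (1 + q) * y ^ 6) ∧
      1 ≤ (n : ℝ) ^ (1 + q) * y ^ 6 := by
  filter_upwards [kw_par1 (a0 := a0) (b₁ := b₁) (b := b) hA ha0 hb₁0,
    gn_ev1 (b := b) (e := 900) (s0 := 1 / 2) (s1 := 1) hb (by norm_num) (by norm_num)
      (by norm_num), ev_ge 1, ev_q0] with ⟨n, q⟩ h1 h2 g2 hq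
  dsimp only at h1 h2 g2 hq ⊢
  rw [one_mul] at h2
  intro y V al s lam η h
  obtain ⟨p1, p3, p2, -⟩ := h1 y V al s lam η h
  refine ⟨h2 (V - s ^ 2) s lam η y V al p1, ?_⟩
  have hn1 : (1 : ℝ) ≤ n := by exact_mod_cast g2
  have hn0 : (0 : ℝ) < n := by linarith
  have h3 := ypow g2 p1.y0
  calc (1 : ℝ) ≤ (n : ℝ) ^ (q + 6 * (900 * q)) := Real.one_le_rpow hn1 (by linarith)
    _ = (n : ℝ) ^ (1 + q) * (n : ℝ) ^ (-1 + 6 * (900 * q)) := by
        rw [← Real.rpow_add hn0]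
        congr 1
        ring
    _ ≤ _ := by gcongr

/-- **The own slope is at most a constant times the square of the tilt.** -/
theorem slope_upQ {b : ℝ} (hb : 0 < b) : ∃ C : ℝ, 1 ≤ C ∧ ∀ {a0 b₁ A : ℝ}, a0 ≤ 1 / 6 →
    0 < b₁ → 1 ≤ A → EV fun n q => ∀ y V al s lam η : ℝ,
      KW a0 b₁ q A b n y V al s lam η → al ≤ C * y ^ 2 := by
  obtain ⟨ε, hε, hε1, C, hC, hpt⟩ := slope_pt hb
  have hptS : SlopePt b ε C := hpt
  have hb2 : 0 < b ^ 2 + 2 := by positivity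
  have hcK := cK_pos hb2
  refine ⟨C, by linarith, ?_⟩
  intro a0 b₁ A ha0 hb₁0 hA
  have hA0 : 0 < A := by linarith
  obtain ⟨kc, hkcd⟩ : ∃ kc : ℝ, kc = 32 / cK (b ^ 2 + 2) := ⟨_, rfl⟩
  have hkc0 : 0 < kc := by rw [hkcd]; positivity
  obtain ⟨δ, hδd⟩ : ∃ δ : ℝ, δ = ε / (4 * b ^ 2 * (3 + 4 * kc)) := ⟨_, rfl⟩
  have hδ : 0 < δ := by rw [hδd]; positivity
  have hδe : 4 * b ^ 2 * (3 + 4 * (32 / cK (b ^ 2 + 2))) * δ ≤ ε := by
    rw [← hkcd, hδd, mul_div_cancel₀ _ (by positivity : (4 * b ^ 2 * (3 + 4 * kc)) ≠ 0)]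
  obtain ⟨c0, hc0p, hc1, hc2, hc3, hc4⟩ : ∃ c0 : ℝ, 0 < c0 ∧ c0 ≤ cK (b ^ 2 + 2) / 4 ∧
      c0 ≤ 1 / (4 * (√(b ^ 2 + 2) + 1)) ∧ c0 ≤ 1 / 8 ∧ c0 ≤ ε :=
    ⟨min (min (cK (b ^ 2 + 2) / 4) ε) (min (1 / (4 * (√(b ^ 2 + 2) + 1))) (1 / 8)),
      lt_min (lt_min (by positivity) hε) (lt_min (by positivity) (by norm_num)),
      (min_le_left _ _).trans (min_le_left _ _),
      (min_le_right _ _).trans (min_le_left _ _), (min_le_right _ _).trans (min_le_right _ _),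
      (min_le_left _ _).trans (min_le_right _ _)⟩
  have hK : 0 < 3 * (2 * (1 + 2 / b) + 1) := by positivity
  filter_upwards [kw_par1 (a0 := a0) (b₁ := b₁) (b := b) hA ha0 hb₁0,
    kw_smallQ (a0 := a0) hb hb₁0 hA hc0p, kw_pstQ (b := b) hb ha0 hb₁0 hA 100,
    kw_gnQ hb ha0 hb₁0 hA,
    tail_ev1 (b := b) (e := 900) (s0 := 1 / 2) (s1 := 1) (s2 := 3 / 4) 100 hb
      (by norm_num) (by norm_num) (by norm_num) (by norm_num),
    ev_log (θ := 1 / 100) (by norm_num) (SM A δ b (3 * (2 * (1 + 2 / b) + 1))), ev_q0,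
    ev_qlt100 hb₁0]
    with ⟨n, q⟩ e1 e2 e4 e5 e6 hM hq hb₁
  dsimp only at e1 e2 e4 e5 e6 hM hq hb₁ ⊢
  replace hM : SM A δ b (3 * (2 * (1 + 2 / b) + 1)) ≤ q / 100 * Real.log n := by linarith
  intro y V al s lam η h
  obtain ⟨p1, p3, p2, -⟩ := e1 y V al s lam η h
  obtain ⟨s1, s2, s3, s4, s5, s6⟩ := e2 y V al s lam η h
  have hPst := e4 y V al s lam η h
  obtain ⟨hgn, hg1⟩ := e5 y V al s lam η h
  have hn1 : 1 < n := h.n1
  have hn : 0 < n := by omega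
  have hn0 : (0 : ℝ) < n := by exact_mod_cast hn
  have hy := h.y0
  have hη := h.η0
  have hV := h.V0
  obtain ⟨q1, q2, q3, q4, q5, q6, -⟩ := small_facts hb hy hη s1 s2 s3 s4 (s5.trans s6) hc2 hc3
  have hy18 : y ≤ 1 / 8 := s1.trans hc3
  have hy1 : y < 1 := by linarith
  have hη2 : η ≤ 1 / 2 := by linarith [s4.trans hc3]
  have hAdm : Adm (lawOf n b y V al s lam η) :=
    ⟨hn, hb, p3, h.l0, h.η0.le, hy.le, hy1.le⟩
  have hsV : s ^ 2 ≤ V / 2 := by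
    have h1 := mul_le_mul_of_nonneg_right (half_unit hn1 hM) hV.le
    linarith [h.s2]
  obtain ⟨X, hXd⟩ : ∃ X : ℝ, X = (n : ℝ) ^ (1 - 40 * q) * y ^ 2 := ⟨_, rfl⟩
  have hX0 : 0 < X := by rw [hXd]; positivity
  have hc1' : 1 ≤ ⌈X⌉₊ := Nat.one_le_ceil_iff.2 hX0
  have hSw : ∀ m : ℝ, X ≤ m → m ≤ 4 * X → Sw a0 b₁ q A n y V m := fun m h1 h2 =>
    ⟨by exact_mod_cast hn1, hy, hV, h.yl, h.yu, h.Vl, h.Vu, by rw [← hXd]; exact h1,
      by rw [← hXd]; exact h2⟩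
  have hX1 : 1 ≤ X := by
    rw [hXd]
    exact sites_ge hq ha0 hA0 hn1 hM hy h.yl
  have hNw : ∀ m ∈ Finset.Icc ⌈X⌉₊ (2 * ⌈X⌉₊), Sw a0 b₁ q A n y V m := by
    intro m hm
    have hm' := Finset.mem_Icc.1 hm
    have h1 : X ≤ m := (Nat.le_ceil X).trans (by exact_mod_cast hm'.1)
    have h2 : (m : ℝ) ≤ 4 * X := by
      have h3 : (m : ℝ) ≤ 2 * ⌈X⌉₊ := by exact_mod_cast hm'.2
      have h4 := (Nat.ceil_lt_add_one hX0.le).le
      linarith
    exact hSw m h1 h2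
  have hN := fun m hm => sl_nums hq hb₁.le ha0 hA0 hδ hb hK hM (hNw m hm)
  have hMn : 2 * ⌈X⌉₊ < n := by
    obtain ⟨-, -, -, -, -, -, -, -, -, -, -, -, -, -, -, f16, -⟩ :=
      hN (2 * ⌈X⌉₊) (Finset.mem_Icc.2 ⟨by omega, le_rfl⟩)
    have h3 : (1 : ℝ) ≤ ((2 * ⌈X⌉₊ : ℕ) : ℝ) := by
      exact_mod_cast (by omega : 1 ≤ 2 * ⌈X⌉₊)
    have h2 : ((2 * ⌈X⌉₊ : ℕ) : ℝ) < n := by linarith
    exact_mod_cast h2
  have hy2 : 0 < y ^ 2 := by positivity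
  have hy21 : y ^ 2 ≤ 1 := by
    have : y ^ 2 ≤ 1 ^ 2 := pow_le_pow_left₀ hy.le hy1.le 2
    linarith
  obtain ⟨t, u, m, hm, hP, hu⟩ := ne_num_u (L := lawOf n b y V al s lam η) hAdm
    hη2 hy p2 hb2 (s1.trans hc1) q3 hgn hg1 hy2 hy21 (wn := (V - s ^ 2) / 2) (by linarith)
    (show (V - s ^ 2) / 2 ≤ V - s ^ 2 by linarith) hc1' hMn
  have hu2 : 1 / 2 ≤ u := by
    have h1 : (V - s ^ 2) / 2 / (V - s ^ 2) = 1 / 2 := by
      field_simp
    have h2 : 1 - (V - s ^ 2) / 2 / (V - s ^ 2) ≤ u := hu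
    rw [h1] at h2
    linarith
  obtain ⟨f1, f2, f3, f4, f5, f6, f7, f8, f9, f10, f11, f12, f13, f14, f15, f16, f17, f18⟩ :=
    hN m hm
  have hU0 : 0 < (n : ℝ) ^ q * y := by positivity
  have hPU : NeP (lawOf n b y V al s lam η) (b ^ 2 + 2) ((n : ℝ) ^ q * y) (y ^ 2)
      ((V - s ^ 2) / 2) m t u :=
    hP.mono (by positivity) ((min_le_right _ _).trans f14)
  have ht0 : 0 ≤ t := by linarith [hP.t0]
  have ht4 : t ≤ 1 - y ^ 2 / 4 := hP.t1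
  have hQ := (e6 (V - s ^ 2) s lam η y V al p1 p2 t ht0 (by linarith) u ⟨hP.u0, hP.u1.le⟩
    (Sn n m) ((n : ℝ) ^ q * y) hU0.le (f18.trans
      (mul_le_mul_of_nonneg_left (by linarith) (sq_nonneg _)))).2.1
  exact sl_one hb hptS hε hδ hδe hn hy hη hAdm hη2 hy18 (s1.trans hc4) (s4.trans hc4) h.s0 h.l0
    hV hsV q1 q2 q4 q5 q6 h.η1 (by positivity) h.gg
    (hPst t ⟨ht0, by linarith⟩ u ⟨hP.u0, hP.u1.le⟩) hPU hu2 hU0 hQ f1 f2 f3 f4 f5 f6 f7 f8 f9 f10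
    f11 f12 f13 f15 f16 f17

end Vale.Agent.P146.S3
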