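import Vale.Agent.P146.H272.Pk6
import Vale.Agent.P146.H272.PkU
import Vale.Agent.P146.H272.PkNum
import Vale.Agent.P146.H272.NeS1

set_option linter.all false

/-!
# P146: the own slope is at most a constant times the square of the tilt

`slope_up` : on the window `KW`, `al ≤ C y^2` with `C` depending on `b` only.
`SlopePt` : the statement of `slope_pt`; `slope_core` : one law, all facts at one `n`.
-/

open MeasureTheory ProbabilityTheory Filter Topology Set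

namespace Vale.Agent.P146.H272

open Vale.Agent.P157.Lv hiding Dep
open Vale.Agent.P146.H425 Vale.Agent.P146.H646 Vale.Agent.P146.H196
  Vale.Agent.P146.H475 Vale.Agent.P146.H347 Vale.Agent.P146.H418 Vale.Agent.P146.H412
  Vale.Agent.P146.H320 Vale.Agent.P146.H205 Vale.Agent.P146.H470 Vale.Agent.P146.H529
  Vale.Agent.P146.H355

/-- the statement of `slope_pt` -/
def SlopePt (b ε C : ℝ) : Prop :=
  ∀ (L : Law),
    L.b = b → Adm L → L.η ≤ 1 / 2 → L.s ≠ 0 → 0 < L.x → L.x < 1 →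
    ∀ r0 : ℝ, L.c = L.s ^ 2 * L.n * (1 - (1 - L.x) * r0) → 0 < 1 - (1 - L.x) * r0 →
    b * (1 - (1 - L.x) * r0) ≤ 2 → 8 * (L.x ^ 2 * L.b ^ 2) ≤ 1 → L.x * √(b ^ 2 + 2) ≤ 1 / 4 →
    L.b ^ 2 + L.vp ≤ b ^ 2 + 2 →
    ∀ (T wn U t u : ℝ) (m : ℕ), NeP L (b ^ 2 + 2) U T wn m t u → 0 < U → U ≤ 1 → 0 < T →
    T ≤ L.x ^ 2 → 0 < wn → 2 * m ≤ L.n → ∀ wf, wf = u * L.vp / L.b ^ 2 → 0 < wf → wf ≤ U →
    ∀ pQ : ℝ, L.ex' t u (H317.ind U (L.Q (Sn L.n m) t u)) ≤ pQ →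
    L.x ≤ ε → L.x ^ 2 ≤ 1 / 4 → L.x ≤ U → L.η ≤ ε → L.η * U ^ 3 ≤ ε * wf → m / L.n ≤ L.x ^ 2 →
    U * (5 / √m + 2 * |L.lam / ((1 - L.x) * (L.s ^ 2 * L.n))| +
      3 * ((|r0| + 1) * √(H615.PstL L t u)) / √U) ≤ ε * wf →
    U ^ 2 * √(12 * U / (L.x ^ 2 * wn * L.n)) ≤ ε * wf → L.x ^ 2 * U ^ 3 ≤ ε * wf →
    54 * U / m ≤ ε * wf →
    U ^ 3 * (32 / cK (b ^ 2 + 2) * (1 / √(m : ℝ) + (1 / √(L.n * (wn / 2)) +
      L.η * |L.s| / √(wn / 2)))) ≤ ε * wf → pQ ≤ ε * wf →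
    b * (1 - (1 - L.x) * r0) ≤ 1 + C * L.x ^ 2

/-- the own slope at one law from the numbers against the field variance -/
lemma sl_one {b ε δ C y V al s lam η t u U E3 E2 pQ : ℝ} {n m : ℕ} (hb : 0 < b)
    (hpt : SlopePt b ε C) (hε : 0 < ε) (hδ : 0 < δ)
    (hδe : 4 * b ^ 2 * (3 + 4 * (32 / cK (b ^ 2 + 2))) * δ ≤ ε) (hn : 0 < n) (hy : 0 < y)
    (hη : 0 < η) (hAdm : Adm (lawOf n b y V al s lam η)) (hη2 : η ≤ 1 / 2) (hy18 : y ≤ 1 / 8)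
    (hyε : y ≤ ε) (hηε : η ≤ ε) (hs : 0 < s) (hl : 0 < lam) (hV : 0 < V) (hsV : s ^ 2 ≤ V / 2)
    (q1 : y * √(b ^ 2 + 2) ≤ 1 / 4) (q2 : 8 * (y ^ 2 * b ^ 2) ≤ 1)
    (q4 : b ^ 2 + (V - s ^ 2) ≤ b ^ 2 + 2) (q5 : 0 < 1 + al) (q6 : 1 + al ≤ 2)
    (hη1 : η ≤ E2) (hE3 : 0 < E3) (hgg : lam ≤ E3 * (s ^ 2 * n))
    (hPst : H615.PstL (lawOf n b y V al s lam η) t u ≤ (n : ℝ) ^ (-(100 : ℝ)))
    (hP : NeP (lawOf n b y V al s lam η) (b ^ 2 + 2) U (y ^ 2) ((V - s ^ 2) / 2) m t u)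
    (hu : 1 / 2 ≤ u) (hU : 0 < U)
    (hQ : (lawOf n b y V al s lam η).ex' t u
      (H317.ind U ((lawOf n b y V al s lam η).Q (Sn n m) t u)) ≤ pQ)
    (f1 : U ≤ 1) (f2 : V / b ^ 2 ≤ U) (f3 : pQ ≤ δ * V) (f4 : U * (5 / √(m : ℝ)) ≤ δ * V)
    (f5 : U * (5 * E3) ≤ δ * V) (f6 : U ^ 2 * √(48 * U / (y ^ 2 * V * n)) ≤ δ * V)
    (f7 : y ^ 2 * U ^ 3 ≤ δ * V) (f8 : 54 * U / m ≤ δ * V) (f9 : U ^ 3 * (1 / √(m : ℝ)) ≤ δ * V)
    (f10 : U ^ 3 * (1 / √((n : ℝ) * (V / 8))) ≤ δ * V) (f11 : E2 * U ^ 3 ≤ δ * V)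
    (f12 : (n : ℝ) ^ (-(2 : ℝ)) ≤ U)
    (f13 : 3 * (2 * (1 + 2 / b) + 1) * (n : ℝ) ^ (-(49 : ℝ)) ≤ E3)
    (f15 : (m : ℝ) / n ≤ y ^ 2) (f16 : 8 * (m : ℝ) ≤ n) (f17 : y ≤ U) : al ≤ C * y ^ 2 := by
  have hn0 : (0 : ℝ) < n := by exact_mod_cast hn
  have hy1 : y < 1 := by linarith
  have hb2 : 0 < b ^ 2 + 2 := by positivity
  have hcK := cK_pos hb2
  obtain ⟨kc, hkcd⟩ : ∃ kc : ℝ, kc = 32 / cK (b ^ 2 + 2) := ⟨_, rfl⟩
  have hkc0 : 0 < kc := by rw [hkcd]; positivity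
  rw [← hkcd] at hδe
  have hs2 : 0 < s ^ 2 := by positivity
  have hmp : (0 : ℝ) < m := by exact_mod_cast hP.m1
  have hbkp : b * (1 - (1 - y) * rz b y al) = 1 + al := b_rz hb hy1
  have hkp : 0 < 1 - (1 - y) * rz b y al := by
    rw [rz_eq hy1]
    positivity
  have hvp : V / 2 ≤ V - s ^ 2 := by linarith
  have hvp0 : 0 < V - s ^ 2 := by linarith
  have hG := theta_facts (n := n) hn hb hy hy18 q5 q6 hl hs2 hE3 hgg hPst f12 f13
  obtain ⟨wf, hwfd⟩ : ∃ wf : ℝ, wf = u * (V - s ^ 2) / b ^ 2 := ⟨_, rfl⟩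
  have hu1 : u ≤ 1 := hP.u1.le
  have hu0 : 0 < u := by linarith
  have hwf0 : 0 < wf := by rw [hwfd]; positivity
  have hwfV : V ≤ 4 * b ^ 2 * wf := by
    have h1 : 4 * b ^ 2 * wf = 4 * (u * (V - s ^ 2)) := by rw [hwfd]; field_simp
    have h2 : 1 / 2 * (V / 2) ≤ u * (V - s ^ 2) := mul_le_mul hu hvp (by positivity) hu0.le
    rw [h1]
    linarith
  have hwfU : wf ≤ U := by
    refine le_trans ?_ f2
    rw [hwfd]
    refine div_le_div_of_nonneg_right ?_ (by positivity)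
    calc u * (V - s ^ 2) ≤ 1 * V := mul_le_mul hu1 (by linarith) hvp0.le zero_le_one
      _ = V := one_mul V
  -- the unit
  have hunit : (3 + 4 * kc) * (δ * V) ≤ ε * wf := by
    have h1 : (3 + 4 * kc) * (δ * V) ≤ (3 + 4 * kc) * (δ * (4 * b ^ 2 * wf)) := by gcongr
    have h2 : (3 + 4 * kc) * (δ * (4 * b ^ 2 * wf)) = 4 * b ^ 2 * (3 + 4 * kc) * δ * wf := by ring
    have h3 : 4 * b ^ 2 * (3 + 4 * kc) * δ * wf ≤ ε * wf :=
      mul_le_mul_of_nonneg_right hδe hwf0.le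
    linarith
  have hδV : 0 < δ * V := by positivity
  have hkV : 0 < kc * (δ * V) := by positivity
  have hexp : (3 + 4 * kc) * (δ * V) = 3 * (δ * V) + 4 * (kc * (δ * V)) := by ring
  have hone : ∀ {X : ℝ}, X ≤ δ * V → X ≤ ε * wf := fun hX => by linarith
  have hθ : U * (5 / √(m : ℝ) + 2 * |lam / ((1 - y) * (s ^ 2 * n))| +
      3 * ((|rz b y al| + 1) * √(H615.PstL (lawOf n b y V al s lam η) t u)) / √U) ≤
      ε * wf := by
    have h1 : U * (2 * |lam / ((1 - y) * (s ^ 2 * n))| +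
      3 * ((|rz b y al| + 1) * √(H615.PstL (lawOf n b y V al s lam η) t u)) / √U) ≤
      U * (5 * E3) := mul_le_mul_of_nonneg_left hG hU.le
    calc _ = U * (5 / √(m : ℝ)) + U * (2 * |lam / ((1 - y) * (s ^ 2 * n))| +
        3 * ((|rz b y al| + 1) * √(H615.PstL (lawOf n b y V al s lam η) t u)) / √U) := by ring
      _ ≤ ε * wf := by linarith
  have hrk : U ^ 2 * √(12 * U / (y ^ 2 * ((V - s ^ 2) / 2) * n)) ≤ ε * wf := by
    refine hone (le_trans ?_ f6)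
    have h1 : 12 * U / (y ^ 2 * ((V - s ^ 2) / 2) * n) ≤ 48 * U / (y ^ 2 * V * n) := by
      have h2 : 48 * U / (y ^ 2 * V * n) = 12 * U / (y ^ 2 * (V / 4) * n) := by
        field_simp
        ring
      rw [h2]
      have h3 : V / 4 ≤ (V - s ^ 2) / 2 := by linarith
      gcongr
    gcongr
  have hpb : U ^ 3 * (kc * (1 / √(m : ℝ) + (1 / √(n * ((V - s ^ 2) / 2 / 2)) +
      η * |s| / √((V - s ^ 2) / 2 / 2)))) ≤ ε * wf := by
    have h0 : V / 8 ≤ (V - s ^ 2) / 2 / 2 := by linarith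
    have h1 : 1 / √((n : ℝ) * ((V - s ^ 2) / 2 / 2)) ≤ 1 / √((n : ℝ) * (V / 8)) := by
      apply one_div_le_one_div_of_le (Real.sqrt_pos.2 (by positivity))
      exact Real.sqrt_le_sqrt (by gcongr)
    have h2 : η * |s| / √((V - s ^ 2) / 2 / 2) ≤ 2 * η := by
      rw [div_le_iff₀ (Real.sqrt_pos.2 (by positivity))]
      have h3 : |s| ≤ 2 * √((V - s ^ 2) / 2 / 2) := by
        have h4 : s ^ 2 ≤ (2 * √((V - s ^ 2) / 2 / 2)) ^ 2 := by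
          rw [mul_pow, Real.sq_sqrt (by positivity)]
          linarith
        have h5 := Real.sqrt_le_sqrt h4
        rwa [Real.sqrt_sq_eq_abs, Real.sqrt_sq (by positivity)] at h5
      have h6 := mul_le_mul_of_nonneg_left h3 hη.le
      linarith
    have h7 : U ^ 3 * η ≤ δ * V := by
      refine le_trans ?_ f11
      rw [mul_comm]
      gcongr
    have h8 : U ^ 3 * (1 / √(m : ℝ) + (1 / √(n * ((V - s ^ 2) / 2 / 2)) +
      η * |s| / √((V - s ^ 2) / 2 / 2))) ≤ U ^ 3 * (1 / √(m : ℝ) + (1 / √((n : ℝ) * (V / 8)) +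
      2 * η)) := by gcongr
    have h9 : U ^ 3 * (1 / √(m : ℝ) + (1 / √((n : ℝ) * (V / 8)) + 2 * η)) =
        U ^ 3 * (1 / √(m : ℝ)) + U ^ 3 * (1 / √((n : ℝ) * (V / 8))) + 2 * (U ^ 3 * η) := by ring
    have h10 : U ^ 3 * (1 / √(m : ℝ) + (1 / √(n * ((V - s ^ 2) / 2 / 2)) +
      η * |s| / √((V - s ^ 2) / 2 / 2))) ≤ 4 * (δ * V) := by linarith
    calc U ^ 3 * (kc * (1 / √(m : ℝ) + (1 / √(n * ((V - s ^ 2) / 2 / 2)) +
      η * |s| / √((V - s ^ 2) / 2 / 2)))) = kc * (U ^ 3 * (1 / √(m : ℝ) +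
        (1 / √(n * ((V - s ^ 2) / 2 / 2)) + η * |s| / √((V - s ^ 2) / 2 / 2)))) := by ring
      _ ≤ kc * (4 * (δ * V)) := mul_le_mul_of_nonneg_left h10 hkc0.le
      _ ≤ ε * wf := by linarith
  have hηU : η * U ^ 3 ≤ ε * wf := hone ((mul_le_mul_of_nonneg_right hη1 (by positivity)).trans f11)
  have h2m : 2 * m ≤ n := by
    have h2 : ((2 * m : ℕ) : ℝ) ≤ n := by
      push_cast
      linarith
    exact_mod_cast h2
  have hc : cc n b s al = s ^ 2 * n * (1 - (1 - y) * rz b y al) := by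
    rw [rz_eq hy1]
    unfold cc
    ring
  have hx4 : y ^ 2 ≤ 1 / 4 := by
    have : y ^ 2 ≤ (1 / 8) ^ 2 := pow_le_pow_left₀ hy.le hy18 2
    linarith
  rw [hkcd] at hpb
  have key := hpt (lawOf n b y V al s lam η) rfl hAdm hη2 hs.ne' hy hy1 (rz b y al) hc hkp
    (hbkp.le.trans q6) q2 q1 q4 (y ^ 2) ((V - s ^ 2) / 2) U t u m hP hU f1 (by positivity) le_rfl
    (by positivity) h2m wf hwfd hwf0 hwfU pQ hQ hyε hx4 f17 hηε hηU f15 hθ hrk (hone f7) (hone f8)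
    hpb (hone f3)
  have key2 : b * (1 - (1 - y) * rz b y al) ≤ 1 + C * y ^ 2 := key
  rw [hbkp] at key2
  linarith

lemma half_unit {q A ε b K : ℝ} {n : ℕ} (hn : 1 < n) (hM : SM A ε b K ≤ q / 100 * Real.log n) :
    (n : ℝ) ^ (-(80 * q)) ≤ 1 / 2 := by
  have hn0 : (0 : ℝ) < n := by exact_mod_cast (by omega : 0 < n)
  have k1 := abs_nonneg (Real.log A)
  have k2 := abs_nonneg (Real.log ε)
  have k3 := abs_nonneg (Real.log b)
  have k4 := abs_nonneg (Real.log K)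
  unfold SM at hM
  refine H470.le_of_log (by positivity) (by norm_num) ?_
  rw [Real.log_rpow hn0, one_div, Real.log_inv]
  have h2 := Real.log_le_sub_one_of_pos (x := 2) two_pos
  linarith

/-- there are hidden sites -/
lemma sites_ge {a0 q A ε b K y : ℝ} {n : ℕ} (hq : 0 < q) (ha : a0 ≤ 1 / 6) (hA : 0 < A)
    (hn : 1 < n) (hM : SM A ε b K ≤ q / 100 * Real.log n) (hy : 0 < y)
    (yl : (n : ℝ) ^ (-a0 + 1000 * q) ≤ A * y) : 1 ≤ (n : ℝ) ^ (1 - 40 * q) * y ^ 2 := by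
  have hn0 : (0 : ℝ) < n := by exact_mod_cast (by omega : 0 < n)
  have hn1 : (1 : ℝ) < n := by exact_mod_cast hn
  have k1 := abs_nonneg (Real.log A)
  have k1' := le_abs_self (Real.log A)
  have k2 := abs_nonneg (Real.log ε)
  have k3 := abs_nonneg (Real.log b)
  have k4 := abs_nonneg (Real.log K)
  have g1 := Real.log_le_log (Real.rpow_pos_of_pos hn0 _) yl
  simp (disch := positivity) only [Real.log_mul, Real.log_rpow] at g1
  have hL0 : 0 < Real.log (n : ℝ) := Real.log_pos hn1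
  have qL : 0 < q * Real.log n := mul_pos hq hL0
  have aL : a0 * Real.log n ≤ 1 / 6 * Real.log n := mul_le_mul_of_nonneg_right ha hL0.le
  unfold SM at hM
  refine H470.le_of_log one_pos (by positivity) ?_
  simp (disch := positivity) only [Real.log_mul, Real.log_rpow, Real.log_pow, Real.log_one]
  push_cast
  linarith

/-- **The own slope is at most a constant times the square of the tilt.** -/
theorem slope_up {b : ℝ} (hb : 0 < b) : ∃ C : ℝ, 1 ≤ C ∧ ∀ {a0 b₁ q A : ℝ}, 0 < q → a0 ≤ 1 / 6 →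
    100 * q < b₁ → 1 ≤ A → ∀ᶠ n : ℕ in atTop, ∀ y V al s lam η : ℝ,
      KW a0 b₁ q A b n y V al s lam η → al ≤ C * y ^ 2 := by
  obtain ⟨ε, hε, hε1, C, hC, hpt⟩ := slope_pt hb
  have hptS : SlopePt b ε C := hpt
  have hb2 : 0 < b ^ 2 + 2 := by positivity
  have hcK := cK_pos hb2
  refine ⟨C, by linarith, ?_⟩
  intro a0 b₁ q A hq ha0 hb₁ hA
  have hA0 : 0 < A := by linarith
  obtain ⟨kc, hkcd⟩ : ∃ kc : ℝ, kc = 32 / cK (b ^ 2 + 2) := ⟨_, rfl⟩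
  have hkc0 : 0 < kc := by rw [hkcd]; positivity
  obtain ⟨δ, hδd⟩ : ∃ δ : ℝ, δ = ε / (4 * b ^ 2 * (3 + 4 * kc)) := ⟨_, rfl⟩
  have hδ : 0 < δ := by rw [hδd]; positivity
  have hδe : 4 * b ^ 2 * (3 + 4 * (32 / cK (b ^ 2 + 2))) * δ ≤ ε := by
    rw [← hkcd, hδd, mul_div_cancel₀ _ (by positivity : (4 * b ^ 2 * (3 + 4 * kc)) ≠ 0)]
  obtain ⟨c0, hc0p, hc1, hc2, hc3, hc4⟩ : ∃ c0 : ℝ, 0 < c0 ∧ c0 ≤ cK (b ^ 2 + 2) / 4 ∧
      c0 ≤ 1 / (4 * (√(b ^ 2 + 2) + 1)) ∧ c0 ≤ 1 / 8 ∧ c0 ≤ ε :=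
    ⟨min (min (cK (b ^ 2 + 2) / 4) ε) (min (1 / (4 * (√(b ^ 2 + 2) + 1))) (1 / 8)),
      lt_min (lt_min (by positivity) hε) (lt_min (by positivity) (by norm_num)),
      (min_le_left _ _).trans (min_le_left _ _),
      (min_le_right _ _).trans (min_le_left _ _), (min_le_right _ _).trans (min_le_right _ _),
      (min_le_left _ _).trans (min_le_right _ _)⟩
  have hK : 0 < 3 * (2 * (1 + 2 / b) + 1) := by positivity
  filter_upwards [H30.kw_par1 hq hb ha0 hb₁ hA, kw_small (a0 := a0) hq hb hb₁ hA hc0p,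
    kw_pst hq hb ha0 hb₁ hA 100, kw_gn hq hb ha0 hb₁ hA,
    H516.tail_ev1 (b := b) (e := 999 * q) (s0 := q / 2) (s1 := q) (s2 := 3 / 4 * q) 100 hb
      (by positivity) (by positivity) (by linarith) (by linarith),
    ev_log (θ := q / 100) (by positivity) (SM A δ b (3 * (2 * (1 + 2 / b) + 1)))]
    with n e1 e2 e4 e5 e6 hM
  intro y V al s lam η h
  obtain ⟨p1, p2, p3, p4⟩ := e1 y V al s lam η h
  obtain ⟨s1, s2, s3, s4, s5, s6⟩ := e2 y V al s lam η h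
  have hPst := e4 y V al s lam η h
  obtain ⟨hgn, hg1⟩ := e5 y V al s lam η h
  have hn1 : 1 < n := h.n1
  have hn : 0 < n := by omega
  have hn0 : (0 : ℝ) < n := by exact_mod_cast hn
  have hy := h.y0
  have hη := h.η0
  have hV := h.V0
  obtain ⟨q1, q2, q3, q4, q5, q6, -⟩ := small_facts hb hy hη s1 s2 s3 s4 (s5.trans s6) hc2 hc3
  have hy18 : y ≤ 1 / 8 := s1.trans hc3
  have hy1 : y < 1 := by linarith
  have hη2 : η ≤ 1 / 2 := by linarith [s4.trans hc3]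
  have hAdm : Adm (lawOf n b y V al s lam η) :=
    ⟨hn, hb, p3, h.l0, h.η0.le, hy.le, hy1.le⟩
  have hsV : s ^ 2 ≤ V / 2 := by
    have h1 := mul_le_mul_of_nonneg_right (half_unit hn1 hM) hV.le
    linarith [h.s2]
  obtain ⟨X, hXd⟩ : ∃ X : ℝ, X = (n : ℝ) ^ (1 - 40 * q) * y ^ 2 := ⟨_, rfl⟩
  have hX0 : 0 < X := by rw [hXd]; positivity
  have hc1' : 1 ≤ ⌈X⌉₊ := Nat.one_le_ceil_iff.2 hX0
  have hSw : ∀ m : ℝ, X ≤ m → m ≤ 4 * X → Sw a0 b₁ q A n y V m := fun m h1 h2 =>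
    ⟨by exact_mod_cast hn1, hy, hV, h.yl, h.yu, h.Vl, h.Vu, by rw [← hXd]; exact h1,
      by rw [← hXd]; exact h2⟩
  have hX1 : 1 ≤ X := by
    rw [hXd]
    exact sites_ge hq ha0 hA0 hn1 hM hy h.yl
  have hNw : ∀ m ∈ Finset.Icc ⌈X⌉₊ (2 * ⌈X⌉₊), Sw a0 b₁ q A n y V m := by
    intro m hm
    have hm' := Finset.mem_Icc.1 hm
    have h1 : X ≤ m := (Nat.le_ceil X).trans (by exact_mod_cast hm'.1)
    have h2 : (m : ℝ) ≤ 4 * X := by
      have h3 : (m : ℝ) ≤ 2 * ⌈X⌉₊ := by exact_mod_cast hm'.2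
      have h4 := (Nat.ceil_lt_add_one hX0.le).le
      linarith
    exact hSw m h1 h2
  have hN := fun m hm => sl_nums hq hb₁.le ha0 hA0 hδ hb hK hM (hNw m hm)
  have hMn : 2 * ⌈X⌉₊ < n := by
    obtain ⟨-, -, -, -, -, -, -, -, -, -, -, -, -, -, -, f16, -⟩ :=
      hN (2 * ⌈X⌉₊) (Finset.mem_Icc.2 ⟨by omega, le_rfl⟩)
    have h3 : (1 : ℝ) ≤ ((2 * ⌈X⌉₊ : ℕ) : ℝ) := by
      exact_mod_cast (by omega : 1 ≤ 2 * ⌈X⌉₊)
    have h2 : ((2 * ⌈X⌉₊ : ℕ) : ℝ) < n := by linarith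
    exact_mod_cast h2
  have hy2 : 0 < y ^ 2 := by positivity
  have hy21 : y ^ 2 ≤ 1 := by
    have : y ^ 2 ≤ 1 ^ 2 := pow_le_pow_left₀ hy.le hy1.le 2
    linarith
  obtain ⟨t, u, m, hm, hP, hu⟩ := ne_num_u (L := lawOf n b y V al s lam η) hAdm
    hη2 hy p2 hb2 (s1.trans hc1) q3 hgn hg1 hy2 hy21 (wn := (V - s ^ 2) / 2) (by linarith)
    (show (V - s ^ 2) / 2 ≤ V - s ^ 2 by linarith) hc1' hMn
  have hu2 : 1 / 2 ≤ u := by
    have h1 : (V - s ^ 2) / 2 / (V - s ^ 2) = 1 / 2 := by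
      field_simp
    have h2 : 1 - (V - s ^ 2) / 2 / (V - s ^ 2) ≤ u := hu
    rw [h1] at h2
    linarith
  obtain ⟨f1, f2, f3, f4, f5, f6, f7, f8, f9, f10, f11, f12, f13, f14, f15, f16, f17, f18⟩ :=
    hN m hm
  have hU0 : 0 < (n : ℝ) ^ q * y := by positivity
  have hPU : NeP (lawOf n b y V al s lam η) (b ^ 2 + 2) ((n : ℝ) ^ q * y) (y ^ 2)
      ((V - s ^ 2) / 2) m t u :=
    hP.mono (by positivity) ((min_le_right _ _).trans f14)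
  have ht0 : 0 ≤ t := by linarith [hP.t0]
  have ht4 : t ≤ 1 - y ^ 2 / 4 := hP.t1
  have hQ := (e6 (V - s ^ 2) s lam η y V al p1 p2 t ht0 (by linarith) u ⟨hP.u0, hP.u1.le⟩
    (Sn n m) ((n : ℝ) ^ q * y) hU0.le (f18.trans
      (mul_le_mul_of_nonneg_left (by linarith) (sq_nonneg _)))).2.1
  exact sl_one hb hptS hε hδ hδe hn hy hη hAdm hη2 hy18 (s1.trans hc4) (s4.trans hc4) h.s0 h.l0
    hV hsV q1 q2 q4 q5 q6 h.η1 (by positivity) h.gg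
    (hPst t ⟨ht0, by linarith⟩ u ⟨hP.u0, hP.u1.le⟩) hPU hu2 hU0 hQ f1 f2 f3 f4 f5 f6 f7 f8 f9 f10
    f11 f12 f13 f15 f16 f17

end Vale.Agent.P146.H272
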